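import Vale.Agent.P143.MathlibUsed
import Vale.Agent.P143.Statement

set_option linter.all false

section

section

/-!
Common definitions for P143: logistic noise, weights, Euler scheme.
-/

namespace Vale.Agent.P143

open MeasureTheory

/-- logistic density -/
noncomputable def dens (z : ℝ) : ℝ := Real.exp (-z) / (1 + Real.exp (-z)) ^ 2

/-- likelihood ratio of a shift by `r` -/
noncomputable def wt (r z : ℝ) : ℝ := dens (z - r) / dens z

/-- logistic law on the line -/
noncomputable def logistic : Measure ℝ :=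
  (volume : Measure ℝ).withDensity fun z => ENNReal.ofReal (dens z)

/-- `k` Euler steps of size `h` for the time dependent field `b` -/
noncomputable def euler {E : Type*} (b : ℝ → (E → ℝ) → E → ℝ) (h : ℝ) :
    ℕ → (E → ℝ) → E → ℝ
  | 0, z => z
  | k + 1, z => fun e => euler b h k z e + h * b (k * h) (euler b h k z) e

/-- the field obtained from a drift that is a function of the weights -/
noncomputable def field {E : Type*} (a : (E → ℝ) → E → ℝ) (r : ℝ) (z : E → ℝ) : E → ℝ :=
  a fun f => wt r (z f)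

/-- probability of `i ∈ T` when `T` is chosen from `𝒯` with probability proportional
to the product of the weights of its elements -/
noncomputable def ustp {ι : Type*} [DecidableEq ι] (𝒯 : Finset (Finset ι)) (w : ι → ℝ)
    (i : ι) : ℝ :=
  (∑ T ∈ 𝒯 with i ∈ T, ∏ j ∈ T, w j) / ∑ T ∈ 𝒯, ∏ j ∈ T, w j

/-- indicator vector of a finite set -/
def ind {ι : Type*} [DecidableEq ι] (T : Finset ι) (i : ι) : ℝ := if i ∈ T then 1 else 0

/-- functions with bounded derivative and quadratically small Taylor remainder -/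
def C11 {E F : Type*} [NormedAddCommGroup E] [NormedSpace ℝ E] [NormedAddCommGroup F]
    [NormedSpace ℝ F] (f : E → F) (L M : ℝ) : Prop :=
  ∃ D : E → E →L[ℝ] F, (∀ x, ‖D x‖ ≤ L) ∧ ∀ x y, ‖f y - f x - D x (y - x)‖ ≤ M * ‖y - x‖ ^ 2

end Vale.Agent.P143
end
end

section

section

/-!
Spanning forests of finite edge sets and the Dirichlet principle.
-/

namespace Vale.Agent.P143

open SimpleGraph

variable {V : Type*}

/-- connection inside a finite edge set -/
def Conn (B : Finset (Sym2 V)) (x y : V) : Prop :=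
  (fromEdgeSet (B : Set (Sym2 V))).Reachable x y

theorem Conn.refl (B : Finset (Sym2 V)) (x : V) : Conn B x x := Reachable.refl x

theorem Conn.symm {B : Finset (Sym2 V)} {x y : V} (h : Conn B x y) : Conn B y x :=
  Reachable.symm h

theorem Conn.trans {B : Finset (Sym2 V)} {x y z : V} (h : Conn B x y) (h' : Conn B y z) :
    Conn B x z := Reachable.trans h h'

theorem Conn.mono {B C : Finset (Sym2 V)} (hBC : B ⊆ C) {x y : V} (h : Conn B x y) :
    Conn C x y := Reachable.mono (fromEdgeSet_mono (by exact_mod_cast hBC)) h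

theorem conn_of_mem {B : Finset (Sym2 V)} {a b : V} (h : s(a, b) ∈ B) : Conn B a b := by
  by_cases hab : a = b
  · subst hab; exact Conn.refl _ _
  · exact Adj.reachable (by rw [fromEdgeSet_adj]; exact ⟨by exact_mod_cast h, hab⟩)

/-- closure property: a relation that is an equivalence and contains all edges contains `Conn` -/
theorem Conn.rec_on {B : Finset (Sym2 V)} (r : V → V → Prop) (hr : ∀ x, r x x)
    (ht : ∀ x y z, r x y → r y z → r x z) (he : ∀ a b, a ≠ b → s(a, b) ∈ B → r a b) {x y : V}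
    (h : Conn B x y) : r x y := by
  obtain ⟨p⟩ := h
  induction p with
  | nil => exact hr _
  | cons hadj p ih =>
    rw [fromEdgeSet_adj] at hadj
    exact ht _ _ _ (he _ _ hadj.2 (by exact_mod_cast hadj.1)) ih

variable [DecidableEq (Sym2 V)]

theorem conn_insert {B : Finset (Sym2 V)} {a b x y : V} :
    Conn (insert s(a, b) B) x y ↔
      Conn B x y ∨ (Conn B x a ∧ Conn B b y) ∨ (Conn B x b ∧ Conn B a y) := by
  constructor
  · intro h
    refine Conn.rec_on (fun x y => Conn B x y ∨ (Conn B x a ∧ Conn B b y) ∨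
      (Conn B x b ∧ Conn B a y)) (fun x => Or.inl (Conn.refl _ _)) ?_ ?_ h
    · rintro x y z (h1 | ⟨h1, h2⟩ | ⟨h1, h2⟩) (h3 | ⟨h3, h4⟩ | ⟨h3, h4⟩)
      · exact Or.inl (h1.trans h3)
      · exact Or.inr (Or.inl ⟨h1.trans h3, h4⟩)
      · exact Or.inr (Or.inr ⟨h1.trans h3, h4⟩)
      · exact Or.inr (Or.inl ⟨h1, h2.trans h3⟩)
      · exact Or.inr (Or.inl ⟨h1, h4⟩)
      · exact Or.inl (h1.trans h4)
      · exact Or.inr (Or.inr ⟨h1, h2.trans h3⟩)
      · exact Or.inl (h1.trans h4)
      · exact Or.inr (Or.inr ⟨h1, h4⟩)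
    · intro c d _ hcd
      rw [Finset.mem_insert] at hcd
      rcases hcd with hcd | hcd
      · rw [Sym2.eq_iff] at hcd
        rcases hcd with ⟨rfl, rfl⟩ | ⟨rfl, rfl⟩
        · exact Or.inr (Or.inl ⟨Conn.refl _ _, Conn.refl _ _⟩)
        · exact Or.inr (Or.inr ⟨Conn.refl _ _, Conn.refl _ _⟩)
      · exact Or.inl (conn_of_mem hcd)
  · have hab : Conn (insert s(a, b) B) a b := conn_of_mem (Finset.mem_insert_self _ _)
    have hsub : B ⊆ insert s(a, b) B := Finset.subset_insert _ _
    rintro (h | ⟨h1, h2⟩ | ⟨h1, h2⟩)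
    · exact h.mono hsub
    · exact ((h1.mono hsub).trans hab).trans (h2.mono hsub)
    · exact ((h1.mono hsub).trans hab.symm).trans (h2.mono hsub)

/-- acyclicity of a finite edge set -/
def Acyc (B : Finset (Sym2 V)) : Prop := (fromEdgeSet (B : Set (Sym2 V))).IsAcyclic

omit [DecidableEq (Sym2 V)] in
theorem Acyc.mono {B C : Finset (Sym2 V)} (hBC : B ⊆ C) (h : Acyc C) : Acyc B :=
  IsAcyclic.anti (fromEdgeSet_mono (by exact_mod_cast hBC)) h

theorem Acyc.insert {B : Finset (Sym2 V)} {a b : V} (h : Acyc B) (hab : ¬ Conn B a b) :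
    Acyc (insert s(a, b) B) := by
  have := IsAcyclic.sup_edge_of_not_reachable hab h
  unfold Acyc
  convert this using 1
  rw [edge, ← fromEdgeSet_union]
  congr 1
  ext e
  simp [or_comm]

theorem Acyc.not_conn {T : Finset (Sym2 V)} {a b : V} (h : Acyc T) (hab : a ≠ b)
    (he : s(a, b) ∈ T) : ¬ Conn (T.erase s(a, b)) a b := by
  have h1 := (isAcyclic_iff_forall_isBridge.mp h) (e := s(a, b))
    (by rw [edgeSet_fromEdgeSet]; exact ⟨by exact_mod_cast he, by simpa using hab⟩)
  rw [isBridge_iff] at h1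
  intro h2
  apply h1
  unfold Conn at h2
  refine h2.mono ?_
  intro c d hcd
  rw [fromEdgeSet_adj] at hcd
  rw [deleteEdges_adj, fromEdgeSet_adj]
  have h3 := hcd.1
  rw [Finset.mem_coe, Finset.mem_erase] at h3
  exact ⟨⟨by exact_mod_cast h3.2, hcd.2⟩, by simpa only [Set.mem_singleton_iff, Sym2.eq, Sym2.rel_iff', Prod.mk.injEq, Prod.swap_prod_mk, not_or, not_and,     ne_eq] using h3.1⟩

/-- sign of an edge as seen from `x` in the forest `B`, times the increment of `v` -/
noncomputable def cutg (B : Finset (Sym2 V)) (x : V) (v : V → ℝ) (e : Sym2 V) : ℝ :=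
  open Classical in
  Sym2.lift ⟨fun a b => ((if Conn B x a then 1 else 0) - (if Conn B x b then 1 else 0)) *
    (v a - v b), fun a b => by ring⟩ e

omit [DecidableEq (Sym2 V)] in
open Classical in
theorem cutg_mk (B : Finset (Sym2 V)) (x : V) (v : V → ℝ) (a b : V) :
    cutg B x v s(a, b) =
      ((if Conn B x a then 1 else 0) - (if Conn B x b then 1 else 0)) * (v a - v b) := rfl

omit [DecidableEq (Sym2 V)] in
theorem cutg_congr {B : Finset (Sym2 V)} {x y : V} (h : Conn B x y) (v : V → ℝ) (e : Sym2 V) :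
    cutg B x v e = cutg B y v e := by
  classical
  induction e with
  | _ a b =>
    rw [cutg_mk, cutg_mk]
    have h1 : ∀ c, Conn B x c ↔ Conn B y c := fun c =>
      ⟨fun h' => h.symm.trans h', fun h' => h.trans h'⟩
    simp [h1]

theorem cutg_neg {T : Finset (Sym2 V)} {x y : V} {f : Sym2 V} (hf : f ∈ T)
    (hxy : Conn T x y) (hn : ¬ Conn (T.erase f) x y) (v : V → ℝ) :
    cutg (T.erase f) y v f = - cutg (T.erase f) x v f := by
  classical
  induction f with
  | _ a b =>
    have h1 : Conn (insert s(a, b) (T.erase s(a, b))) x y := by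
      rwa [Finset.insert_erase hf]
    set B := T.erase s(a, b)
    rw [conn_insert] at h1
    rw [cutg_mk, cutg_mk]
    rcases h1 with h1 | ⟨h1, h2⟩ | ⟨h1, h2⟩
    · exact absurd h1 hn
    · have h3 : ¬ Conn B x b := fun h => hn (h.trans h2)
      have h4 : ¬ Conn B y a := fun h => hn (h1.trans h.symm)
      simp [h1, h2.symm, h3, h4]
    · have h3 : ¬ Conn B x a := fun h => hn (h.trans h2)
      have h4 : ¬ Conn B y b := fun h => hn (h1.trans h.symm)
      simp [h1, h2.symm, h3, h4]

/-- in a forest the potential difference is the sum over the separating edges -/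
theorem sum_cutg {T : Finset (Sym2 V)} (hT : Acyc T) (v : V → ℝ) {x y : V} (hxy : Conn T x y) :
    ∑ f ∈ T, (cutg (T.erase f) x v f - cutg (T.erase f) y v f) = 2 * (v x - v y) := by
  classical
  refine Conn.rec_on (fun x y => ∑ f ∈ T, (cutg (T.erase f) x v f - cutg (T.erase f) y v f)
    = 2 * (v x - v y)) ?_ ?_ ?_ hxy
  · intro x; simp
  · intro x y z h1 h2
    rw [show 2 * (v x - v z) = 2 * (v x - v y) + 2 * (v y - v z) by ring, ← h1, ← h2,
      ← Finset.sum_add_distrib]
    exact Finset.sum_congr rfl fun f _ => by ring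
  · intro a b hab he
    rw [Finset.sum_eq_single s(a, b)]
    · have h1 : ¬ Conn (T.erase s(a, b)) a b := hT.not_conn hab he
      rw [cutg_mk, cutg_mk]
      have h2 : ¬ Conn (T.erase s(a, b)) b a := fun h => h1 h.symm
      simp only [Conn.refl, ↓reduceIte, h1, sub_zero, one_mul, h2, zero_sub, neg_mul, neg_sub]
      ring
    · intro f hf hne
      have : Conn (T.erase f) a b := conn_of_mem (Finset.mem_erase.mpr ⟨Ne.symm hne, he⟩)
      rw [cutg_congr this, sub_self]
    · intro h; exact absurd he h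

open Classical in
theorem sum_cutg' {T : Finset (Sym2 V)} (hT : Acyc T) (v : V → ℝ) {x y : V} (hxy : Conn T x y) :
    ∑ f ∈ T with ¬ Conn (T.erase f) x y, cutg (T.erase f) x v f = v x - v y := by
  have h := sum_cutg hT v hxy
  have h1 : ∑ f ∈ T, (cutg (T.erase f) x v f - cutg (T.erase f) y v f)
      = 2 * ∑ f ∈ T with ¬ Conn (T.erase f) x y, cutg (T.erase f) x v f := by
    rw [Finset.mul_sum, Finset.sum_filter]
    refine Finset.sum_congr rfl fun f hf => ?_
    split_ifs with h2
    · rw [cutg_congr h2, sub_self]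
    · rw [cutg_neg hf hxy h2]; ring
  linarith only [h, h1]

open Classical in
/-- maximal spanning forests of a finite edge set -/
noncomputable def spans (F : Finset (Sym2 V)) : Finset (Finset (Sym2 V)) :=
  F.powerset.filter fun T => Acyc T ∧ ∀ x y, Conn F x y → Conn T x y

omit [DecidableEq (Sym2 V)] in
theorem mem_spans {F T : Finset (Sym2 V)} :
    T ∈ spans F ↔ T ⊆ F ∧ Acyc T ∧ ∀ x y, Conn F x y → Conn T x y := by
  classical
  simp only [spans, Finset.mem_filter, Finset.mem_powerset]

/-- `f` joins the component of `x` in `B` to another one -/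
def Cross (B : Finset (Sym2 V)) (x : V) (f : Sym2 V) : Prop :=
  Sym2.lift ⟨fun a b => ¬ (Conn B x a ↔ Conn B x b), fun a b => by
    rw [eq_iff_iff, not_iff_not]; exact Iff.comm⟩ f

omit [DecidableEq (Sym2 V)] in
theorem cross_mk {B : Finset (Sym2 V)} {x a b : V} :
    Cross B x s(a, b) ↔ ¬ (Conn B x a ↔ Conn B x b) := Iff.rfl

omit [DecidableEq (Sym2 V)] in
theorem Cross.not_mem {B : Finset (Sym2 V)} {x : V} {f : Sym2 V} (h : Cross B x f) : f ∉ B := by
  induction f with
  | _ a b =>
    intro hf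
    have := conn_of_mem hf
    rw [cross_mk] at h
    exact h ⟨fun h' => h'.trans this, fun h' => h'.trans this.symm⟩

omit [DecidableEq (Sym2 V)] in
theorem cutg_of_not_cross {B : Finset (Sym2 V)} {x : V} {f : Sym2 V} (h : ¬ Cross B x f)
    (v : V → ℝ) : cutg B x v f = 0 := by
  classical
  induction f with
  | _ a b =>
    rw [cross_mk, not_not] at h
    rw [cutg_mk]
    simp [h]

theorem conn_insert_congr {B : Finset (Sym2 V)} {a b : V} {C : Finset (Sym2 V)} (hBC : B ⊆ C)
    (hab : Conn C a b) {x y : V} (h : Conn (insert s(a, b) B) x y) : Conn C x y := by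
  rw [conn_insert] at h
  rcases h with h | ⟨h1, h2⟩ | ⟨h1, h2⟩
  · exact h.mono hBC
  · exact ((h1.mono hBC).trans hab).trans (h2.mono hBC)
  · exact ((h1.mono hBC).trans hab.symm).trans (h2.mono hBC)

theorem spans_exchange₁ {F B : Finset (Sym2 V)} {x y : V} {f : Sym2 V} (hf : f ∈ F)
    (hB : insert s(x, y) B ∈ spans F) (hc : Cross B x f) : insert f B ∈ spans F := by
  induction f with
  | _ a b =>
    wlog hxa : Conn B x a generalizing a b
    · have hxb : Conn B x b := by
        by_contra hxb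
        rw [cross_mk] at hc
        exact hc ⟨fun h => absurd h hxa, fun h => absurd h hxb⟩
      rw [Sym2.eq_swap]
      refine this b a ?_ ?_ hxb
      · rwa [Sym2.eq_swap]
      · rwa [Sym2.eq_swap]
    have hxb : ¬ Conn B x b := by
      rw [cross_mk] at hc
      exact fun h => hc ⟨fun _ => h, fun _ => hxa⟩
    rw [mem_spans] at hB ⊢
    obtain ⟨h1, h2, h3⟩ := hB
    have h4 : Conn (insert s(x, y) B) a b := h3 _ _ (conn_of_mem hf)
    rw [conn_insert] at h4
    have hyb : Conn B y b := by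
      rcases h4 with h4 | ⟨_, h4⟩ | ⟨_, h4⟩
      · exact absurd (hxa.trans h4) hxb
      · exact h4
      · exact absurd h4 hxb
    refine ⟨Finset.insert_subset hf ((Finset.subset_insert _ _).trans h1), ?_, ?_⟩
    · exact (h2.mono (Finset.subset_insert _ _)).insert fun h => hxb (hxa.trans h)
    · intro u v huv
      refine conn_insert_congr (Finset.subset_insert _ _) ?_ (h3 u v huv)
      rw [conn_insert]
      exact Or.inr (Or.inl ⟨hxa, hyb.symm⟩)

theorem spans_exchange₂ {F B : Finset (Sym2 V)} {x y : V} {f : Sym2 V} (he : s(x, y) ∈ F)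
    (hB : insert f B ∈ spans F) (hn : ¬ Conn B x y) :
    insert s(x, y) B ∈ spans F ∧ Cross B x f := by
  induction f with
  | _ a b =>
    rw [mem_spans] at hB
    obtain ⟨h1, h2, h3⟩ := hB
    have h4 : Conn (insert s(a, b) B) x y := h3 _ _ (conn_of_mem he)
    rw [conn_insert] at h4
    have h5 : Conn (insert s(x, y) B) a b ∧ Cross B x s(a, b) := by
      rw [conn_insert, cross_mk]
      rcases h4 with h4 | ⟨h5, h6⟩ | ⟨h5, h6⟩
      · exact absurd h4 hn
      · exact ⟨Or.inr (Or.inl ⟨h5.symm, h6.symm⟩), fun h => hn ((h.1 h5).trans h6)⟩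
      · exact ⟨Or.inr (Or.inr ⟨h6, h5⟩), fun h => hn ((h.2 h5).trans h6)⟩
    refine ⟨?_, h5.2⟩
    rw [mem_spans]
    refine ⟨Finset.insert_subset he ((Finset.subset_insert _ _).trans h1), ?_, ?_⟩
    · exact (h2.mono (Finset.subset_insert _ _)).insert hn
    · intro u v huv
      exact conn_insert_congr (Finset.subset_insert _ _) h5.1 (h3 u v huv)

/-- Kirchhoff double counting -/
theorem kirchhoff {F : Finset (Sym2 V)} {x y : V} (hxy : x ≠ y) (he : s(x, y) ∈ F)
    (w : Sym2 V → ℝ) (v : V → ℝ) :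
    ∑ f ∈ F, w f * ∑ T ∈ spans F with s(x, y) ∈ T,
      (∏ g ∈ T.erase s(x, y), w g) * cutg (T.erase s(x, y)) x v f
    = (∑ T ∈ spans F, ∏ g ∈ T, w g) * (v x - v y) := by
  classical
  rw [Finset.sum_mul]
  have h1 : ∀ T ∈ spans F, (∏ g ∈ T, w g) * (v x - v y) =
      ∑ f ∈ F, if f ∈ T ∧ ¬ Conn (T.erase f) x y then
        (∏ g ∈ T, w g) * cutg (T.erase f) x v f else 0 := by
    intro T hT
    rw [mem_spans] at hT
    rw [← sum_cutg' hT.2.1 v (hT.2.2 _ _ (conn_of_mem he)), Finset.mul_sum, ← Finset.sum_filter]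
    refine Finset.sum_congr ?_ fun _ _ => rfl
    ext f
    simp only [Finset.mem_filter]
    exact ⟨fun h => ⟨hT.1 h.1, h⟩, fun h => h.2⟩
  rw [Finset.sum_congr rfl h1]
  have h2 : ∀ f ∈ F, w f * ∑ T ∈ spans F with s(x, y) ∈ T,
      (∏ g ∈ T.erase s(x, y), w g) * cutg (T.erase s(x, y)) x v f =
      ∑ T ∈ spans F, if s(x, y) ∈ T ∧ Cross (T.erase s(x, y)) x f then
        w f * ((∏ g ∈ T.erase s(x, y), w g) * cutg (T.erase s(x, y)) x v f) else 0 := by
    intro f _
    rw [Finset.mul_sum, Finset.sum_filter]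
    refine Finset.sum_congr rfl fun T _ => ?_
    by_cases h3 : s(x, y) ∈ T
    · by_cases h4 : Cross (T.erase s(x, y)) x f
      · simp [h3, h4]
      · simp [h3, h4, cutg_of_not_cross h4]
    · simp [h3]
  rw [Finset.sum_congr rfl h2, Finset.sum_comm (s := spans F) (t := F),
    ← Finset.sum_product', ← Finset.sum_product', ← Finset.sum_filter, ← Finset.sum_filter]
  refine Finset.sum_nbij' (fun p => (p.1, insert p.1 (p.2.erase s(x, y))))
    (fun p => (p.1, insert s(x, y) (p.2.erase p.1))) ?_ ?_ ?_ ?_ ?_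
  · rintro ⟨f, T⟩ h
    simp only [Finset.mem_filter, Finset.mem_product] at h ⊢
    obtain ⟨⟨h3, h4⟩, h5, h6⟩ := h
    have h7 : f ∉ T.erase s(x, y) := h6.not_mem
    refine ⟨⟨h3, ?_⟩, Finset.mem_insert_self _ _, ?_⟩
    · refine spans_exchange₁ (x := x) (y := y) h3 ?_ h6
      rwa [Finset.insert_erase h5]
    · rw [Finset.erase_insert h7]
      rw [mem_spans] at h4
      exact h4.2.1.not_conn hxy h5
  · rintro ⟨f, T⟩ h
    simp only [Finset.mem_filter, Finset.mem_product] at h ⊢
    obtain ⟨⟨h3, h4⟩, h5, h6⟩ := h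
    have h8 : s(x, y) ∉ T.erase f := fun h => h6 (conn_of_mem h)
    have h7 := spans_exchange₂ (f := f) (B := T.erase f) he (by rwa [Finset.insert_erase h5]) h6
    refine ⟨⟨h3, h7.1⟩, Finset.mem_insert_self _ _, ?_⟩
    rw [Finset.erase_insert h8]
    exact h7.2
  · rintro ⟨f, T⟩ h
    simp only [Finset.mem_filter, Finset.mem_product] at h ⊢
    obtain ⟨⟨h3, h4⟩, h5, h6⟩ := h
    rw [Finset.erase_insert h6.not_mem, Finset.insert_erase h5]
  · rintro ⟨f, T⟩ h
    simp only [Finset.mem_filter, Finset.mem_product] at h ⊢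
    obtain ⟨⟨h3, h4⟩, h5, h6⟩ := h
    have h8 : s(x, y) ∉ T.erase f := fun h => h6 (conn_of_mem h)
    rw [Finset.erase_insert h8, Finset.insert_erase h5]
  · rintro ⟨f, T⟩ h
    simp only [Finset.mem_filter, Finset.mem_product] at h ⊢
    obtain ⟨⟨h3, h4⟩, h5, h6⟩ := h
    rw [Finset.prod_insert h6.not_mem, Finset.erase_insert h6.not_mem]
    ring

omit [DecidableEq (Sym2 V)] in
theorem spans_nonempty (F : Finset (Sym2 V)) : (spans F).Nonempty := by
  classical
  obtain ⟨T, hT, hac, hr⟩ := exists_isAcyclic_reachable_eq_le (G := fromEdgeSet (F : Set (Sym2 V)))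
  have h1 : fromEdgeSet ((F.filter fun e => e ∈ T.edgeSet : Finset (Sym2 V)) : Set (Sym2 V)) = T := by
    ext a b
    rw [fromEdgeSet_adj]
    simp only [Finset.coe_filter, Set.mem_ofPred_eq, mem_edgeSet]
    constructor
    · rintro ⟨⟨_, h⟩, _⟩; exact h
    · intro h
      have h2 := hT h
      rw [fromEdgeSet_adj] at h2
      exact ⟨⟨by exact_mod_cast h2.1, h⟩, h2.2⟩
  refine ⟨F.filter fun e => e ∈ T.edgeSet, ?_⟩
  rw [mem_spans]
  refine ⟨Finset.filter_subset _ _, ?_, ?_⟩
  · unfold Acyc; rwa [h1]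
  · intro x y hxy
    unfold Conn at hxy ⊢
    rw [h1, hr]
    exact hxy

/-- partition function -/
noncomputable def zsum (F : Finset (Sym2 V)) (w : Sym2 V → ℝ) : ℝ :=
  ∑ T ∈ spans F, ∏ g ∈ T, w g

/-- effective resistance between the endpoints of an edge, as a ratio of tree sums -/
noncomputable def res (F : Finset (Sym2 V)) (w : Sym2 V → ℝ) (e : Sym2 V) : ℝ :=
  (∑ T ∈ spans F with e ∈ T, ∏ g ∈ T.erase e, w g) / zsum F w

/-- product of increments along an edge -/
def dd (u v : V → ℝ) (e : Sym2 V) : ℝ :=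
  Sym2.lift ⟨fun a b => (u a - u b) * (v a - v b), fun a b => by ring⟩ e

omit [DecidableEq (Sym2 V)] in
theorem dd_mk (u v : V → ℝ) (a b : V) : dd u v s(a, b) = (u a - u b) * (v a - v b) := rfl

omit [DecidableEq (Sym2 V)] in
theorem dd_self_nonneg (v : V → ℝ) (e : Sym2 V) : 0 ≤ dd v v e := by
  induction e with
  | _ a b => rw [dd_mk]; exact mul_self_nonneg _

omit [DecidableEq (Sym2 V)] in
theorem zsum_pos (F : Finset (Sym2 V)) {w : Sym2 V → ℝ} (hw : ∀ f, 0 < w f) : 0 < zsum F w :=
  Finset.sum_pos (fun _ _ => Finset.prod_pos fun _ _ => hw _) (spans_nonempty F)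

theorem exists_potential {F : Finset (Sym2 V)} {x y : V} (hxy : x ≠ y) (he : s(x, y) ∈ F)
    {w : Sym2 V → ℝ} (hw : ∀ f, 0 < w f) :
    ∃ φ : V → ℝ, (∀ v : V → ℝ, ∑ f ∈ F, w f * dd φ v f = v x - v y) ∧
      φ x - φ y = res F w s(x, y) := by
  classical
  have hz := zsum_pos F hw
  refine ⟨fun u => (∑ T ∈ spans F with s(x, y) ∈ T, (∏ g ∈ T.erase s(x, y), w g) *
    (if Conn (T.erase s(x, y)) x u then 1 else 0)) / zsum F w, ?_, ?_⟩
  · intro v
    have h := kirchhoff hxy he w v
    have h1 : ∀ f ∈ F, w f * dd (fun u => (∑ T ∈ spans F with s(x, y) ∈ T,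
        (∏ g ∈ T.erase s(x, y), w g) *
        (if Conn (T.erase s(x, y)) x u then 1 else 0)) / zsum F w) v f =
        (w f * ∑ T ∈ spans F with s(x, y) ∈ T,
      (∏ g ∈ T.erase s(x, y), w g) * cutg (T.erase s(x, y)) x v f) / zsum F w := by
      intro f _
      induction f with
      | _ a b =>
        rw [dd_mk, mul_div_assoc, ← sub_div, ← Finset.sum_sub_distrib, div_mul_eq_mul_div,
          Finset.sum_mul]
        congr 2
        refine Finset.sum_congr rfl fun T _ => ?_
        rw [cutg_mk]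
        ring
    rw [Finset.sum_congr rfl h1, ← Finset.sum_div, h]
    change zsum F w * (v x - v y) / zsum F w = _
    (clear * - hz; field_simp)
  · simp only [res]
    rw [← sub_div, ← Finset.sum_sub_distrib]
    congr 1
    refine Finset.sum_congr rfl fun T hT => ?_
    rw [Finset.mem_filter, mem_spans] at hT
    have h1 := hT.1.2.1.not_conn hxy hT.2
    simp [Conn.refl, h1]

theorem dirichlet_le {F : Finset (Sym2 V)} {x y : V} (hxy : x ≠ y) (he : s(x, y) ∈ F)
    {w : Sym2 V → ℝ} (hw : ∀ f, 0 < w f) (v : V → ℝ) :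
    2 * (v x - v y) - ∑ f ∈ F, w f * dd v v f ≤ res F w s(x, y) := by
  obtain ⟨φ, h1, h2⟩ := exists_potential hxy he hw
  have h3 := h1 v
  have h4 := h1 φ
  have h5 : 0 ≤ ∑ f ∈ F, w f * dd (v - φ) (v - φ) f :=
    Finset.sum_nonneg fun f _ => mul_nonneg (hw f).le (dd_self_nonneg _ _)
  have h6 : ∑ f ∈ F, w f * dd (v - φ) (v - φ) f = ∑ f ∈ F, w f * dd v v f
      - 2 * ∑ f ∈ F, w f * dd φ v f + ∑ f ∈ F, w f * dd φ φ f := by
    rw [Finset.mul_sum, ← Finset.sum_sub_distrib, ← Finset.sum_add_distrib]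
    refine Finset.sum_congr rfl fun f _ => ?_
    induction f with
    | _ a b => simp only [dd_mk, Pi.sub_apply]; ring
  rw [h3, h4] at h6
  linarith only [h2, h5, h6]

theorem dirichlet_eq {F : Finset (Sym2 V)} {x y : V} (hxy : x ≠ y) (he : s(x, y) ∈ F)
    {w : Sym2 V → ℝ} (hw : ∀ f, 0 < w f) :
    ∃ v : V → ℝ, 2 * (v x - v y) - ∑ f ∈ F, w f * dd v v f = res F w s(x, y) := by
  obtain ⟨φ, h1, h2⟩ := exists_potential hxy he hw
  exact ⟨φ, by rw [h1 φ]; linarith⟩

end Vale.Agent.P143
end
end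

section

section

namespace Vale.Agent.P143

open MeasureTheory Filter Topology

/-- abstract drift: values in [0,1], Lipschitz in the sup norm of the log weights -/
structure IsDrift {E : Type*} (a : (E → ℝ) → E → ℝ) : Prop where
  nonneg : ∀ w, (∀ f, 0 < w f) → ∀ e, 0 ≤ a w e
  le_one : ∀ w, (∀ f, 0 < w f) → ∀ e, a w e ≤ 1
  lip : ∀ w w', (∀ f, 0 < w f) → (∀ f, 0 < w' f) → ∀ δ,
    (∀ f, |Real.log (w f) - Real.log (w' f)| ≤ δ) → ∀ e, |a w e - a w' e| ≤ 4 * δ

/-- convergence of drifts along pointwise convergent weights with bounded log-ratio -/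
def ConvDrift {E : Type*} (an : ℕ → (E → ℝ) → E → ℝ) (a : (E → ℝ) → E → ℝ) : Prop :=
  ∀ (w : E → ℝ) (wn : ℕ → E → ℝ) (K : ℝ), (∀ f, 0 < w f) → (∀ n f, 0 < wn n f) →
    (∀ f, Tendsto (fun n => wn n f) atTop (𝓝 (w f))) →
    (∀ n f, |Real.log (wn n f) - Real.log (w f)| ≤ K) →
    ∀ e, Tendsto (fun n => an n (wn n) e) atTop (𝓝 (a w e))

/-- the flow at integer time N, as the limit of Euler schemes of step 2^(-j) -/
noncomputable def flow {E : Type*} (a : (E → ℝ) → E → ℝ) (N : ℕ) (z : E → ℝ) (e : E) : ℝ :=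
  limUnder atTop fun j : ℕ => euler (field a) (1 / 2 ^ j) (N * 2 ^ j) z e

variable {E : Type*}

theorem dens_pos (z : ℝ) : 0 < dens z := by
  unfold dens; positivity

theorem wt_pos (r z : ℝ) : 0 < wt r z := div_pos (dens_pos _) (dens_pos _)

theorem continuous_dens : Continuous dens := by
  unfold dens
  refine Continuous.div (by fun_prop) (by fun_prop) fun z => ?_
  positivity

theorem continuous_wt (r : ℝ) : Continuous (wt r) := by
  unfold wt
  exact Continuous.div (continuous_dens.comp (by fun_prop)) continuous_dens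
    fun z => (dens_pos z).ne'

theorem log_dens (z : ℝ) : Real.log (dens z) = -z - 2 * Real.log (1 + Real.exp (-z)) := by
  unfold dens
  rw [Real.log_div (Real.exp_pos _).ne' (by positivity), Real.log_exp, Real.log_pow]
  norm_num

theorem log_dens_lip (x y : ℝ) : |Real.log (dens x) - Real.log (dens y)| ≤ |x - y| := by
  have h1 : ∀ z, HasDerivAt (fun z => Real.log (dens z))
      (-1 - 2 * (-Real.exp (-z) / (1 + Real.exp (-z)))) z := by
    intro z
    have : (fun z => Real.log (dens z)) = fun z => -z - 2 * Real.log (1 + Real.exp (-z)) :=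
      funext log_dens
    rw [this]
    have h2 : HasDerivAt (fun z : ℝ => 1 + Real.exp (-z)) (-Real.exp (-z)) z := by
      simpa only [hasDerivAt_const_add_iff, mul_neg, mul_one] using ((hasDerivAt_neg z).exp).const_add 1
    exact (hasDerivAt_neg z).sub ((h2.log (by positivity)).const_mul 2)
  have h3 : ∀ z : ℝ, ‖(-1 - 2 * (-Real.exp (-z) / (1 + Real.exp (-z))))‖ ≤ 1 := by
    intro z
    have hp : 0 < Real.exp (-z) := Real.exp_pos _
    rw [Real.norm_eq_abs, abs_le]
    have : -1 - 2 * (-Real.exp (-z) / (1 + Real.exp (-z))) =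
        (Real.exp (-z) - 1) / (1 + Real.exp (-z)) := by
      field_simp; ring
    rw [this, le_div_iff₀ (by positivity), div_le_iff₀ (by positivity)]
    constructor <;> nlinarith only [hp]
  have := Convex.norm_image_sub_le_of_norm_hasDerivWithin_le (f := fun z => Real.log (dens z))
    (s := Set.univ) (x := y) (y := x) (C := 1) (fun z _ => (h1 z).hasDerivWithinAt)
    (fun z _ => h3 z) convex_univ (Set.mem_univ _) (Set.mem_univ _)
  simpa only [ge_iff_le, Real.norm_eq_abs, one_mul] using this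

theorem log_wt (r z : ℝ) : Real.log (wt r z) = Real.log (dens (z - r)) - Real.log (dens z) :=
  Real.log_div (dens_pos _).ne' (dens_pos _).ne'

theorem log_wt_lip (r r' z z' : ℝ) :
    |Real.log (wt r z) - Real.log (wt r' z')| ≤ 2 * |z - z'| + |r - r'| := by
  rw [log_wt, log_wt]
  have h1 := log_dens_lip (z - r) (z' - r')
  have h2 := log_dens_lip z z'
  have h3 : |z - r - (z' - r')| ≤ |z - z'| + |r - r'| := by
    have : z - r - (z' - r') = (z - z') + (-(r - r')) := by ring
    rw [this]
    exact (abs_add_le _ _).trans (by rw [abs_neg])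
  have h4 : Real.log (dens (z - r)) - Real.log (dens z) -
      (Real.log (dens (z' - r')) - Real.log (dens z')) =
      (Real.log (dens (z - r)) - Real.log (dens (z' - r'))) +
        -(Real.log (dens z) - Real.log (dens z')) := by ring
  rw [h4]
  refine (abs_add_le _ _).trans ?_
  rw [abs_neg]
  linarith

/-! ### the field of a drift -/

section drift

variable {a : (E → ℝ) → E → ℝ}

theorem field_nonneg (ha : IsDrift a) (r : ℝ) (z : E → ℝ) (e : E) : 0 ≤ field a r z e :=
  ha.nonneg _ (fun _ => wt_pos _ _) e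

theorem field_le_one (ha : IsDrift a) (r : ℝ) (z : E → ℝ) (e : E) : field a r z e ≤ 1 :=
  ha.le_one _ (fun _ => wt_pos _ _) e

theorem field_lip (ha : IsDrift a) (r r' : ℝ) (z z' : E → ℝ) (d : ℝ)
    (hd : ∀ f, |z f - z' f| ≤ d) (e : E) :
    |field a r z e - field a r' z' e| ≤ 8 * d + 4 * |r - r'| := by
  have := ha.lip (fun f => wt r (z f)) (fun f => wt r' (z' f)) (fun _ => wt_pos _ _)
    (fun _ => wt_pos _ _) (2 * d + |r - r'|)
    (fun f => (log_wt_lip _ _ _ _).trans (by linarith [hd f])) e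
  unfold field
  linarith only [this]

theorem euler_add_sub (ha : IsDrift a) {h : ℝ} (hh : 0 ≤ h) (k m : ℕ) (z : E → ℝ) (e : E) :
    |euler (field a) h (k + m) z e - euler (field a) h k z e| ≤ m * h := by
  induction m with
  | zero => simp
  | succ m ih =>
    have h1 : euler (field a) h (k + (m + 1)) z e - euler (field a) h k z e =
        (euler (field a) h (k + m) z e - euler (field a) h k z e) +
          h * field a ((k + m : ℕ) * h) (euler (field a) h (k + m) z) e := by
      rw [← Nat.add_assoc, euler]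
      ring
    rw [h1]
    refine (abs_add_le _ _).trans ?_
    have h2 : |h * field a ((k + m : ℕ) * h) (euler (field a) h (k + m) z) e| ≤ h := by
      rw [abs_of_nonneg (mul_nonneg hh (field_nonneg ha _ _ _))]
      exact mul_le_of_le_one_right hh (field_le_one ha _ _ _)
    have h3 : ((m + 1 : ℕ) : ℝ) * h = m * h + h := by push_cast; ring
    rw [h3]
    exact add_le_add ih h2

theorem euler_sub_self (ha : IsDrift a) {h : ℝ} (hh : 0 ≤ h) (k : ℕ) (z : E → ℝ) (e : E) :
    |euler (field a) h k z e - z e| ≤ k * h := by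
  have := euler_add_sub ha hh 0 k z e
  simpa only [ge_iff_le, zero_add, euler] using this

/-- comparison of the Euler schemes with steps h and h/2 -/
theorem euler_half (ha : IsDrift a) {h : ℝ} (hh : 0 ≤ h) (k : ℕ) (z : E → ℝ) (e : E) :
    |euler (field a) h k z e - euler (field a) (h / 2) (2 * k) z e| ≤
      3 * h ^ 2 * k * (1 + 8 * h) ^ k := by
  induction k generalizing e with
  | zero => simp [euler]
  | succ k ih =>
    set D := 3 * h ^ 2 * k * (1 + 8 * h) ^ k with hD
    have hD0 : 0 ≤ D := by (clear * - hh; positivity)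
    set x := euler (field a) h k z with hx
    set y := euler (field a) (h / 2) (2 * k) z with hy
    have e1 : euler (field a) h (k + 1) z e = x e + h * field a (k * h) x e := rfl
    have e2 : euler (field a) (h / 2) (2 * (k + 1)) z e =
        (y e + h / 2 * field a (((2 * k : ℕ) : ℝ) * (h / 2)) y e) +
          h / 2 * field a (((2 * k + 1 : ℕ) : ℝ) * (h / 2))
            (euler (field a) (h / 2) (2 * k + 1) z) e := rfl
    set y' := euler (field a) (h / 2) (2 * k + 1) z with hy'
    have hyy' : ∀ f, |x f - y' f| ≤ D + h / 2 := by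
      intro f
      have h1 := ih f
      have h2 := euler_add_sub ha (h := h / 2) (by (clear * - hh; positivity)) (2 * k) 1 z f
      have h3 : x f - y' f = (x f - y f) + -(y' f - y f) := by ring
      rw [h3]
      refine (abs_add_le _ _).trans ?_
      rw [abs_neg]
      have : |y' f - y f| ≤ h / 2 := by simpa only [Nat.cast_one, one_mul] using h2
      linarith only [h1, h2]
    have b1 := field_lip ha (k * h) (((2 * k : ℕ) : ℝ) * (h / 2)) x y D ih e
    have b2 := field_lip ha (k * h) (((2 * k + 1 : ℕ) : ℝ) * (h / 2)) x y' (D + h / 2) hyy' e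
    have c1 : (k : ℝ) * h - ((2 * k : ℕ) : ℝ) * (h / 2) = 0 := by push_cast; ring
    have c2 : (k : ℝ) * h - ((2 * k + 1 : ℕ) : ℝ) * (h / 2) = -(h / 2) := by push_cast; ring
    rw [c1, abs_zero] at b1
    rw [c2, abs_neg, abs_of_nonneg (by (clear * - hh; positivity) : (0 : ℝ) ≤ h / 2)] at b2
    have h4 : euler (field a) h (k + 1) z e - euler (field a) (h / 2) (2 * (k + 1)) z e =
        (x e - y e) + (h / 2 * (field a (k * h) x e - field a (((2 * k : ℕ) : ℝ) * (h / 2)) y e) +
          h / 2 * (field a (k * h) x e -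
            field a (((2 * k + 1 : ℕ) : ℝ) * (h / 2)) y' e)) := by
      rw [e1, e2]; ring
    rw [h4]
    have h5 := ih e
    have hh2 : (0 : ℝ) ≤ h / 2 := by (clear * - hh; positivity)
    have h6 : |h / 2 * (field a (k * h) x e - field a (((2 * k : ℕ) : ℝ) * (h / 2)) y e)| ≤
        h / 2 * (8 * D + 4 * 0) := by
      rw [abs_mul, abs_of_nonneg hh2]
      exact mul_le_mul_of_nonneg_left b1 hh2
    have h7 : |h / 2 * (field a (k * h) x e -
            field a (((2 * k + 1 : ℕ) : ℝ) * (h / 2)) y' e)| ≤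
        h / 2 * (8 * (D + h / 2) + 4 * (h / 2)) := by
      rw [abs_mul, abs_of_nonneg hh2]
      exact mul_le_mul_of_nonneg_left b2 hh2
    refine (abs_add_le _ _).trans (le_trans (add_le_add h5 ((abs_add_le _ _).trans
      (add_le_add h6 h7))) ?_)
    have h8 : (1 : ℝ) ≤ (1 + 8 * h) ^ (k + 1) := one_le_pow₀ (by linarith only [hh])
    have h9 : 3 * h ^ 2 * ((k : ℝ) + 1) * (1 + 8 * h) ^ (k + 1) =
        D * (1 + 8 * h) + 3 * h ^ 2 * (1 + 8 * h) ^ (k + 1) := by
      rw [hD]; ring
    have h10 : 3 * h ^ 2 ≤ 3 * h ^ 2 * (1 + 8 * h) ^ (k + 1) :=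
      le_mul_of_one_le_right (by (clear * -; positivity)) h8
    push_cast
    rw [h9]
    nlinarith only [h10]

theorem euler_step (ha : IsDrift a) (N j : ℕ) (z : E → ℝ) (e : E) :
    dist (euler (field a) (1 / 2 ^ j) (N * 2 ^ j) z e)
      (euler (field a) (1 / 2 ^ (j + 1)) (N * 2 ^ (j + 1)) z e) ≤
      (6 * N * Real.exp (8 * N)) / 2 / 2 ^ j := by
  have h0 : (0 : ℝ) < 2 ^ j := by positivity
  have h1 := euler_half ha (h := 1 / 2 ^ j) (by positivity) (N * 2 ^ j) z e
  have h2 : (1 : ℝ) / 2 ^ j / 2 = 1 / 2 ^ (j + 1) := by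
    rw [pow_succ]; field_simp
  have h3 : 2 * (N * 2 ^ j) = N * 2 ^ (j + 1) := by ring
  rw [h2, h3] at h1
  rw [Real.dist_eq]
  refine h1.trans ?_
  have h4 : (1 + 8 * (1 / 2 ^ j : ℝ)) ^ (N * 2 ^ j) ≤ Real.exp (8 * N) := by
    have h5 : (1 + 8 * (1 / 2 ^ j : ℝ)) ≤ Real.exp (8 * (1 / 2 ^ j)) := by
      have := Real.add_one_le_exp (8 * (1 / 2 ^ j : ℝ))
      linarith only [this]
    refine (pow_le_pow_left₀ (by positivity) h5 _).trans (le_of_eq ?_)
    rw [← Real.exp_nat_mul]
    congr 1
    push_cast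
    field_simp
  have h6 : 3 * (1 / 2 ^ j : ℝ) ^ 2 * ((N * 2 ^ j : ℕ) : ℝ) = 3 * N / 2 ^ j := by
    push_cast
    field_simp
  rw [h6]
  calc 3 * (N : ℝ) / 2 ^ j * (1 + 8 * (1 / 2 ^ j)) ^ (N * 2 ^ j)
      ≤ 3 * (N : ℝ) / 2 ^ j * Real.exp (8 * N) := by (clear * - h4; gcongr)
    _ = (6 * N * Real.exp (8 * N)) / 2 / 2 ^ j := by ring

theorem euler_tendsto (ha : IsDrift a) (N : ℕ) (z : E → ℝ) (e : E) :
    Tendsto (fun j : ℕ => euler (field a) (1 / 2 ^ j) (N * 2 ^ j) z e) atTop
      (𝓝 (flow a N z e)) :=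
  (cauchySeq_of_le_geometric_two fun j => euler_step ha N j z e).tendsto_limUnder

end drift

/-- uniform convergence of the Euler scheme -/
theorem euler_sub_flow (N : ℕ) : ∃ C : ℝ, ∀ a : (E → ℝ) → E → ℝ, IsDrift a → ∀ (j : ℕ) z e,
    |euler (field a) (1 / 2 ^ j) (N * 2 ^ j) z e - flow a N z e| ≤ C / 2 ^ j := by
  refine ⟨6 * N * Real.exp (8 * N), fun a ha j z e => ?_⟩
  have := dist_le_of_le_geometric_two_of_tendsto (fun j => euler_step ha N j z e)
    (euler_tendsto ha N z e) j
  rwa [Real.dist_eq] at this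

theorem flow_zero (a : (E → ℝ) → E → ℝ) (z : E → ℝ) : flow a 0 z = z := by
  ext e
  unfold flow
  simp only [zero_mul, euler]
  exact tendsto_const_nhds.limUnder_eq

theorem flow_succ_sub (a : (E → ℝ) → E → ℝ) (ha : IsDrift a) (N : ℕ) (z : E → ℝ) (e : E) :
    |flow a (N + 1) z e - flow a N z e| ≤ 1 := by
  refine le_of_tendsto (((euler_tendsto ha (N + 1) z e).sub (euler_tendsto ha N z e)).abs)
    (Eventually.of_forall fun j => ?_)
  have := euler_add_sub ha (h := 1 / 2 ^ j) (by positivity) (N * 2 ^ j) (2 ^ j) z e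
  have h1 : (N + 1) * 2 ^ j = N * 2 ^ j + 2 ^ j := by ring
  rw [h1]
  refine this.trans (le_of_eq ?_)
  push_cast
  field_simp

theorem euler_convDrift (a : (E → ℝ) → E → ℝ) (an : ℕ → (E → ℝ) → E → ℝ) (ha : IsDrift a)
    (han : ∀ n, IsDrift (an n)) (hconv : ConvDrift an a) {h : ℝ} (hh : 0 ≤ h) (k : ℕ)
    (z : E → ℝ) (e : E) :
    Tendsto (fun n => euler (field (an n)) h k z e) atTop (𝓝 (euler (field a) h k z e)) := by
  induction k generalizing e with
  | zero => exact tendsto_const_nhds
  | succ k ih =>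
    have h1 := hconv (fun f => wt (k * h) (euler (field a) h k z f))
      (fun n f => wt (k * h) (euler (field (an n)) h k z f)) (4 * (k * h))
      (fun _ => wt_pos _ _) (fun _ _ => wt_pos _ _)
      (fun f => ((continuous_wt (k * h)).tendsto _).comp (ih f))
      (fun n f => by
        refine (log_wt_lip _ _ _ _).trans ?_
        have h2 := euler_sub_self (han n) hh k z f
        have h3 := euler_sub_self ha hh k z f
        have h4 : euler (field (an n)) h k z f - euler (field a) h k z f =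
          (euler (field (an n)) h k z f - z f) + -(euler (field a) h k z f - z f) := by ring
        have h5 := abs_add_le (euler (field (an n)) h k z f - z f)
          (-(euler (field a) h k z f - z f))
        rw [← h4, abs_neg] at h5
        rw [sub_self, abs_zero]
        linarith) e
    exact (ih e).add (h1.const_mul h)

theorem flow_tendsto (a : (E → ℝ) → E → ℝ) (an : ℕ → (E → ℝ) → E → ℝ) (ha : IsDrift a)
    (han : ∀ n, IsDrift (an n)) (hconv : ConvDrift an a) (N : ℕ) (z : E → ℝ) (e : E) :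
    Tendsto (fun n => flow (an n) N z e) atTop (𝓝 (flow a N z e)) := by
  obtain ⟨C, hC⟩ := euler_sub_flow (E := E) N
  rw [Metric.tendsto_atTop]
  intro ε hε
  have hlim : Tendsto (fun j : ℕ => C / 2 ^ j) atTop (𝓝 0) :=
    tendsto_const_nhds.div_atTop (tendsto_pow_atTop_atTop_of_one_lt one_lt_two)
  obtain ⟨j, hj⟩ := (hlim.eventually (gt_mem_nhds (show (0 : ℝ) < ε / 3 by positivity))).exists
  have h1 := euler_convDrift a an ha han hconv (h := 1 / 2 ^ j) (by positivity) (N * 2 ^ j) z e
  obtain ⟨n₀, hn₀⟩ := (Metric.tendsto_atTop.mp h1) (ε / 3) (by positivity)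
  refine ⟨n₀, fun n hn => ?_⟩
  have h2 := hn₀ n hn
  have h3 := hC (an n) (han n) j z e
  have h4 := hC a ha j z e
  rw [Real.dist_eq] at h2 ⊢
  have h5 : flow (an n) N z e - flow a N z e =
      -(euler (field (an n)) (1 / 2 ^ j) (N * 2 ^ j) z e - flow (an n) N z e) +
      ((euler (field (an n)) (1 / 2 ^ j) (N * 2 ^ j) z e -
        euler (field a) (1 / 2 ^ j) (N * 2 ^ j) z e) +
      (euler (field a) (1 / 2 ^ j) (N * 2 ^ j) z e - flow a N z e)) := by ring
  rw [h5]
  refine lt_of_le_of_lt (abs_add_le _ _) ?_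
  refine lt_of_le_of_lt (add_le_add le_rfl (abs_add_le _ _)) ?_
  rw [abs_neg]
  linarith

/-- semiconjugacy: used both for restriction to finite sets and for equivariance -/
theorem euler_comap {E' : Type*} (i : E' → E) (a : (E → ℝ) → E → ℝ) (a' : (E' → ℝ) → E' → ℝ)
    (h : ∀ w, (∀ f, 0 < w f) → ∀ x, a w (i x) = a' (w ∘ i) x) (t : ℝ) (k : ℕ) (z : E → ℝ)
    (x : E') : euler (field a) t k z (i x) = euler (field a') t k (z ∘ i) x := by
  induction k generalizing x with
  | zero => rfl
  | succ k ih =>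
    have h1 := h (fun f => wt (k * t) (euler (field a) t k z f)) (fun _ => wt_pos _ _) x
    have h2 : (fun f => wt (k * t) (euler (field a) t k z f)) ∘ i =
        fun f => wt (k * t) (euler (field a') t k (z ∘ i) f) := by
      ext y
      simp only [Function.comp_apply, ih y]
    rw [h2] at h1
    simp only [euler, field]
    rw [ih x, h1]

theorem flow_comap {E' : Type*} (i : E' → E) (a : (E → ℝ) → E → ℝ) (a' : (E' → ℝ) → E' → ℝ)
    (h : ∀ w, (∀ f, 0 < w f) → ∀ x, a w (i x) = a' (w ∘ i) x) (N : ℕ) (z : E → ℝ)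
    (x : E') : flow a N z (i x) = flow a' N (z ∘ i) x := by
  unfold flow
  simp only [euler_comap i a a' h]

theorem measurable_euler {Θ : Type*} [MeasurableSpace Θ]
    (a : Θ → (E → ℝ) → E → ℝ)
    (hm : ∀ e, Measurable fun p : Θ × (E → ℝ) => a p.1 p.2 e) (h : ℝ) (k : ℕ) (e : E) :
    Measurable fun p : Θ × (E → ℝ) => euler (field (a p.1)) h k p.2 e := by
  induction k generalizing e with
  | zero => exact (measurable_pi_apply e).comp measurable_snd
  | succ k ih =>
    have h1 : Measurable fun p : Θ × (E → ℝ) =>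
        (p.1, fun f => wt (k * h) (euler (field (a p.1)) h k p.2 f)) :=
      measurable_fst.prodMk (measurable_pi_iff.mpr fun f =>
        (continuous_wt (k * h)).measurable.comp (ih f))
    have h2 := (hm e).comp h1
    exact (ih e).add (h2.const_mul h)

theorem measurable_flow {Θ : Type*} [MeasurableSpace Θ] [Countable E]
    (a : Θ → (E → ℝ) → E → ℝ) (ha : ∀ θ, IsDrift (a θ))
    (hm : ∀ e, Measurable fun p : Θ × (E → ℝ) => a p.1 p.2 e) (N : ℕ) (e : E) :
    Measurable fun p : Θ × (E → ℝ) => flow (a p.1) N p.2 e := by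
  refine measurable_of_tendsto_metrizable (f := fun (j : ℕ) (p : Θ × (E → ℝ)) =>
    euler (field (a p.1)) (1 / 2 ^ j) (N * 2 ^ j) p.2 e)
    (fun j => measurable_euler a hm _ _ e) ?_
  rw [tendsto_pi_nhds]
  exact fun p => euler_tendsto (ha p.1) N p.2 e

end Vale.Agent.P143
end
end

section

section

/-!
The drift of a finite or infinite edge set: bounds, Lipschitz property, convergence.
-/

namespace Vale.Agent.P143

open SimpleGraph Filter Topology MeasureTheory

variable {V : Type*} [DecidableEq (Sym2 V)]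

omit [DecidableEq (Sym2 V)] in
theorem spans_subset {F T : Finset (Sym2 V)} (h : T ∈ spans F) : T ⊆ F := (mem_spans.1 h).1

theorem ustp_of_not_mem {F : Finset (Sym2 V)} {e : Sym2 V} (he : e ∉ F) (w : Sym2 V → ℝ) :
    ustp (spans F) w e = 0 := by
  unfold ustp
  rw [Finset.filter_false_of_mem (fun T hT h => he (spans_subset hT h))]
  simp

theorem ustp_eq {F : Finset (Sym2 V)} (w : Sym2 V → ℝ) (e : Sym2 V) :
    ustp (spans F) w e = w e * res F w e := by
  unfold ustp res zsum
  rw [← mul_div_assoc, Finset.mul_sum]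
  congr 1
  refine Finset.sum_congr rfl fun T hT => ?_
  rw [Finset.mem_filter] at hT
  exact (Finset.mul_prod_erase T w hT.2).symm

theorem ustp_ge_zero {ι : Type*} [DecidableEq ι] (𝒯 : Finset (Finset ι)) {w : ι → ℝ}
    (hw : ∀ f, 0 < w f) (i : ι) : 0 ≤ ustp 𝒯 w i :=
  div_nonneg (Finset.sum_nonneg fun _ _ => Finset.prod_nonneg fun _ _ => (hw _).le)
    (Finset.sum_nonneg fun _ _ => Finset.prod_nonneg fun _ _ => (hw _).le)

theorem ustp_le_unit {ι : Type*} [DecidableEq ι] (𝒯 : Finset (Finset ι)) {w : ι → ℝ}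
    (hw : ∀ f, 0 < w f) (i : ι) : ustp 𝒯 w i ≤ 1 := by
  refine div_le_one_of_le₀ ?_
    (Finset.sum_nonneg fun _ _ => Finset.prod_nonneg fun _ _ => (hw _).le)
  exact Finset.sum_le_sum_of_subset_of_nonneg (Finset.filter_subset _ _)
    fun _ _ _ => Finset.prod_nonneg fun _ _ => (hw _).le

/-- basic comparison inequality coming from the Dirichlet principle -/
theorem res_compare {F F' : Finset (Sym2 V)} {e : Sym2 V} (hd : ¬ e.IsDiag) (he : e ∈ F)
    (hFF' : F ⊆ F') {w w' : Sym2 V → ℝ} (hw : ∀ f, 0 < w f) (hw' : ∀ f, 0 < w' f)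
    {c Λ : ℝ} (hc : 0 < c) (hΛ : 1 ≤ Λ) (h1 : ∀ f ∈ F, w' f ≤ c * w f)
    (h2 : ∀ f ∈ F', w' f ≤ c * (Λ * w f)) :
    Λ * res F' w e - (Λ - 1) * res F w e ≤ c * res F' w' e := by
  induction e with
  | _ x y =>
    have hxy : x ≠ y := by simpa using hd
    obtain ⟨v, hv⟩ := dirichlet_eq hxy (hFF' he) hw
    have h3 := dirichlet_le hxy he hw v
    have h4 := dirichlet_le hxy (hFF' he) hw' (fun u => v u / c)
    have h5 : ∀ f, dd (fun u => v u / c) (fun u => v u / c) f = dd v v f / c ^ 2 := by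
      intro f
      induction f with
      | _ a b => simp only [dd_mk]; (clear * - hc; field_simp)
    simp only [h5] at h4
    have h6 : ∑ f ∈ F', w f * dd v v f =
        ∑ f ∈ F, w f * dd v v f + ∑ f ∈ F' \ F, w f * dd v v f := by
      rw [add_comm, Finset.sum_sdiff hFF']
    have h7 : ∑ f ∈ F', w' f * (dd v v f / c ^ 2) =
        ∑ f ∈ F, w' f * (dd v v f / c ^ 2) + ∑ f ∈ F' \ F, w' f * (dd v v f / c ^ 2) := by
      rw [add_comm, Finset.sum_sdiff hFF']
    have h8 : ∑ f ∈ F, w' f * (dd v v f / c ^ 2) ≤ (∑ f ∈ F, w f * dd v v f) / c := by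
      rw [Finset.sum_div]
      refine Finset.sum_le_sum fun f hf => ?_
      have := mul_le_mul_of_nonneg_right (h1 f hf) (dd_self_nonneg v f)
      rw [le_div_iff₀ hc]
      have h9 : w' f * (dd v v f / c ^ 2) * c = (w' f * dd v v f) / c := by (clear * - hc; field_simp)
      rw [h9, div_le_iff₀ hc]
      linarith only [this]
    have h9 : ∑ f ∈ F' \ F, w' f * (dd v v f / c ^ 2) ≤
        Λ * (∑ f ∈ F' \ F, w f * dd v v f) / c := by
      rw [Finset.mul_sum, Finset.sum_div]
      refine Finset.sum_le_sum fun f hf => ?_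
      have := mul_le_mul_of_nonneg_right (h2 f (Finset.mem_sdiff.1 hf).1) (dd_self_nonneg v f)
      rw [le_div_iff₀ hc]
      have h9 : w' f * (dd v v f / c ^ 2) * c = (w' f * dd v v f) / c := by (clear * - hc; field_simp)
      rw [h9, div_le_iff₀ hc]
      linarith only [this]
    have h10 : c * (2 * (v x / c - v y / c) - ∑ f ∈ F', w' f * (dd v v f / c ^ 2)) ≤
      c * res F' w' s(x, y) := mul_le_mul_of_nonneg_left h4 hc.le
    have h11 : c * ((∑ f ∈ F, w f * dd v v f) / c) = ∑ f ∈ F, w f * dd v v f := by (clear * - hc; field_simp)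
    have h12 : c * (Λ * (∑ f ∈ F' \ F, w f * dd v v f) / c) =
      Λ * ∑ f ∈ F' \ F, w f * dd v v f := by (clear * - hc hΛ; field_simp)
    have h13 : c * (2 * (v x / c - v y / c)) = 2 * (v x - v y) := by (clear * - hc; field_simp)
    have h14 := mul_le_mul_of_nonneg_left h8 hc.le
    have h15 := mul_le_mul_of_nonneg_left h9 hc.le
    have h16 : 0 ≤ (Λ - 1) * (res F w s(x, y) -
      (2 * (v x - v y) - ∑ f ∈ F, w f * dd v v f)) :=
      mul_nonneg (by linarith only [hΛ]) (by linarith only [h3])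
    rw [← hv]
    nlinarith only [h6, h10, h11, h12, h13, h14, h15, h16, hc, h7, hΛ]

theorem res_anti {F F' : Finset (Sym2 V)} {e : Sym2 V} (hd : ¬ e.IsDiag) (he : e ∈ F)
    (hFF' : F ⊆ F') {w : Sym2 V → ℝ} (hw : ∀ f, 0 < w f) : res F' w e ≤ res F w e := by
  induction e with
  | _ x y =>
    have hxy : x ≠ y := by simpa using hd
    obtain ⟨v, hv⟩ := dirichlet_eq hxy (hFF' he) hw
    rw [← hv]
    refine le_trans ?_ (dirichlet_le hxy he hw v)
    have := Finset.sum_le_sum_of_subset_of_nonneg (f := fun f => w f * dd v v f) hFF'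
      fun f _ _ => mul_nonneg (hw f).le (dd_self_nonneg _ _)
    linarith only [this]

/-- weights that are smaller up to the factor `c` have larger resistance up to `c` -/
theorem res_le_of_le {F : Finset (Sym2 V)} {e : Sym2 V} (hd : ¬ e.IsDiag) (he : e ∈ F)
    {w w' : Sym2 V → ℝ} (hw : ∀ f, 0 < w f) (hw' : ∀ f, 0 < w' f)
    {c : ℝ} (hc : 0 < c) (h1 : ∀ f ∈ F, w' f ≤ c * w f) :
    res F w e ≤ c * res F w' e := by
  have := res_compare hd he (Finset.Subset.refl F) hw hw' hc le_rfl h1
    (fun f hf => by rw [one_mul]; exact h1 f hf)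
  linarith

theorem res_nonneg (F : Finset (Sym2 V)) {w : Sym2 V → ℝ} (hw : ∀ f, 0 < w f) (e : Sym2 V) :
    0 ≤ res F w e :=
  div_nonneg (Finset.sum_nonneg fun _ _ => Finset.prod_nonneg fun _ _ => (hw _).le)
    (zsum_pos F hw).le

/-- multiplicative Lipschitz property in finite volume -/
theorem ustp_mul_le {F : Finset (Sym2 V)} {e : Sym2 V} (hd : ¬ e.IsDiag)
    {w w' : Sym2 V → ℝ} (hw : ∀ f, 0 < w f) (hw' : ∀ f, 0 < w' f) {δ : ℝ}
    (h : ∀ f, |Real.log (w f) - Real.log (w' f)| ≤ δ) :
    ustp (spans F) w' e ≤ Real.exp (2 * δ) * ustp (spans F) w e := by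
  have h1 : ∀ f, w f ≤ Real.exp δ * w' f := by
    intro f
    have := (abs_le.1 (h f)).2
    rw [← Real.log_le_log_iff (hw f) (mul_pos (Real.exp_pos _) (hw' f)),
      Real.log_mul (Real.exp_pos _).ne' (hw' f).ne', Real.log_exp]
    linarith
  have h2 : ∀ f, w' f ≤ Real.exp δ * w f := by
    intro f
    have := (abs_le.1 (h f)).1
    rw [← Real.log_le_log_iff (hw' f) (mul_pos (Real.exp_pos _) (hw f)),
      Real.log_mul (Real.exp_pos _).ne' (hw f).ne', Real.log_exp]
    linarith
  by_cases he : e ∈ F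
  · rw [ustp_eq, ustp_eq]
    have h3 := res_le_of_le hd he hw' hw (Real.exp_pos δ) fun f _ => h1 f
    calc w' e * res F w' e ≤ (Real.exp δ * w e) * (Real.exp δ * res F w e) :=
          mul_le_mul (h2 e) h3 (res_nonneg F hw' e) (mul_pos (Real.exp_pos _) (hw e)).le
      _ = Real.exp (2 * δ) * (w e * res F w e) := by
          rw [two_mul, Real.exp_add]; ring
  · rw [ustp_of_not_mem he, ustp_of_not_mem he, mul_zero]

omit [DecidableEq (Sym2 V)] in
/-- from multiplicative to additive Lipschitz property -/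
theorem isDrift_of_mul {E : Type*} {a : (E → ℝ) → E → ℝ}
    (h0 : ∀ w, (∀ f, 0 < w f) → ∀ e, 0 ≤ a w e) (h1 : ∀ w, (∀ f, 0 < w f) → ∀ e, a w e ≤ 1)
    (h : ∀ w w', (∀ f, 0 < w f) → (∀ f, 0 < w' f) → ∀ δ,
      (∀ f, |Real.log (w f) - Real.log (w' f)| ≤ δ) → ∀ e, a w' e ≤ Real.exp (2 * δ) * a w e) :
    IsDrift a := by
  have key : ∀ w w', (∀ f, 0 < w f) → (∀ f, 0 < w' f) → ∀ δ,
      (∀ f, |Real.log (w f) - Real.log (w' f)| ≤ δ) → ∀ e, a w' e - a w e ≤ 4 * δ := by
    intro w w' hw hw' δ hδ e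
    have hδ0 : 0 ≤ δ := (abs_nonneg _).trans (hδ e)
    have h2 := h w w' hw hw' δ hδ e
    have h3 := h0 w hw e
    have h4 := h1 w hw e
    have h5 := h1 w' hw' e
    rcases le_or_gt (1 / 4) δ with h6 | h6
    · linarith only [h3, h5, h6]
    · have h7 : |2 * δ| ≤ 1 := by rw [abs_of_nonneg (by linarith only [hδ0])]; linarith only [h6]
      have h8 := (abs_le.1 (Real.abs_exp_sub_one_sub_id_le h7)).2
      have h9 : Real.exp (2 * δ) - 1 ≤ 4 * δ := by nlinarith only [hδ0, h8, h6]
      have h10 : a w' e - a w e ≤ (Real.exp (2 * δ) - 1) * a w e := by linarith only [h2]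
      have h11 : 0 ≤ Real.exp (2 * δ) - 1 := by
        have := Real.add_one_le_exp (2 * δ); linarith only [hδ0, this]
      nlinarith only [hδ0, h2, h4, h6, h3, h8]
  refine ⟨h0, h1, fun w w' hw hw' δ hδ e => ?_⟩
  rw [abs_le]
  constructor
  · have := key w w' hw hw' δ hδ e
    linarith
  · exact key w' w hw' hw δ (fun f => by rw [abs_sub_comm]; exact hδ f) e

theorem isDrift_ustp {F : Finset (Sym2 V)} (hF : ∀ e ∈ F, ¬ e.IsDiag) :
    IsDrift (ustp (spans F)) := by
  refine isDrift_of_mul (fun w hw e => ustp_ge_zero _ hw e) (fun w hw e => ustp_le_unit _ hw e) ?_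
  intro w w' hw hw' δ hδ e
  by_cases he : e ∈ F
  · exact ustp_mul_le (hF e he) hw hw' hδ
  · rw [ustp_of_not_mem he, ustp_of_not_mem he, mul_zero]

open Classical in
/-- drift of an arbitrary edge set: infimum over its finite subsets -/
noncomputable def drift (A : Set (Sym2 V)) (w : Sym2 V → ℝ) (e : Sym2 V) : ℝ :=
  if e ∈ A then
    ⨅ F : Finset (Sym2 V), if (F : Set (Sym2 V)) ⊆ A ∧ e ∈ F then max 0 (ustp (spans F) w e)
      else 1
  else 0

theorem drift_of_not_mem {A : Set (Sym2 V)} {e : Sym2 V} (he : e ∉ A) (w : Sym2 V → ℝ) :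
    drift A w e = 0 := by
  unfold drift; simp [he]

open Classical in
theorem drift_bdd (A : Set (Sym2 V)) (w : Sym2 V → ℝ) (e : Sym2 V) :
    BddBelow (Set.range fun F : Finset (Sym2 V) => if (F : Set (Sym2 V)) ⊆ A ∧ e ∈ F then
      max 0 (ustp (spans F) w e) else 1) := by
  refine ⟨0, ?_⟩
  rintro _ ⟨F, rfl⟩
  dsimp only
  split_ifs
  · exact le_max_left _ _
  · exact zero_le_one

theorem drift_nonneg (A : Set (Sym2 V)) (w : Sym2 V → ℝ) (e : Sym2 V) : 0 ≤ drift A w e := by
  classical
  unfold drift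
  split_ifs
  · refine le_ciInf fun F => ?_
    split_ifs
    · exact le_max_left _ _
    · exact zero_le_one
  · exact le_rfl

theorem drift_le {A : Set (Sym2 V)} {w : Sym2 V → ℝ} (hw : ∀ f, 0 < w f) {e : Sym2 V}
    {F : Finset (Sym2 V)} (hF : (F : Set (Sym2 V)) ⊆ A) (he : e ∈ F) :
    drift A w e ≤ ustp (spans F) w e := by
  classical
  unfold drift
  rw [if_pos (hF (by exact_mod_cast he))]
  refine (ciInf_le (drift_bdd A w e) F).trans ?_
  rw [if_pos ⟨hF, he⟩, max_eq_right (ustp_ge_zero _ hw e)]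

theorem le_drift {A : Set (Sym2 V)} {w : Sym2 V → ℝ} (hw : ∀ f, 0 < w f) {e : Sym2 V}
    (he : e ∈ A) {c : ℝ} (h : ∀ F : Finset (Sym2 V), (F : Set (Sym2 V)) ⊆ A → e ∈ F →
      c ≤ ustp (spans F) w e) : c ≤ drift A w e := by
  classical
  unfold drift
  rw [if_pos he]
  refine le_ciInf fun F => ?_
  split_ifs with hF
  · exact (h F hF.1 hF.2).trans (le_max_right _ _)
  · refine (h {e} ?_ (Finset.mem_singleton_self e)).trans (ustp_le_unit _ hw e)
    simpa using he

theorem drift_le_one {A : Set (Sym2 V)} {w : Sym2 V → ℝ} (hw : ∀ f, 0 < w f) (e : Sym2 V) :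
    drift A w e ≤ 1 := by
  by_cases he : e ∈ A
  · exact (drift_le hw (F := {e}) (by simpa using he) (Finset.mem_singleton_self e)).trans
      (ustp_le_unit _ hw e)
  · rw [drift_of_not_mem he]; exact zero_le_one

theorem exists_lt_drift {A : Set (Sym2 V)} {w : Sym2 V → ℝ} (hw : ∀ f, 0 < w f) {e : Sym2 V}
    (he : e ∈ A) {ε : ℝ} (hε : 0 < ε) : ∃ F : Finset (Sym2 V), (F : Set (Sym2 V)) ⊆ A ∧ e ∈ F ∧
      ustp (spans F) w e < drift A w e + ε := by
  by_contra hcon
  push Not at hcon
  have := le_drift hw he (c := drift A w e + ε) fun F h1 h2 => hcon F h1 h2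
  linarith

theorem isDrift_drift {A : Set (Sym2 V)} (hA : ∀ e ∈ A, ¬ e.IsDiag) : IsDrift (drift A) := by
  refine isDrift_of_mul (fun w _ e => drift_nonneg A w e) (fun w hw e => drift_le_one hw e) ?_
  intro w w' hw hw' δ hδ e
  by_cases he : e ∈ A
  · have h1 : Real.exp (-(2 * δ)) * drift A w' e ≤ drift A w e := by
      refine le_drift hw he fun F hF heF => ?_
      have h2 := ustp_mul_le (F := F) (hA e he) hw hw' hδ
      have h3 := drift_le hw' hF heF
      rw [Real.exp_neg, inv_mul_le_iff₀ (Real.exp_pos _)]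
      exact h3.trans h2
    rwa [Real.exp_neg, inv_mul_le_iff₀ (Real.exp_pos _)] at h1
  · rw [drift_of_not_mem he, drift_of_not_mem he, mul_zero]

omit [DecidableEq (Sym2 V)] in
theorem tendsto_ustp {ι : Type*} [DecidableEq ι] (𝒯 : Finset (Finset ι)) (h𝒯 : 𝒯.Nonempty)
    {w : ι → ℝ} (hw : ∀ f, 0 < w f) {wn : ℕ → ι → ℝ}
    (h : ∀ f, Tendsto (fun n => wn n f) atTop (𝓝 (w f))) (i : ι) :
    Tendsto (fun n => ustp 𝒯 (wn n) i) atTop (𝓝 (ustp 𝒯 w i)) := by
  unfold ustp
  refine Tendsto.div ?_ ?_ ?_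
  · exact tendsto_finsetSum _ fun T _ => tendsto_finsetProd _ fun j _ => h j
  · exact tendsto_finsetSum _ fun T _ => tendsto_finsetProd _ fun j _ => h j
  · exact (Finset.sum_pos (fun _ _ => Finset.prod_pos fun _ _ => hw _) h𝒯).ne'

theorem convDrift {A : Set (Sym2 V)} (hA : ∀ e ∈ A, ¬ e.IsDiag) (F : ℕ → Finset (Sym2 V))
    (hF : Monotone F) (hFA : ∀ e, e ∈ A ↔ ∃ n, e ∈ F n) :
    ConvDrift (fun n => ustp (spans (F n))) (drift A) := by
  intro w wn K hw hwn hconv hK e
  by_cases he : e ∈ A
  swap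
  · have h1 : ∀ n, ustp (spans (F n)) (wn n) e = 0 := fun n =>
      ustp_of_not_mem (fun h => he ((hFA e).2 ⟨n, h⟩)) _
    simp only [h1, drift_of_not_mem he]
    exact tendsto_const_nhds
  have hsub : ∀ n, (F n : Set (Sym2 V)) ⊆ A := fun n f hf => (hFA f).2 ⟨n, by exact_mod_cast hf⟩
  have hK0 : 0 ≤ K := (abs_nonneg _).trans (hK 0 e)
  -- finite subsets of `A` are eventually contained in `F n`
  have hev : ∀ G : Finset (Sym2 V), (G : Set (Sym2 V)) ⊆ A → ∃ m, G ⊆ F m := by
    intro G
    induction G using Finset.induction_on with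
    | empty => intro _; exact ⟨0, Finset.empty_subset _⟩
    | insert a G _ ih =>
      intro h
      rw [Finset.coe_insert, Set.insert_subset_iff] at h
      obtain ⟨m, hm⟩ := ih h.2
      obtain ⟨k, hk⟩ := (hFA a).1 h.1
      exact ⟨max m k, Finset.insert_subset (hF (le_max_right _ _) hk)
        (hm.trans (hF (le_max_left _ _)))⟩
  set ρ := drift A w e with hρ
  have hρ0 : 0 ≤ ρ := drift_nonneg A w e
  have hρ1 : ρ ≤ 1 := drift_le_one hw e
  have hmono : ∀ {n m : ℕ} (v : Sym2 V → ℝ), (∀ f, 0 < v f) → m ≤ n → e ∈ F m →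
      ustp (spans (F n)) v e ≤ ustp (spans (F m)) v e := by
    intro n m v hv hmn hem
    rw [ustp_eq, ustp_eq]
    exact mul_le_mul_of_nonneg_left (res_anti (hA e he) hem (hF hmn) hv) (hv e).le
  rw [Metric.tendsto_atTop']
  intro ε hε
  -- choose a small η
  set Λ := Real.exp K with hΛ
  have hΛ1 : 1 ≤ Λ := Real.one_le_exp hK0
  obtain ⟨η, hη, hη1, hη2⟩ : ∃ η : ℝ, 0 < η ∧ 3 * Λ * η ≤ ε / 2 ∧ η ≤ 1 := by
    refine ⟨min (ε / (6 * Λ)) 1, lt_min (by positivity) one_pos, ?_, min_le_right _ _⟩
    have := mul_le_mul_of_nonneg_left (min_le_left (ε / (6 * Λ)) 1)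
      (by positivity : (0 : ℝ) ≤ 3 * Λ)
    refine this.trans (le_of_eq ?_)
    field_simp
    norm_num
  obtain ⟨G, hG1, hG2, hG3⟩ := exists_lt_drift hw he hη
  obtain ⟨m, hm⟩ := hev G hG1
  have hem : e ∈ F m := hm hG2
  have hm3 : ustp (spans (F m)) w e < ρ + η := by
    refine lt_of_le_of_lt ?_ hG3
    rw [ustp_eq, ustp_eq]
    exact mul_le_mul_of_nonneg_left (res_anti (hA e he) hG2 hm hw) (hw e).le
  -- eventual closeness on `F m`
  have h1 : ∀ᶠ n in atTop, ∀ f ∈ F m, wn n f ≤ (1 + η) * w f := by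
    rw [Filter.eventually_all_finset]
    intro f _
    have : w f < (1 + η) * w f := by nlinarith only [hη, hw f]
    exact (hconv f).eventually_le_const this
  have h1' : ∀ᶠ n in atTop, w e ≤ (1 + η) * wn n e := by
    have : w e < (1 + η) * w e := by nlinarith only [hη, hw e]
    exact ((hconv e).const_mul (1 + η)).eventually_const_le this
  have h2 : ∀ᶠ n in atTop, ustp (spans (F m)) (wn n) e < ρ + η :=
    (tendsto_ustp _ (spans_nonempty _) hw hconv e).eventually_lt_const hm3
  obtain ⟨n₀, hn₀⟩ := eventually_atTop.1 (h1.and (h1'.and (h2.and (eventually_ge_atTop m))))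
  refine ⟨n₀, fun n hn => ?_⟩
  obtain ⟨h3, h4, h5, h6⟩ := hn₀ n hn.le
  rw [Real.dist_eq, abs_lt]
  have hup : ustp (spans (F n)) (wn n) e < ρ + η :=
    lt_of_le_of_lt (hmono _ (hwn n) h6 hem) h5
  have hlow : ρ - (Λ - 1) * η ≤ (1 + η) ^ 2 * ustp (spans (F n)) (wn n) e := by
    have h7 : ∀ f ∈ F n, wn n f ≤ (1 + η) * (Λ * w f) := by
      intro f _
      have h8 : wn n f ≤ Λ * w f := by
        rw [← Real.log_le_log_iff (hwn n f) (mul_pos (Real.exp_pos _) (hw f)),
          Real.log_mul (Real.exp_pos _).ne' (hw f).ne', Real.log_exp]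
        linarith only [(abs_le.1 (hK n f)).2]
      have h9 : 0 < Λ * w f := mul_pos (Real.exp_pos _) (hw f)
      nlinarith only [h8, hη, h9]
    have h8 := res_compare (hA e he) hem (hF h6) hw (hwn n) (by linarith only [hη] : (0 : ℝ) < 1 + η) hΛ1
      h3 h7
    have h9 : ρ ≤ w e * res (F n) w e := by
      rw [← ustp_eq]; exact drift_le hw (hsub n) (hF h6 hem)
    have h10 : w e * res (F m) w e < ρ + η := by rwa [← ustp_eq]
    have h11 : w e * (Λ * res (F n) w e - (Λ - 1) * res (F m) w e) ≤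
      w e * ((1 + η) * res (F n) (wn n) e) := mul_le_mul_of_nonneg_left h8 (hw e).le
    have h12 : w e * ((1 + η) * res (F n) (wn n) e) ≤
        (1 + η) ^ 2 * ustp (spans (F n)) (wn n) e := by
      rw [ustp_eq]
      have h13 : 0 ≤ (1 + η) * res (F n) (wn n) e :=
        mul_nonneg (by linarith only [hη]) (res_nonneg _ (hwn n) e)
      calc w e * ((1 + η) * res (F n) (wn n) e)
          ≤ ((1 + η) * wn n e) * ((1 + η) * res (F n) (wn n) e) :=
            mul_le_mul_of_nonneg_right h4 h13
        _ = (1 + η) ^ 2 * (wn n e * res (F n) (wn n) e) := by ring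
    have h14 : Λ * ρ ≤ Λ * (w e * res (F n) w e) :=
      mul_le_mul_of_nonneg_left h9 (by linarith only [hΛ1])
    have h15 : (Λ - 1) * (w e * res (F m) w e) ≤ (Λ - 1) * (ρ + η) :=
      mul_le_mul_of_nonneg_left h10.le (by linarith only [hΛ1])
    linarith
  have hu0 := ustp_ge_zero (spans (F n)) (hwn n) e
  have hu1 := ustp_le_unit (spans (F n)) (hwn n) e
  change -ε < ustp (spans (F n)) (wn n) e - ρ ∧ ustp (spans (F n)) (wn n) e - ρ < ε
  have h20 : (1 + η) ^ 2 ≤ 1 + 3 * η := by nlinarith only [hη, hη2]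
  have h21 : (1 + η) ^ 2 * ustp (spans (F n)) (wn n) e ≤
      ustp (spans (F n)) (wn n) e + 3 * η := by nlinarith only [hη, hu1, hu0, h20]
  have h22 : η ≤ Λ * η := by nlinarith only [hΛ1, hη]
  constructor
  · linarith only [hη, hη1, hlow, h21, h22]
  · linarith only [hη, hη1, hup, h22]

end Vale.Agent.P143
end
end

section

section

/-!
Measurability and equivariance of the drift.
-/

namespace Vale.Agent.P143

open SimpleGraph Filter Topology MeasureTheory

theorem measurable_ustp {ι : Type*} [DecidableEq ι] (𝒯 : Finset (Finset ι)) (i : ι) :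
    Measurable fun w : ι → ℝ => ustp 𝒯 w i := by
  unfold ustp
  refine Measurable.div ?_ ?_
  · exact Finset.measurable_sum _ fun T _ => Finset.measurable_prod _ fun j _ =>
      measurable_pi_apply j
  · exact Finset.measurable_sum _ fun T _ => Finset.measurable_prod _ fun j _ =>
      measurable_pi_apply j

variable {V : Type*} [DecidableEq (Sym2 V)]

theorem measurable_drift [Countable V] (e : Sym2 V) :
    Measurable fun p : Set (Sym2 V) × (Sym2 V → ℝ) => drift p.1 p.2 e := by
  classical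
  have : Countable (Sym2 V) := Quotient.countable
  unfold drift
  refine Measurable.ite ?_ ?_ measurable_const
  · exact (measurable_set_mem e).comp measurable_fst |>.setOf
  · refine Measurable.iInf fun F => ?_
    refine Measurable.ite ?_ ?_ measurable_const
    · by_cases heF : e ∈ F
      · simp only [heF, and_true]
        have : {a : Set (Sym2 V) × (Sym2 V → ℝ) | (F : Set (Sym2 V)) ⊆ a.1} =
            ⋂ f ∈ F, {a | f ∈ a.1} := by
          ext a; simp only [Set.subset_def, SetLike.mem_coe, Set.mem_ofPred_eq, Set.mem_iInter]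
        rw [this]
        exact Finset.measurableSet_biInter _ fun f _ =>
          ((measurable_set_mem f).comp measurable_fst).setOf
      · simp [heF]
    · exact measurable_const.max ((measurable_ustp _ e).comp measurable_snd)

theorem measurable_drift_graph [Countable V] (e : Sym2 V) :
    Measurable fun p : SimpleGraph V × (Sym2 V → ℝ) => drift p.1.edgeSet p.2 e :=
  (measurable_drift e).comp ((measurable_edgeSet.comp measurable_fst).prodMk measurable_snd)

variable {V' : Type*} [DecidableEq (Sym2 V')]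

/-- action of a bijection on unordered pairs -/
def symE {V V' : Type*} (σ : V ≃ V') : Sym2 V ≃ Sym2 V' where
  toFun := Sym2.map σ
  invFun := Sym2.map σ.symm
  left_inv := fun e => by rw [Sym2.map_map]; simp
  right_inv := fun e => by rw [Sym2.map_map]; simp

omit [DecidableEq (Sym2 V)] [DecidableEq (Sym2 V')] in
theorem symE_apply (σ : V ≃ V') (e : Sym2 V) : symE σ e = Sym2.map σ e := rfl

omit [DecidableEq (Sym2 V)] [DecidableEq (Sym2 V')] in
theorem symE_symm (σ : V ≃ V') : (symE σ).symm = symE σ.symm := rfl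

omit [DecidableEq (Sym2 V)] [DecidableEq (Sym2 V')] in
theorem conn_map_of {F : Finset (Sym2 V)} (σ : V ≃ V') {x y : V} (h : Conn F x y) :
    Conn (F.map (symE σ).toEmbedding) (σ x) (σ y) := by
  refine Conn.rec_on (fun x y => Conn (F.map (symE σ).toEmbedding) (σ x) (σ y))
    (fun _ => Conn.refl _ _) (fun _ _ _ => Conn.trans) (fun a b _ hab => ?_) h
  refine conn_of_mem ?_
  rw [Finset.mem_map]
  exact ⟨s(a, b), hab, rfl⟩

omit [DecidableEq (Sym2 V)] [DecidableEq (Sym2 V')] in
theorem map_symm_map (F : Finset (Sym2 V)) (σ : V ≃ V') :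
    (F.map (symE σ).toEmbedding).map (symE σ.symm).toEmbedding = F := by
  rw [Finset.map_map]
  convert Finset.map_refl
  exact DFunLike.ext _ _ fun e => (symE σ).left_inv e

omit [DecidableEq (Sym2 V)] [DecidableEq (Sym2 V')] in
theorem conn_map {F : Finset (Sym2 V)} (σ : V ≃ V') {x y : V} :
    Conn (F.map (symE σ).toEmbedding) (σ x) (σ y) ↔ Conn F x y := by
  refine ⟨fun h => ?_, conn_map_of σ⟩
  have := conn_map_of σ.symm h
  rw [map_symm_map] at this
  simpa using this

omit [DecidableEq (Sym2 V)] [DecidableEq (Sym2 V')] in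
theorem acyc_map {F : Finset (Sym2 V)} (σ : V ≃ V') :
    Acyc (F.map (symE σ).toEmbedding) ↔ Acyc F := by
  unfold Acyc
  refine (Iso.isAcyclic_iff (G := fromEdgeSet (F : Set (Sym2 V))) ⟨σ, ?_⟩).symm
  intro a b
  simp only [fromEdgeSet_adj, ne_eq, EmbeddingLike.apply_eq_iff_eq, Finset.coe_map,
    Equiv.coe_toEmbedding]
  rw [← Sym2.map_mk, ← symE_apply, (symE σ).injective.mem_set_image]

omit [DecidableEq (Sym2 V)] [DecidableEq (Sym2 V')] in
theorem mem_spans_map {F T : Finset (Sym2 V)} (σ : V ≃ V') :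
    T.map (symE σ).toEmbedding ∈ spans (F.map (symE σ).toEmbedding) ↔ T ∈ spans F := by
  rw [mem_spans, mem_spans, Finset.map_subset_map, acyc_map]
  refine and_congr Iff.rfl (and_congr Iff.rfl ?_)
  constructor
  · intro h x y hxy
    exact (conn_map σ).1 (h _ _ ((conn_map σ).2 hxy))
  · intro h x y hxy
    obtain ⟨x, rfl⟩ := σ.surjective x
    obtain ⟨y, rfl⟩ := σ.surjective y
    exact (conn_map σ).2 (h _ _ ((conn_map σ).1 hxy))

omit [DecidableEq (Sym2 V)] [DecidableEq (Sym2 V')] in
theorem spans_map (F : Finset (Sym2 V)) (σ : V ≃ V') :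
    spans (F.map (symE σ).toEmbedding) =
      (spans F).map (Finset.mapEmbedding (symE σ).toEmbedding).toEmbedding := by
  ext T
  have hT : T = (T.map (symE σ.symm).toEmbedding).map (symE σ).toEmbedding := by
    have := map_symm_map T σ.symm
    rw [Equiv.symm_symm] at this
    exact this.symm
  constructor
  · intro h
    rw [hT] at h ⊢
    rw [mem_spans_map] at h
    exact Finset.mem_map.2 ⟨_, h, rfl⟩
  · intro h
    obtain ⟨S, hS, rfl⟩ := Finset.mem_map.1 h
    exact (mem_spans_map σ).2 hS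

theorem ustp_map (F : Finset (Sym2 V)) (σ : V ≃ V') (w : Sym2 V' → ℝ) (e : Sym2 V) :
    ustp (spans (F.map (symE σ).toEmbedding)) w (symE σ e) =
      ustp (spans F) (w ∘ symE σ) e := by
  unfold ustp
  rw [spans_map, Finset.sum_map, Finset.filter_map, Finset.sum_map]
  congr 1
  · refine Finset.sum_congr ?_ fun T _ => ?_
    · ext T
      simp
    · simp only [RelEmbedding.coe_toEmbedding, Finset.mapEmbedding_apply, Finset.prod_map, Function.Embedding.coeFn_mk, Function.comp_apply]
  · refine Finset.sum_congr rfl fun T _ => ?_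
    simp [Finset.prod_map]

theorem drift_map (σ : V ≃ V') (A : Set (Sym2 V)) (w : Sym2 V' → ℝ) (e : Sym2 V) :
    drift (symE σ '' A) w (symE σ e) = drift A (w ∘ symE σ) e := by
  classical
  unfold drift
  rw [(symE σ).injective.mem_set_image]
  congr 1
  rw [← (symE σ).finsetCongr.iInf_comp]
  refine iInf_congr fun F => ?_
  rw [Equiv.finsetCongr_apply, ustp_map]
  congr 1
  rw [eq_iff_iff]
  refine and_congr ?_ ?_
  · rw [Finset.coe_map, Equiv.coe_toEmbedding, Set.image_subset_image_iff (symE σ).injective]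
  · rw [Finset.mem_map_equiv, Equiv.symm_apply_apply]

theorem drift_map_graph (σ : V ≃ V') (G : SimpleGraph V) (w : Sym2 V' → ℝ) (e : Sym2 V) :
    drift (G.map σ.toEmbedding).edgeSet w (symE σ e) = drift G.edgeSet (w ∘ symE σ) e := by
  rw [← drift_map]
  congr 1
  rw [edgeSet_map]
  rfl

end Vale.Agent.P143
end
end

section

section

/-!
Logistic law: probability measure, log-Lipschitz weights, shift formula.
-/

namespace Vale.Agent.P143

open MeasureTheory Filter Topology

theorem dens_eq_sigmoid (z : ℝ) : dens z = Real.sigmoid z * (1 - Real.sigmoid z) := by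
  have h : (1 + Real.exp (-z)) ≠ 0 := by positivity
  rw [Real.sigmoid_def, dens]
  field_simp
  ring

theorem dens_neg (z : ℝ) : dens (-z) = dens z := by
  rw [dens_eq_sigmoid, dens_eq_sigmoid, Real.sigmoid_neg]; ring

theorem integrable_dens : Integrable dens := by
  have hpos : IntegrableOn dens (Set.Ioi 0) := by
    refine integrableOn_Ioi_deriv_of_nonneg' (g := Real.sigmoid) (l := 1) (fun x _ => ?_)
      (fun x _ => (dens_pos x).le) Real.tendsto_sigmoid_atTop
    rw [dens_eq_sigmoid]
    exact Real.hasDerivAt_sigmoid x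
  have hneg : IntegrableOn dens (Set.Iic 0) := by
    have h1 : IntegrableOn dens (Set.Ici 0) := by
      rwa [integrableOn_Ici_iff_integrableOn_Ioi]
    have h2 := (Measure.measurePreserving_neg (volume : Measure ℝ)).integrableOn_comp_preimage
      (MeasurableEquiv.neg ℝ).measurableEmbedding (f := dens) (s := Set.Ici 0)
    have h3 := h2.2 h1
    have h4 : (Neg.neg ⁻¹' Set.Ici (0 : ℝ)) = Set.Iic 0 := by
      ext x; simp only [Set.neg_preimage, Set.neg_Ici, neg_zero, Set.mem_Iic]
    rw [h4] at h3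
    refine h3.congr_fun (fun x _ => ?_) measurableSet_Iic
    simp [dens_neg]
  have := hneg.union hpos
  rwa [Set.Iic_union_Ioi, integrableOn_univ] at this

theorem integral_dens : ∫ z, dens z = 1 := by
  have := integral_of_hasDerivAt_of_tendsto (f := Real.sigmoid) (f' := dens) (m := 0) (n := 1)
    (fun x => by rw [dens_eq_sigmoid]; exact Real.hasDerivAt_sigmoid x) integrable_dens
    Real.tendsto_sigmoid_atBot Real.tendsto_sigmoid_atTop
  simpa using this

instance : IsProbabilityMeasure logistic := by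
  constructor
  rw [logistic, withDensity_apply _ MeasurableSet.univ, Measure.restrict_univ,
    ← ofReal_integral_eq_lintegral_ofReal integrable_dens (ae_of_all _ fun z => (dens_pos z).le),
    integral_dens, ENNReal.ofReal_one]

theorem abs_log_wt_le (r z : ℝ) : |Real.log (wt r z)| ≤ |r| := by
  rw [wt, Real.log_div (dens_pos _).ne' (dens_pos _).ne']
  have := log_dens_lip (z - r) z
  simpa only [ge_iff_le, sub_sub_cancel_left, abs_neg] using this

theorem wt_le (r z : ℝ) : wt r z ≤ Real.exp |r| := by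
  rw [← Real.log_le_iff_le_exp (wt_pos r z)]
  exact (le_abs_self _).trans (abs_log_wt_le r z)

theorem logistic_Ioi (t : ℝ) : logistic (Set.Ioi t) = ENNReal.ofReal (1 - Real.sigmoid t) := by
  rw [logistic, withDensity_apply _ measurableSet_Ioi,
    ← ofReal_integral_eq_lintegral_ofReal integrable_dens.integrableOn
      (ae_of_all _ fun z => (dens_pos z).le)]
  congr 1
  exact integral_Ioi_of_hasDerivAt_of_tendsto' (f := Real.sigmoid)
    (fun x _ => by rw [dens_eq_sigmoid]; exact Real.hasDerivAt_sigmoid x)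
    integrable_dens.integrableOn Real.tendsto_sigmoid_atTop

theorem logistic_Iic (t : ℝ) : logistic (Set.Iic t) = ENNReal.ofReal (Real.sigmoid t) := by
  rw [logistic, withDensity_apply _ measurableSet_Iic,
    ← ofReal_integral_eq_lintegral_ofReal integrable_dens.integrableOn
      (ae_of_all _ fun z => (dens_pos z).le)]
  congr 1
  have := integral_Iic_of_hasDerivAt_of_tendsto' (f := Real.sigmoid) (f' := dens) (a := t)
    (fun x _ => by rw [dens_eq_sigmoid]; exact Real.hasDerivAt_sigmoid x)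
    integrable_dens.integrableOn Real.tendsto_sigmoid_atBot
  rw [this, sub_zero]

theorem sigmoid_le_exp (t : ℝ) : Real.sigmoid t ≤ Real.exp t := by
  rw [Real.sigmoid_def, inv_le_comm₀ (by positivity) (Real.exp_pos t), ← Real.exp_neg]
  linarith only []

/-- exponential tail of the noise -/
theorem logistic_tail (t : ℝ) :
    logistic {z | t < |z|} ≤ ENNReal.ofReal (2 * Real.exp (-t)) := by
  have h : {z : ℝ | t < |z|} ⊆ Set.Ioi t ∪ Set.Iic (-t) := by
    intro z hz
    have hz : t < |z| := hz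
    rw [lt_abs] at hz
    rcases hz with hz | hz
    · exact Or.inl hz
    · exact Or.inr (by simp only [Set.mem_Iic]; linarith)
  refine (measure_mono h).trans ((measure_union_le _ _).trans ?_)
  rw [logistic_Ioi, logistic_Iic, ← Real.sigmoid_neg,
    ← ENNReal.ofReal_add (Real.sigmoid_nonneg _) (Real.sigmoid_nonneg _)]
  refine ENNReal.ofReal_le_ofReal ?_
  have := sigmoid_le_exp (-t)
  linarith

theorem wt_zero (z : ℝ) : wt 0 z = 1 := by
  rw [wt, sub_zero, div_self (dens_pos z).ne']

theorem logistic_map_add (c : ℝ) :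
    logistic.map (fun z => z + c) = logistic.withDensity fun z => ENNReal.ofReal (wt c z) := by
  ext s hs
  have hm : Measurable fun z : ℝ => z + c := measurable_add_const c
  rw [Measure.map_apply hm hs, logistic, withDensity_apply _ (hm hs),
    withDensity_apply _ hs, setLIntegral_withDensity_eq_setLIntegral_mul _
      continuous_dens.measurable.ennreal_ofReal (continuous_wt c).measurable.ennreal_ofReal hs]
  have h1 : ∀ z, ENNReal.ofReal (dens (z - c))
      = ((fun z => ENNReal.ofReal (dens z)) * fun z => ENNReal.ofReal (wt c z)) z := by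
    intro z
    simp only [Pi.mul_apply]
    rw [← ENNReal.ofReal_mul (dens_pos z).le, wt, mul_div_cancel₀ _ (dens_pos z).ne']
  simp_rw [← h1]
  have h2 := (measurePreserving_add_right (volume : Measure ℝ) c).setLIntegral_comp_preimage hs
    (f := fun z => ENNReal.ofReal (dens (z - c)))
    ((continuous_dens.comp (by fun_prop)).measurable.ennreal_ofReal)
  rw [← h2]
  simp

variable {ι : Type*} [Fintype ι]

theorem pi_withDensity_ofReal (μ : Measure ℝ) [IsProbabilityMeasure μ] (f : ι → ℝ → ℝ)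
    (h0 : ∀ i x, 0 ≤ f i x) (hi : ∀ i, Integrable (f i) μ) :
    (Measure.pi fun i => μ.withDensity fun x => ENNReal.ofReal (f i x))
      = (Measure.pi fun _ : ι => μ).withDensity fun y => ENNReal.ofReal (∏ i, f i (y i)) := by
  have hsf : ∀ i, IsFiniteMeasure (μ.withDensity fun x => ENNReal.ofReal (f i x)) := fun i =>
    isFiniteMeasure_withDensity_ofReal (hi i).2
  refine Measure.pi_eq fun s hs => ?_
  rw [withDensity_apply _ (MeasurableSet.univ_pi hs), Measure.restrict_pi_pi,
    ← ofReal_integral_eq_lintegral_ofReal, integral_fintype_prod_eq_prod,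
    ENNReal.ofReal_prod_of_nonneg]
  · refine Finset.prod_congr rfl fun i _ => ?_
    rw [withDensity_apply _ (hs i), ← ofReal_integral_eq_lintegral_ofReal]
    · exact (hi i).restrict
    · exact ae_of_all _ (h0 i)
  · exact fun i _ => integral_nonneg (h0 i)
  · exact Integrable.fintype_prod fun i => (hi i).restrict
  · exact ae_of_all _ fun y => Finset.prod_nonneg fun i _ => h0 i _

variable [DecidableEq ι]

theorem prod_wt_ind (T : Finset ι) (r : ℝ) (y : ι → ℝ) :
    ∏ i, wt (r * ind T i) (y i) = ∏ i ∈ T, wt r (y i) := by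
  rw [← Finset.prod_subset (Finset.subset_univ T)]
  · refine Finset.prod_congr rfl fun i hi => ?_
    simp [ind, hi]
  · intro i _ hi
    simp [ind, hi, wt_zero]

/-- the law of the noise -/
noncomputable abbrev noise (ι : Type*) [Fintype ι] : Measure (ι → ℝ) :=
  Measure.pi fun _ : ι => logistic

theorem map_shift (T : Finset ι) (r : ℝ) :
    (noise ι).map (fun z => z + r • ind T)
      = (noise ι).withDensity fun y => ENNReal.ofReal (∏ i ∈ T, wt r (y i)) := by
  have h1 : ∀ c : ℝ, Integrable (wt c) logistic := fun c => by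
    refine (integrable_const (Real.exp |c|)).mono' (continuous_wt c).aestronglyMeasurable
      (ae_of_all _ fun z => ?_)
    rw [Real.norm_eq_abs, abs_of_pos (wt_pos c z)]
    exact wt_le c z
  have h2 : ∀ i : ι, SigmaFinite (logistic.map fun x : ℝ => x + r * ind T i) := fun i => by
    have : IsProbabilityMeasure (logistic.map fun x : ℝ => x + r * ind T i) :=
      Measure.isProbabilityMeasure_map (by fun_prop)
    infer_instance
  have h3 := Measure.pi_map_pi (μ := fun _ : ι => logistic) (f := fun i x => x + r * ind T i)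
    (fun i => by fun_prop)
  have h4 : (fun z : ι → ℝ => z + r • ind T) = fun x i => x i + r * ind T i := by
    funext z i; simp
  rw [h4, h3]
  simp_rw [logistic_map_add, ← prod_wt_ind T r]
  exact pi_withDensity_ofReal logistic (fun i => wt (r * ind T i))
    (fun i x => (wt_pos _ x).le) (fun i => h1 _)

/-- shift formula -/
theorem integral_shift (T : Finset ι) (r : ℝ) (g : (ι → ℝ) → ℝ) (hg : Measurable g) :
    ∫ z, g (z + r • ind T) ∂(noise ι) = ∫ y, g y * ∏ i ∈ T, wt r (y i) ∂(noise ι) := by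
  have hm : Measurable fun z : ι → ℝ => z + r • ind T := by fun_prop
  rw [← integral_map (f := g) hm.aemeasurable hg.aestronglyMeasurable, map_shift,
    integral_withDensity_eq_integral_toReal_smul]
  · refine integral_congr_ae (ae_of_all _ fun y => ?_)
    simp only [smul_eq_mul]
    rw [ENNReal.toReal_ofReal (Finset.prod_nonneg fun i _ => (wt_pos _ _).le), mul_comm]
  · refine Measurable.ennreal_ofReal ?_
    exact Finset.measurable_prod _ fun i _ => (continuous_wt r).measurable.comp (measurable_pi_apply i)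
  · exact ae_of_all _ fun y => ENNReal.ofReal_lt_top

end Vale.Agent.P143
end
end

section

section

/-!
The Euler scheme driven by the spanning-set field transports the noise to noise plus a
multiple of the indicator of a uniform member of the family, up to a small error.
Proof: compare with the chain that resamples the set from its posterior at every step.
-/

namespace Vale.Agent.P143

open MeasureTheory Filter Topology

variable {ι : Type*} [Fintype ι] [DecidableEq ι]

/-- posterior probability of a set -/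
noncomputable def post (𝒯 : Finset (Finset ι)) (w : ι → ℝ) (T : Finset ι) : ℝ :=
  (∏ j ∈ T, w j) / ∑ T' ∈ 𝒯, ∏ j ∈ T', w j

omit [Fintype ι] [DecidableEq ι] in
theorem sum_prod_pos {𝒯 : Finset (Finset ι)} (h𝒯 : 𝒯.Nonempty) {w : ι → ℝ}
    (hw : ∀ i, 0 < w i) : 0 < ∑ T' ∈ 𝒯, ∏ j ∈ T', w j :=
  Finset.sum_pos (fun _ _ => Finset.prod_pos fun i _ => hw i) h𝒯

omit [Fintype ι] [DecidableEq ι] in
theorem post_nonneg {𝒯 : Finset (Finset ι)} {w : ι → ℝ} (hw : ∀ i, 0 < w i) (T : Finset ι) :
    0 ≤ post 𝒯 w T :=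
  div_nonneg (Finset.prod_nonneg fun i _ => (hw i).le)
    (Finset.sum_nonneg fun _ _ => Finset.prod_nonneg fun i _ => (hw i).le)

omit [Fintype ι] [DecidableEq ι] in
theorem sum_post {𝒯 : Finset (Finset ι)} (h𝒯 : 𝒯.Nonempty) {w : ι → ℝ}
    (hw : ∀ i, 0 < w i) : ∑ T ∈ 𝒯, post 𝒯 w T = 1 := by
  unfold post
  rw [← Finset.sum_div, div_self (sum_prod_pos h𝒯 hw).ne']

omit [Fintype ι] in
theorem ustp_eq_sum_post (𝒯 : Finset (Finset ι)) (w : ι → ℝ) (i : ι) :
    ustp 𝒯 w i = ∑ T ∈ 𝒯, post 𝒯 w T * ind T i := by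
  unfold ustp post ind
  rw [Finset.sum_filter, Finset.sum_div]
  refine Finset.sum_congr rfl fun T _ => ?_
  by_cases h : i ∈ T <;> simp [h]

omit [Fintype ι] in
theorem ustp_nonneg (𝒯 : Finset (Finset ι)) {w : ι → ℝ} (hw : ∀ i, 0 < w i) (i : ι) :
    0 ≤ ustp 𝒯 w i :=
  div_nonneg (Finset.sum_nonneg fun _ _ => Finset.prod_nonneg fun i _ => (hw i).le)
    (Finset.sum_nonneg fun _ _ => Finset.prod_nonneg fun i _ => (hw i).le)

omit [Fintype ι] in
theorem ustp_le_one (𝒯 : Finset (Finset ι)) {w : ι → ℝ} (hw : ∀ i, 0 < w i) (i : ι) :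
    ustp 𝒯 w i ≤ 1 := by
  refine div_le_one_of_le₀ ?_
    (Finset.sum_nonneg fun _ _ => Finset.prod_nonneg fun i _ => (hw i).le)
  exact Finset.sum_le_sum_of_subset_of_nonneg (Finset.filter_subset _ _)
    fun T _ _ => Finset.prod_nonneg fun i _ => (hw i).le

/-- crude Lipschitz bound for a fixed finite index type -/
theorem ustp_lip_aux (𝒯 : Finset (Finset ι)) (h𝒯 : 𝒯.Nonempty) {w w' : ι → ℝ}
    (hw : ∀ i, 0 < w i) (hw' : ∀ i, 0 < w' i) {δ : ℝ} (hδ : 0 ≤ δ)
    (h : ∀ i, |Real.log (w i) - Real.log (w' i)| ≤ δ) (i : ι) :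
    ustp 𝒯 w i - ustp 𝒯 w' i ≤ 2 * Fintype.card ι * δ := by
  set D := Real.exp (Fintype.card ι * δ) with hD
  have hD0 : 0 < D := Real.exp_pos _
  have key : ∀ (u u' : ι → ℝ), (∀ i, 0 < u i) → (∀ i, 0 < u' i) →
      (∀ i, |Real.log (u i) - Real.log (u' i)| ≤ δ) → ∀ T : Finset ι,
      ∏ j ∈ T, u j ≤ D * ∏ j ∈ T, u' j := by
    intro u u' hu hu' huu T
    have h1 : ∀ j ∈ T, u j ≤ Real.exp δ * u' j := by
      intro j _
      have := (abs_le.1 (huu j)).2
      calc u j = Real.exp (Real.log (u j)) := (Real.exp_log (hu j)).symm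
        _ ≤ Real.exp (δ + Real.log (u' j)) := Real.exp_le_exp.2 (by linarith)
        _ = Real.exp δ * u' j := by rw [Real.exp_add, Real.exp_log (hu' j)]
    calc ∏ j ∈ T, u j ≤ ∏ j ∈ T, (Real.exp δ * u' j) :=
          Finset.prod_le_prod (fun j _ => (hu j).le) h1
      _ = Real.exp δ ^ T.card * ∏ j ∈ T, u' j := by
          rw [Finset.prod_mul_distrib, Finset.prod_const]
      _ ≤ D * ∏ j ∈ T, u' j := by
          refine mul_le_mul_of_nonneg_right ?_ (Finset.prod_nonneg fun j _ => (hu' j).le)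
          rw [← Real.exp_nat_mul, hD]
          refine Real.exp_le_exp.2 (mul_le_mul_of_nonneg_right ?_ hδ)
          exact_mod_cast Finset.card_le_univ T
  have h' : ∀ i, |Real.log (w' i) - Real.log (w i)| ≤ δ := fun i => by
    rw [abs_sub_comm]; exact h i
  have hS := sum_prod_pos h𝒯 hw
  have hS' := sum_prod_pos h𝒯 hw'
  have e1 : (∑ T ∈ 𝒯 with i ∈ T, ∏ j ∈ T, w j) ≤ D * ∑ T ∈ 𝒯 with i ∈ T, ∏ j ∈ T, w' j := by
    rw [Finset.mul_sum]
    exact Finset.sum_le_sum fun T _ => key w w' hw hw' h T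
  have e2 : (∑ T ∈ 𝒯, ∏ j ∈ T, w' j) ≤ D * ∑ T ∈ 𝒯, ∏ j ∈ T, w j := by
    rw [Finset.mul_sum]
    exact Finset.sum_le_sum fun T _ => key w' w hw' hw h' T
  have hN' : 0 ≤ ∑ T ∈ 𝒯 with i ∈ T, ∏ j ∈ T, w' j :=
    Finset.sum_nonneg fun T _ => Finset.prod_nonneg fun i _ => (hw' i).le
  -- u ≤ D² u'
  have e3 : ustp 𝒯 w i ≤ D ^ 2 * ustp 𝒯 w' i := by
    unfold ustp
    rw [div_le_iff₀ hS]
    have e4 : D ^ 2 * ((∑ T ∈ 𝒯 with i ∈ T, ∏ j ∈ T, w' j) / ∑ T ∈ 𝒯, ∏ j ∈ T, w' j)
        * (∑ T ∈ 𝒯, ∏ j ∈ T, w j) = (D * (∑ T ∈ 𝒯 with i ∈ T, ∏ j ∈ T, w' j))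
          * ((D * ∑ T ∈ 𝒯, ∏ j ∈ T, w j) / (∑ T ∈ 𝒯, ∏ j ∈ T, w' j)) := by ring
    rw [e4]
    refine e1.trans (le_mul_of_one_le_right (by (clear * - hN'; positivity)) ?_)
    rwa [one_le_div hS']
  have hu1 := ustp_le_one 𝒯 hw i
  have hu0 := ustp_nonneg 𝒯 hw i
  have e5 : (D ^ 2)⁻¹ * ustp 𝒯 w i ≤ ustp 𝒯 w' i := by
    rw [inv_mul_le_iff₀ (by positivity)]; exact e3
  have e6 : 1 - 2 * (Fintype.card ι * δ) ≤ (D ^ 2)⁻¹ := by
    have : (D ^ 2)⁻¹ = Real.exp (-(2 * (Fintype.card ι * δ))) := by
      rw [hD, ← Real.exp_nat_mul, Real.exp_neg]; norm_num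
    rw [this]
    have := Real.add_one_le_exp (-(2 * (Fintype.card ι * δ)))
    linarith only [this]
  have hcard : (0 : ℝ) ≤ Fintype.card ι * δ := by (clear * - hδ; positivity)
  nlinarith only [e5, hu1, hcard, hu0, e6]

theorem ustp_lip (𝒯 : Finset (Finset ι)) (h𝒯 : 𝒯.Nonempty) {w w' : ι → ℝ}
    (hw : ∀ i, 0 < w i) (hw' : ∀ i, 0 < w' i) {δ : ℝ} (hδ : 0 ≤ δ)
    (h : ∀ i, |Real.log (w i) - Real.log (w' i)| ≤ δ) (i : ι) :
    |ustp 𝒯 w i - ustp 𝒯 w' i| ≤ 2 * Fintype.card ι * δ := by
  rw [abs_le]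
  have h1 := ustp_lip_aux 𝒯 h𝒯 hw hw' hδ h i
  have h2 := ustp_lip_aux 𝒯 h𝒯 hw' hw hδ (fun i => by rw [abs_sub_comm]; exact h i) i
  constructor <;> linarith

theorem field_ustp_lip (𝒯 : Finset (Finset ι)) (h𝒯 : 𝒯.Nonempty) (r : ℝ) (z z' : ι → ℝ) (i : ι) :
    |field (ustp 𝒯) r z i - field (ustp 𝒯) r z' i| ≤ 4 * Fintype.card ι * ‖z - z'‖ := by
  have := ustp_lip 𝒯 h𝒯 (w := fun f => wt r (z f)) (w' := fun f => wt r (z' f))
    (fun f => wt_pos _ _) (fun f => wt_pos _ _) (δ := 2 * ‖z - z'‖) (by positivity)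
    (fun f => (log_wt_lip r r (z f) (z' f)).trans (by
      have := norm_le_pi_norm (z - z') f
      rw [Pi.sub_apply, Real.norm_eq_abs] at this
      rw [sub_self, abs_zero]
      linarith only [this])) i
  unfold field
  linarith

/-- sum of squares -/
def sq (x : ι → ℝ) : ℝ := ∑ i, x i ^ 2

omit [DecidableEq ι] in
theorem sq_nonneg' (x : ι → ℝ) : 0 ≤ sq x := Finset.sum_nonneg fun _ _ => sq_nonneg _

omit [DecidableEq ι] in
theorem norm_sq_le_sq (x : ι → ℝ) : ‖x‖ ^ 2 ≤ sq x := by
  have h : ‖x‖ ≤ Real.sqrt (sq x) := by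
    rw [pi_norm_le_iff_of_nonneg (Real.sqrt_nonneg _)]
    intro i
    rw [Real.norm_eq_abs]
    refine Real.abs_le_sqrt ?_
    exact Finset.single_le_sum (f := fun i => x i ^ 2) (fun i _ => sq_nonneg _)
      (Finset.mem_univ i)
  calc ‖x‖ ^ 2 ≤ Real.sqrt (sq x) ^ 2 := by gcongr
    _ = sq x := Real.sq_sqrt (sq_nonneg' x)

/-- one step of the coupled pair of chains -/
theorem step_sq (𝒯 : Finset (Finset ι)) (h𝒯 : 𝒯.Nonempty) (r : ℝ) {h : ℝ} (h0 : 0 ≤ h)
    (h1 : h ≤ 1) (x y : ι → ℝ) :
    ∑ T ∈ 𝒯, post 𝒯 (fun i => wt r (x i)) T *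
        sq (x + h • ind T - (y + h • field (ustp 𝒯) r y))
      ≤ (1 + h * (1 + 2 * (Fintype.card ι * (4 * Fintype.card ι) ^ 2))) * sq (x - y)
        + h ^ 2 * Fintype.card ι := by
  set n : ℝ := (Fintype.card ι : ℝ) with hn
  have hw : ∀ i, 0 < (fun i => wt r (x i)) i := fun i => wt_pos _ _
  set p : Finset ι → ℝ := post 𝒯 (fun i => wt r (x i)) with hp
  have hp1 : ∑ T ∈ 𝒯, p T = 1 := sum_post h𝒯 hw
  have hp0 : ∀ T, 0 ≤ p T := fun T => post_nonneg hw T
  have hcoord : ∀ i, ∑ T ∈ 𝒯, p T * (x + h • ind T - (y + h • field (ustp 𝒯) r y)) i ^ 2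
      ≤ (1 + h) * (x i - y i) ^ 2 + (h + h ^ 2) * ((4 * n) ^ 2 * sq (x - y)) + h ^ 2 := by
    intro i
    set v := field (ustp 𝒯) r x i with hv
    set v' := field (ustp 𝒯) r y i with hv'
    have hvsum : ∑ T ∈ 𝒯, p T * ind T i = v := (ustp_eq_sum_post 𝒯 _ i).symm
    have hv0 : 0 ≤ v := ustp_nonneg 𝒯 hw i
    have hv1 : v ≤ 1 := ustp_le_one 𝒯 hw i
    have hdiff : |v - v'| ≤ 4 * n * ‖x - y‖ := field_ustp_lip 𝒯 h𝒯 r x y i
    have hdiff2 : (v - v') ^ 2 ≤ (4 * n) ^ 2 * sq (x - y) := by
      calc (v - v') ^ 2 = |v - v'| ^ 2 := (sq_abs _).symm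
        _ ≤ (4 * n * ‖x - y‖) ^ 2 := by (clear * - hdiff; gcongr)
        _ = (4 * n) ^ 2 * ‖x - y‖ ^ 2 := by ring
        _ ≤ (4 * n) ^ 2 * sq (x - y) := by
          gcongr
          exact norm_sq_le_sq _
    have hexp : ∑ T ∈ 𝒯, p T * (x + h • ind T - (y + h • field (ustp 𝒯) r y)) i ^ 2
        = (x i - y i - h * v') ^ 2 + (2 * (x i - y i - h * v') * h + h ^ 2) * v := by
      have hterm : ∀ T ∈ 𝒯, p T * (x + h • ind T - (y + h • field (ustp 𝒯) r y)) i ^ 2
          = (x i - y i - h * v') ^ 2 * p T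
            + (2 * (x i - y i - h * v') * h + h ^ 2) * (p T * ind T i) := by
        intro T _
        have hi : ind T i ^ 2 = ind T i := by
          unfold ind; split_ifs <;> norm_num
        simp only [Pi.sub_apply, Pi.add_apply, Pi.smul_apply, smul_eq_mul, ← hv']
        linear_combination (p T * h ^ 2) * hi
      rw [Finset.sum_congr rfl hterm, Finset.sum_add_distrib, ← Finset.mul_sum,
        ← Finset.mul_sum, hp1, hvsum, mul_one]
    rw [hexp]
    have h5 : 2 * ((x i - y i) * (v - v')) ≤ (x i - y i) ^ 2 + (v - v') ^ 2 := by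
      nlinarith only [sq_nonneg ((x i - y i) - (v - v'))]
    have h6 : (x i - y i - h * v') ^ 2 + (2 * (x i - y i - h * v') * h + h ^ 2) * v
        = (x i - y i) ^ 2 + h * (2 * ((x i - y i) * (v - v'))) + h ^ 2 * (v - v') ^ 2
          + h ^ 2 * (v - v ^ 2) := by ring
    rw [h6]
    have h7 : v - v ^ 2 ≤ 1 := by nlinarith only []
    have h8 : h * (2 * ((x i - y i) * (v - v'))) ≤ h * ((x i - y i) ^ 2 + (v - v') ^ 2) :=
      mul_le_mul_of_nonneg_left h5 h0
    have h9 : h ^ 2 * (v - v ^ 2) ≤ h ^ 2 * 1 := mul_le_mul_of_nonneg_left h7 (by (clear * -; positivity))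
    have h10 : (h + h ^ 2) * (v - v') ^ 2 ≤ (h + h ^ 2) * ((4 * n) ^ 2 * sq (x - y)) :=
      mul_le_mul_of_nonneg_left hdiff2 (by (clear * - h0; positivity))
    linarith
  have hswap : ∑ T ∈ 𝒯, p T * sq (x + h • ind T - (y + h • field (ustp 𝒯) r y))
      = ∑ i, ∑ T ∈ 𝒯, p T * (x + h • ind T - (y + h • field (ustp 𝒯) r y)) i ^ 2 := by
    unfold sq
    rw [Finset.sum_comm]
    exact Finset.sum_congr rfl fun T _ => Finset.mul_sum _ _ _
  rw [hswap]
  calc ∑ i, ∑ T ∈ 𝒯, p T * (x + h • ind T - (y + h • field (ustp 𝒯) r y)) i ^ 2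
      ≤ ∑ i, ((1 + h) * (x i - y i) ^ 2 + (h + h ^ 2) * ((4 * n) ^ 2 * sq (x - y)) + h ^ 2) :=
        Finset.sum_le_sum fun i _ => hcoord i
    _ = (1 + h) * sq (x - y) + (h + h ^ 2) * (n * (4 * n) ^ 2) * sq (x - y) + h ^ 2 * n := by
        rw [Finset.sum_add_distrib, Finset.sum_add_distrib, ← Finset.mul_sum]
        simp only [Finset.sum_const, Finset.card_univ, nsmul_eq_mul, ← hn]
        have : ∑ i, (x i - y i) ^ 2 = sq (x - y) := rfl
        rw [this]
        ring
    _ ≤ _ := by
        have hs := sq_nonneg' (x - y)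
        have hn0 : 0 ≤ n := by rw [hn]; (clear * -; positivity)
        have h2 : h + h ^ 2 ≤ 2 * h := by nlinarith only [h0, h1]
        have h3 : (h + h ^ 2) * (n * (4 * n) ^ 2 * sq (x - y))
            ≤ (2 * h) * (n * (4 * n) ^ 2 * sq (x - y)) :=
          mul_le_mul_of_nonneg_right h2 (by (clear * - hs; positivity))
        linarith

/-- one step of the resampled chain acting on functions -/
noncomputable def Qop (𝒯 : Finset (Finset ι)) (h r : ℝ) (g : (ι → ℝ) → ℝ) (y : ι → ℝ) : ℝ :=
  ∑ T ∈ 𝒯, post 𝒯 (fun i => wt r (y i)) T * g (y + h • ind T)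

/-- `k` steps of the resampled chain acting on functions -/
noncomputable def PQ (𝒯 : Finset (Finset ι)) (h : ℝ) : ℕ → ((ι → ℝ) → ℝ) → (ι → ℝ) → ℝ
  | 0, g => g
  | k + 1, g => PQ 𝒯 h k (Qop 𝒯 h (k * h) g)

theorem PQ_sub_euler (𝒯 : Finset (Finset ι)) (h𝒯 : 𝒯.Nonempty) {h : ℝ} (h0 : 0 ≤ h)
    (h1 : h ≤ 1) {c : ℝ} (hc : c = 1 + 2 * (Fintype.card ι * (4 * Fintype.card ι) ^ 2)) (k : ℕ) :
    ∀ (g f : (ι → ℝ) → ℝ) (α β : ℝ), 0 ≤ β → (∀ x y, |g x - f y| ≤ α + β * sq (x - y)) →
      ∀ x y, |PQ 𝒯 h k g x - f (euler (field (ustp 𝒯)) h k y)|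
        ≤ α + β * (1 + h * c) ^ k * (sq (x - y) + k * (h ^ 2 * Fintype.card ι)) := by
  have hc0 : 0 ≤ c := by rw [hc]; (clear * -; positivity)
  have hb0 : 1 ≤ 1 + h * c := by nlinarith only [h0, hc0]
  induction k with
  | zero =>
    intro g f α β _ hgf x y
    simpa only [PQ, euler, pow_zero, mul_one, CharP.cast_eq_zero, zero_mul, add_zero] using hgf x y
  | succ k ih =>
    intro g f α β hβ hgf x y
    have hgf' : ∀ x y, |Qop 𝒯 h (k * h) g x - (fun y => f (y + h • field (ustp 𝒯) (k * h) y)) y|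
        ≤ (α + β * (h ^ 2 * Fintype.card ι)) + (β * (1 + h * c)) * sq (x - y) := by
      intro x y
      have hw : ∀ i, 0 < (fun i => wt (k * h) (x i)) i := fun i => wt_pos _ _
      have e1 : Qop 𝒯 h (k * h) g x - f (y + h • field (ustp 𝒯) (k * h) y)
          = ∑ T ∈ 𝒯, post 𝒯 (fun i => wt (k * h) (x i)) T *
            (g (x + h • ind T) - f (y + h • field (ustp 𝒯) (k * h) y)) := by
        simp only [mul_sub]
        rw [Finset.sum_sub_distrib, ← Finset.sum_mul, sum_post h𝒯 hw, one_mul, Qop]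
      simp only
      rw [e1]
      calc |∑ T ∈ 𝒯, post 𝒯 (fun i => wt (k * h) (x i)) T *
            (g (x + h • ind T) - f (y + h • field (ustp 𝒯) (k * h) y))|
          ≤ ∑ T ∈ 𝒯, post 𝒯 (fun i => wt (k * h) (x i)) T *
            (α + β * sq (x + h • ind T - (y + h • field (ustp 𝒯) (k * h) y))) := by
            refine (Finset.abs_sum_le_sum_abs _ _).trans (Finset.sum_le_sum fun T _ => ?_)
            rw [abs_mul, abs_of_nonneg (post_nonneg hw T)]
            exact mul_le_mul_of_nonneg_left (hgf _ _) (post_nonneg hw T)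
        _ = α + β * ∑ T ∈ 𝒯, post 𝒯 (fun i => wt (k * h) (x i)) T *
            sq (x + h • ind T - (y + h • field (ustp 𝒯) (k * h) y)) := by
            simp only [mul_add]
            rw [Finset.sum_add_distrib, ← Finset.sum_mul, sum_post h𝒯 hw, one_mul,
              Finset.mul_sum]
            congr 1
            exact Finset.sum_congr rfl fun T _ => by ring
        _ ≤ α + β * ((1 + h * c) * sq (x - y) + h ^ 2 * Fintype.card ι) := by
            have := step_sq 𝒯 h𝒯 (k * h) h0 h1 x y
            rw [← hc] at this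
            (clear * - this hβ; gcongr)
        _ = _ := by ring
    have := ih (Qop 𝒯 h (k * h) g) (fun y => f (y + h • field (ustp 𝒯) (k * h) y)) _ _
      (by (clear * - hβ h0 hc0; positivity)) hgf' x y
    have e2 : f (euler (field (ustp 𝒯)) h (k + 1) y)
        = (fun y => f (y + h • field (ustp 𝒯) (k * h) y)) (euler (field (ustp 𝒯)) h k y) := rfl
    rw [e2]
    refine this.trans ?_
    have hk1 : 1 ≤ (1 + h * c) ^ (k + 1) := one_le_pow₀ hb0
    have hbc : β * (h ^ 2 * Fintype.card ι) ≤ β * (1 + h * c) ^ (k + 1) * (h ^ 2 * Fintype.card ι) := by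
      rw [mul_assoc]
      refine mul_le_mul_of_nonneg_left ?_ hβ
      exact le_mul_of_one_le_left (by (clear * -; positivity)) hk1
    have e3 : β * (1 + h * c) * (1 + h * c) ^ k = β * (1 + h * c) ^ (k + 1) := by ring
    have e4 : β * (1 + h * c) ^ (k + 1) * (sq (x - y) + ((k + 1 : ℕ) : ℝ)
        * (h ^ 2 * Fintype.card ι)) = β * (1 + h * c) ^ (k + 1) * (sq (x - y) + k
        * (h ^ 2 * Fintype.card ι)) + β * (1 + h * c) ^ (k + 1) * (h ^ 2 * Fintype.card ι) := by
      push_cast; ring
    rw [e3, e4]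
    linarith only [hbc]

omit [Fintype ι] [DecidableEq ι] in
theorem continuous_post (𝒯 : Finset (Finset ι)) (h𝒯 : 𝒯.Nonempty) (r : ℝ) (T : Finset ι) :
    Continuous fun y : ι → ℝ => post 𝒯 (fun i => wt r (y i)) T := by
  unfold post
  have hc : ∀ T : Finset ι, Continuous fun y : ι → ℝ => ∏ j ∈ T, wt r (y j) := fun T =>
    continuous_finsetProd _ fun j _ => (continuous_wt r).comp (continuous_apply j)
  exact (hc T).div (continuous_finsetSum _ fun T _ => hc T) fun y =>
    (sum_prod_pos h𝒯 fun i => wt_pos _ _).ne'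

omit [Fintype ι] in
theorem continuous_Qop (𝒯 : Finset (Finset ι)) (h𝒯 : 𝒯.Nonempty) (h r : ℝ) {g : (ι → ℝ) → ℝ}
    (hg : Continuous g) : Continuous (Qop 𝒯 h r g) := by
  unfold Qop
  exact continuous_finsetSum _ fun T _ => (continuous_post 𝒯 h𝒯 r T).mul
    (hg.comp (by fun_prop))

omit [Fintype ι] in
theorem Qop_bdd (𝒯 : Finset (Finset ι)) (h𝒯 : 𝒯.Nonempty) (h r : ℝ) {g : (ι → ℝ) → ℝ} {B : ℝ}
    (hg : ∀ z, |g z| ≤ B) (z : ι → ℝ) : |Qop 𝒯 h r g z| ≤ B := by
  have hw : ∀ i, 0 < (fun i => wt r (z i)) i := fun i => wt_pos _ _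
  unfold Qop
  calc |∑ T ∈ 𝒯, post 𝒯 (fun i => wt r (z i)) T * g (z + h • ind T)|
      ≤ ∑ T ∈ 𝒯, post 𝒯 (fun i => wt r (z i)) T * B := by
        refine (Finset.abs_sum_le_sum_abs _ _).trans (Finset.sum_le_sum fun T _ => ?_)
        rw [abs_mul, abs_of_nonneg (post_nonneg hw T)]
        exact mul_le_mul_of_nonneg_left (hg _) (post_nonneg hw T)
    _ = B := by rw [← Finset.sum_mul, sum_post h𝒯 hw, one_mul]

omit [DecidableEq ι] in
theorem integrable_bdd {g : (ι → ℝ) → ℝ} {B : ℝ} (hg : Continuous g) (hB : ∀ z, |g z| ≤ B) :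
    Integrable g (noise ι) :=
  (integrable_const B).mono' hg.aestronglyMeasurable (ae_of_all _ hB)

theorem one_step (𝒯 : Finset (Finset ι)) (h𝒯 : 𝒯.Nonempty) (h r : ℝ) {g : (ι → ℝ) → ℝ} {B : ℝ}
    (hg : Continuous g) (hB : ∀ z, |g z| ≤ B) :
    ∑ T ∈ 𝒯, ∫ z, g (z + (r + h) • ind T) ∂(noise ι)
      = ∑ T ∈ 𝒯, ∫ z, Qop 𝒯 h r g (z + r • ind T) ∂(noise ι) := by
  have hB0 : 0 ≤ B := (abs_nonneg _).trans (hB 0)
  have hcp : ∀ T : Finset ι, Continuous fun y : ι → ℝ => ∏ j ∈ T, wt r (y j) := fun T =>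
    continuous_finsetProd _ fun j _ => (continuous_wt r).comp (continuous_apply j)
  have hbp : ∀ (T : Finset ι) (y : ι → ℝ), |∏ j ∈ T, wt r (y j)| ≤ Real.exp |r| ^ T.card := by
    intro T y
    rw [Finset.abs_prod]
    calc ∏ j ∈ T, |wt r (y j)| ≤ ∏ j ∈ T, Real.exp |r| :=
          Finset.prod_le_prod (fun j _ => abs_nonneg _) fun j _ => by
            rw [abs_of_pos (wt_pos _ _)]; exact wt_le _ _
      _ = _ := by rw [Finset.prod_const]
  have e1 : ∀ T ∈ 𝒯, ∫ z, g (z + (r + h) • ind T) ∂(noise ι)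
      = ∫ y, g (y + h • ind T) * ∏ j ∈ T, wt r (y j) ∂(noise ι) := by
    intro T _
    rw [← integral_shift T r (fun y => g (y + h • ind T)) (hg.measurable.comp (by fun_prop))]
    refine integral_congr_ae (ae_of_all _ fun z => ?_)
    simp only
    congr 1
    rw [add_smul, add_assoc]
  have e2 : ∀ T ∈ 𝒯, ∫ z, Qop 𝒯 h r g (z + r • ind T) ∂(noise ι)
      = ∫ y, Qop 𝒯 h r g y * ∏ j ∈ T, wt r (y j) ∂(noise ι) := by
    intro T _
    exact integral_shift T r _ (continuous_Qop 𝒯 h𝒯 h r hg).measurable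
  rw [Finset.sum_congr rfl e1, Finset.sum_congr rfl e2, ← integral_finsetSum,
    ← integral_finsetSum]
  · refine integral_congr_ae (ae_of_all _ fun y => ?_)
    simp only
    rw [← Finset.mul_sum, Qop, Finset.sum_mul]
    refine Finset.sum_congr rfl fun T _ => ?_
    have hS := (sum_prod_pos h𝒯 (w := fun i => wt r (y i)) fun i => wt_pos _ _).ne'
    unfold post
    (clear * - hS; field_simp)
  · intro T _
    refine integrable_bdd (B := B * Real.exp |r| ^ T.card)
      ((continuous_Qop 𝒯 h𝒯 h r hg).mul (hcp T)) fun z => ?_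
    rw [abs_mul]
    exact mul_le_mul (Qop_bdd 𝒯 h𝒯 h r hB z) (hbp T z) (abs_nonneg _) hB0
  · intro T _
    refine integrable_bdd (B := B * Real.exp |r| ^ T.card)
      ((hg.comp (by fun_prop)).mul (hcp T)) fun z => ?_
    rw [abs_mul]
    exact mul_le_mul (hB _) (hbp T z) (abs_nonneg _) hB0

theorem law_chain (𝒯 : Finset (Finset ι)) (h𝒯 : 𝒯.Nonempty) (h : ℝ) (k : ℕ) :
    ∀ (g : (ι → ℝ) → ℝ) (B : ℝ), Continuous g → (∀ z, |g z| ≤ B) →
      ∑ T ∈ 𝒯, ∫ z, g (z + (k * h) • ind T) ∂(noise ι)
        = 𝒯.card * ∫ z, PQ 𝒯 h k g z ∂(noise ι) := by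
  induction k with
  | zero =>
    intro g B _ _
    simp [PQ]
  | succ k ih =>
    intro g B hg hB
    have := one_step 𝒯 h𝒯 h (k * h) hg hB
    have e : ((k + 1 : ℕ) : ℝ) * h = k * h + h := by push_cast; ring
    rw [e, this]
    exact ih _ B (continuous_Qop 𝒯 h𝒯 h _ hg) (Qop_bdd 𝒯 h𝒯 h _ hB)

omit [Fintype ι] in
theorem continuous_PQ (𝒯 : Finset (Finset ι)) (h𝒯 : 𝒯.Nonempty) (h : ℝ) (k : ℕ) :
    ∀ (g : (ι → ℝ) → ℝ), Continuous g → Continuous (PQ 𝒯 h k g) := by
  induction k with
  | zero => intro g hg; simpa [PQ] using hg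
  | succ k ih => intro g hg; exact ih _ (continuous_Qop 𝒯 h𝒯 h _ hg)

omit [Fintype ι] in
theorem PQ_bdd (𝒯 : Finset (Finset ι)) (h𝒯 : 𝒯.Nonempty) (h : ℝ) (k : ℕ) :
    ∀ (g : (ι → ℝ) → ℝ) (B : ℝ), (∀ z, |g z| ≤ B) → ∀ z, |PQ 𝒯 h k g z| ≤ B := by
  induction k with
  | zero => intro g B hg; simpa only [PQ] using hg
  | succ k ih => intro g B hg; exact ih _ B (Qop_bdd 𝒯 h𝒯 h _ hg)

omit [Fintype ι] in
theorem continuous_field (𝒯 : Finset (Finset ι)) (h𝒯 : 𝒯.Nonempty) (r : ℝ) :
    Continuous (field (ustp 𝒯) r : (ι → ℝ) → ι → ℝ) := by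
  refine continuous_pi fun i => ?_
  have : (fun y : ι → ℝ => field (ustp 𝒯) r y i)
      = fun y => ∑ T ∈ 𝒯, post 𝒯 (fun i => wt r (y i)) T * ind T i := by
    funext y; exact ustp_eq_sum_post 𝒯 _ i
  rw [this]
  exact continuous_finsetSum _ fun T _ => (continuous_post 𝒯 h𝒯 r T).mul continuous_const

omit [Fintype ι] in
theorem continuous_euler (𝒯 : Finset (Finset ι)) (h𝒯 : 𝒯.Nonempty) (h : ℝ) (k : ℕ) :
    Continuous (euler (field (ustp 𝒯)) h k : (ι → ℝ) → ι → ℝ) := by
  induction k with
  | zero => exact continuous_id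
  | succ k ih =>
    refine continuous_pi fun i => ?_
    exact ((continuous_apply i).comp ih).add (continuous_const.mul
      ((continuous_apply i).comp ((continuous_field 𝒯 h𝒯 (k * h)).comp ih)))

/-- quantitative law identification -/
theorem law_rate (𝒯 : Finset (Finset ι)) (h𝒯 : 𝒯.Nonempty) (f : (ι → ℝ) → ℝ) (L B : ℝ)
    (hf : ∀ z z', |f z - f z'| ≤ L * ‖z - z'‖) (hB : ∀ z, |f z| ≤ B) (N : ℕ) :
    ∃ C : ℝ, ∀ j : ℕ,
      |∫ z, f (euler (field (ustp 𝒯)) (1 / 2 ^ j) (N * 2 ^ j) z) ∂(noise ι)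
        - (∑ T ∈ 𝒯, ∫ z, f (z + (N : ℝ) • ind T) ∂(noise ι)) / (𝒯.card : ℝ)|
      ≤ C * Real.sqrt (1 / 2 ^ j) := by
  set n : ℝ := (Fintype.card ι : ℝ) with hn
  set c : ℝ := 1 + 2 * (n * (4 * n) ^ 2) with hc
  have hn0 : 0 ≤ n := by rw [hn]; positivity
  have hc0 : 0 ≤ c := by rw [hc]; positivity
  set L' := |L| with hL'
  have hf' : ∀ z z', |f z - f z'| ≤ L' * ‖z - z'‖ := fun z z' =>
    (hf z z').trans (mul_le_mul_of_nonneg_right (le_abs_self L) (norm_nonneg _))
  have hL0 : 0 ≤ L' := abs_nonneg L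
  have hfc : Continuous f := by
    have : LipschitzWith (Real.toNNReal L') f := by
      refine LipschitzWith.of_dist_le_mul fun x y => ?_
      rw [Real.dist_eq, dist_eq_norm, Real.coe_toNNReal _ hL0]
      exact hf' x y
    exact this.continuous
  refine ⟨L' + L' * Real.exp (N * c) * (N * n), fun j => ?_⟩
  set h : ℝ := 1 / 2 ^ j with hh
  have hh0 : 0 < h := by rw [hh]; positivity
  have hh1 : h ≤ 1 := by
    rw [hh, div_le_one (by positivity)]
    exact one_le_pow₀ (by norm_num)
  set K : ℕ := N * 2 ^ j with hK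
  have hKh : (K : ℝ) * h = N := by
    rw [hK, hh]; push_cast; (clear * -; field_simp)
  have hcard : (0 : ℝ) < 𝒯.card := by exact_mod_cast h𝒯.card_pos
  set s := Real.sqrt h with hs
  have hs0 : 0 < s := Real.sqrt_pos.2 hh0
  have hss : s * s = h := Real.mul_self_sqrt hh0.le
  have hlaw := law_chain 𝒯 h𝒯 h K f B hfc hB
  rw [hKh] at hlaw
  rw [hlaw, mul_div_assoc, mul_comm, div_mul_cancel₀ _ hcard.ne', ← integral_sub]
  rotate_left
  · exact integrable_bdd (hfc.comp (continuous_euler 𝒯 h𝒯 h K)) fun z => hB _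
  · exact integrable_bdd (continuous_PQ 𝒯 h𝒯 h K f hfc) (PQ_bdd 𝒯 h𝒯 h K f B hB)
  have hAB : ∀ x y, |f x - f y| ≤ L' * s + (L' / s) * sq (x - y) := by
    intro x y
    refine (hf' x y).trans ?_
    have h1 : ‖x - y‖ ≤ s + ‖x - y‖ ^ 2 / s := by
      rw [← sub_le_iff_le_add', le_div_iff₀ hs0]
      nlinarith only [hss]
    calc L' * ‖x - y‖ ≤ L' * (s + ‖x - y‖ ^ 2 / s) := mul_le_mul_of_nonneg_left h1 hL0
      _ ≤ L' * (s + sq (x - y) / s) := by
        gcongr
        exact norm_sq_le_sq _
      _ = _ := by ring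
  have hpt : ∀ z, |f (euler (field (ustp 𝒯)) h K z) - PQ 𝒯 h K f z|
      ≤ (L' + L' * Real.exp (N * c) * (N * n)) * s := by
    intro z
    rw [abs_sub_comm]
    have h1 := PQ_sub_euler 𝒯 h𝒯 hh0.le hh1 hc K f f _ _ (by (clear * -; positivity)) hAB z z
    refine h1.trans ?_
    have h2 : sq (z - z) = 0 := by simp only [sq, Pi.sub_apply, sub_self, ne_eq, OfNat.ofNat_ne_zero, not_false_eq_true, zero_pow, Finset.sum_const_zero]
    have h3 : (1 + h * c) ^ K ≤ Real.exp (N * c) := by
      have h4 : 1 + h * c ≤ Real.exp (h * c) := by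
        have := Real.add_one_le_exp (h * c); linarith only [this]
      calc (1 + h * c) ^ K ≤ Real.exp (h * c) ^ K := by (clear * - h4; gcongr)
        _ = Real.exp (K * (h * c)) := by rw [Real.exp_nat_mul]
        _ = Real.exp (N * c) := by rw [← mul_assoc, hKh]
    rw [h2, zero_add]
    have h5 : (K : ℝ) * (h ^ 2 * n) = N * n * h := by
      rw [← hKh]; ring
    rw [← hn, h5]
    have h6 : L' / s * (1 + h * c) ^ K * (N * n * h)
        ≤ L' / s * Real.exp (N * c) * (N * n * h) := by (clear * - h3; gcongr)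
    have h7 : L' / s * Real.exp (N * c) * (N * n * h) = L' * Real.exp (N * c) * (N * n) * s := by
      rw [← hss]; (clear * - hs0; field_simp)
    (clear * - h6 h7; linarith)
  calc |∫ z, (f (euler (field (ustp 𝒯)) h K z) - PQ 𝒯 h K f z) ∂(noise ι)|
      ≤ ∫ z, |f (euler (field (ustp 𝒯)) h K z) - PQ 𝒯 h K f z| ∂(noise ι) :=
        abs_integral_le_integral_abs
    _ ≤ ∫ _z, (L' + L' * Real.exp (N * c) * (N * n)) * s ∂(noise ι) := by
        refine integral_mono_of_nonneg (ae_of_all _ fun z => abs_nonneg _)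
          (integrable_const _) (ae_of_all _ hpt)
    _ = _ := by simp

theorem law_tendsto (𝒯 : Finset (Finset ι)) (h𝒯 : 𝒯.Nonempty) (f : (ι → ℝ) → ℝ) (L B : ℝ)
    (hf : ∀ z z', |f z - f z'| ≤ L * ‖z - z'‖) (hB : ∀ z, |f z| ≤ B) (N : ℕ) :
    Tendsto (fun j : ℕ => ∫ z, f (euler (field (ustp 𝒯)) (1 / 2 ^ j) (N * 2 ^ j) z)
        ∂(Measure.pi fun _ : ι => logistic)) atTop
      (𝓝 ((∑ T ∈ 𝒯, ∫ z, f (z + (N : ℝ) • ind T) ∂(Measure.pi fun _ : ι => logistic))
        / (𝒯.card : ℝ))) := by
  obtain ⟨C, hC⟩ := law_rate 𝒯 h𝒯 f L B hf hB N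
  rw [tendsto_iff_dist_tendsto_zero]
  have hz : Tendsto (fun j : ℕ => C * Real.sqrt (1 / 2 ^ j)) atTop (𝓝 0) := by
    have h1 : Tendsto (fun j : ℕ => (1 : ℝ) / 2 ^ j) atTop (𝓝 0) := by
      have := tendsto_pow_atTop_nhds_zero_of_lt_one (r := (1 / 2 : ℝ)) (by norm_num) (by norm_num)
      refine this.congr fun j => ?_
      rw [div_pow, one_pow]
    have h2 := (Real.continuous_sqrt.tendsto 0).comp h1
    simpa only [one_div, Real.sqrt_inv, Function.comp_apply, Real.sqrt_zero, mul_zero] using h2.const_mul C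
  exact squeeze_zero (fun j => dist_nonneg) (fun j => by rw [Real.dist_eq]; exact hC j) hz

theorem law_main (𝒯 : Finset (Finset ι)) (h𝒯 : 𝒯.Nonempty) (_hd : IsDrift (ustp 𝒯))
    (f : (ι → ℝ) → ℝ) (K : NNReal) (B : ℝ)
    (hf : LipschitzWith K f) (hB : ∀ z, |f z| ≤ B) (N : ℕ) :
    Tendsto (fun j : ℕ => ∫ z, f (euler (field (ustp 𝒯)) (1 / 2 ^ j) (N * 2 ^ j) z)
          ∂(Measure.pi fun _ : ι => logistic)) atTop
      (𝓝 ((∑ T ∈ 𝒯, ∫ z, f (z + (N : ℝ) • ind T)
            ∂(Measure.pi fun _ : ι => logistic)) / (𝒯.card : ℝ))) :=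
  law_tendsto 𝒯 h𝒯 f K B (fun z z' => by
    have := hf.dist_le_mul z z'
    rwa [Real.dist_eq, dist_eq_norm] at this) hB N

end Vale.Agent.P143
end
end

section

section

/-!
Independent edge noise as an isomorphism-invariant function of i.i.d. vertex labels.
-/

namespace Vale.Agent.P143

open MeasureTheory ProbabilityTheory Measure

/-- zipping two independent product measures -/
theorem infinitePi_zip {ι α β : Type*} [MeasurableSpace α] [MeasurableSpace β]
    (μ : ι → Measure α) (ν : ι → Measure β) [∀ i, IsProbabilityMeasure (μ i)]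
    [∀ i, IsProbabilityMeasure (ν i)] :
    ((infinitePi μ).prod (infinitePi ν)).map (fun p i => (p.1 i, p.2 i)) =
      infinitePi fun i => (μ i).prod (ν i) := by
  classical
  refine eq_infinitePi _ fun s t ht => ?_
  rw [map_apply (by fun_prop) (.pi s.countable_toSet fun _ _ => ht _)]
  have hR : ((infinitePi μ).prod (infinitePi ν)).map (Prod.map s.restrict s.restrict) =
      (Measure.pi fun i : s => μ i).prod (Measure.pi fun i : s => ν i) := by
    rw [← Measure.map_prod_map _ _ (by fun_prop) (by fun_prop), infinitePi_map_restrict,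
      infinitePi_map_restrict]
  set e := MeasurableEquiv.arrowProdEquivProdArrow α β s
  have hP := measurePreserving_arrowProdEquivProdArrow α β s (fun i => μ i) (fun i => ν i)
  have hS : MeasurableSet (Set.univ.pi fun i : s => t i) := .univ_pi fun i => ht _
  have h1 : (fun (p : (ι → α) × (ι → β)) i => (p.1 i, p.2 i)) ⁻¹' (Set.pi (↑s) t) =
      Prod.map s.restrict s.restrict ⁻¹' (e.symm ⁻¹' (Set.univ.pi fun i : s => t i)) := by
    ext p
    simp only [Set.mem_preimage, Set.mem_pi, Finset.mem_coe, Set.mem_univ, forall_true_left,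
      Subtype.forall]
    rfl
  rw [h1, ← map_apply (by fun_prop) (e.symm.measurable hS), hR, ← hP.map_eq,
    map_apply e.measurable (e.symm.measurable hS), ← Set.preimage_comp]
  simp only [MeasurableEquiv.symm_comp_self, Set.preimage_id_eq, id_eq]
  rw [Measure.pi_pi]
  exact Finset.prod_coe_sort s fun i => ((μ i).prod (ν i)) (t i)

/-- number of `A`-neighbours of `v` whose label is smaller than the label of `w` -/
noncomputable def rank {V : Type*} (A : V → V → Prop) (u : V → unitInterval) (v w : V) : ℕ :=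
  {x | A v x ∧ u x < u w}.ncard

/-- decode a uniform label into a uniform label and a sequence with law `κ` -/
noncomputable def decode (κ : Measure ℝ) [IsProbabilityMeasure κ] :
    unitInterval → unitInterval × (ℕ → ℝ) :=
  (Measure.exists_measurable_map_eq
    ((volume : Measure unitInterval).prod (infinitePi fun _ : ℕ => κ))).choose

theorem measurable_decode (κ : Measure ℝ) [IsProbabilityMeasure κ] : Measurable (decode κ) :=
  (Measure.exists_measurable_map_eq
    ((volume : Measure unitInterval).prod (infinitePi fun _ : ℕ => κ))).choose_spec.1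

theorem map_decode (κ : Measure ℝ) [IsProbabilityMeasure κ] :
    (volume : Measure unitInterval).map (decode κ) =
      (volume : Measure unitInterval).prod (infinitePi fun _ : ℕ => κ) :=
  (Measure.exists_measurable_map_eq
    ((volume : Measure unitInterval).prod (infinitePi fun _ : ℕ => κ))).choose_spec.2

/-- the noise of the pair `v, w`: read off at the endpoint with the larger label -/
noncomputable def pairNoise {V : Type*} (A : V → V → Prop) (u : V → unitInterval)
    (x : V → ℕ → ℝ) (v w : V) : ℝ :=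
  if u w < u v then x v (rank A u v w)
  else if u v < u w then x w (rank A u w v) else 0

theorem pairNoise_comm {V : Type*} (A : V → V → Prop) (u : V → unitInterval)
    (x : V → ℕ → ℝ) (v w : V) : pairNoise A u x v w = pairNoise A u x w v := by
  unfold pairNoise
  rcases lt_trichotomy (u v) (u w) with h | h | h
  · simp [h, h.not_gt]
  · simp [h]
  · simp [h, h.not_gt]

/-- the noise of an (unordered) edge -/
noncomputable def edgeNoiseAux {V : Type*} (κ : Measure ℝ) [IsProbabilityMeasure κ]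
    (A : V → V → Prop) (U : V → unitInterval) (e : Sym2 V) : ℝ :=
  Sym2.lift ⟨pairNoise A (fun v => (decode κ (U v)).1) (fun v => (decode κ (U v)).2),
    pairNoise_comm A _ _⟩ e

theorem edgeNoiseAux_mk {V : Type*} (κ : Measure ℝ) [IsProbabilityMeasure κ]
    (A : V → V → Prop) (U : V → unitInterval) (v w : V) :
    edgeNoiseAux κ A U s(v, w) =
      pairNoise A (fun v => (decode κ (U v)).1) (fun v => (decode κ (U v)).2) v w := rfl

section Equivariance

variable {V V' : Type*}

theorem rank_equiv (φ : V ≃ V') (A : V → V → Prop) (A' : V' → V' → Prop)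
    (hA : ∀ v w, A' (φ v) (φ w) ↔ A v w) (u : V' → unitInterval) (v w : V) :
    rank A' u (φ v) (φ w) = rank A (fun x => u (φ x)) v w := by
  unfold rank
  have : {x | A' (φ v) x ∧ u x < u (φ w)} = φ '' {x | A v x ∧ u (φ x) < u (φ w)} := by
    ext y
    obtain ⟨x, rfl⟩ := φ.surjective y
    simp [hA]
  rw [this, Set.ncard_image_of_injective _ φ.injective]

theorem edgeNoiseAux_equiv (κ : Measure ℝ) [IsProbabilityMeasure κ] (φ : V ≃ V')
    (A : V → V → Prop) (A' : V' → V' → Prop) (hA : ∀ v w, A' (φ v) (φ w) ↔ A v w)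
    (U : V' → unitInterval) (e : Sym2 V) :
    edgeNoiseAux κ A' U (e.map φ) = edgeNoiseAux κ A (fun x => U (φ x)) e := by
  induction e with | _ v w
  simp only [Sym2.map_mk, edgeNoiseAux_mk, pairNoise]
  rw [rank_equiv φ A A' hA, rank_equiv φ A A' hA]

end Equivariance

section Measurability

variable {V : Type*} [Countable V]

theorem measurable_rank (v w : V) :
    Measurable fun p : (V → V → Prop) × (V → unitInterval) => rank p.1 p.2 v w := by
  have hset : ∀ s : Set V, MeasurableSet {p : (V → V → Prop) × (V → unitInterval) |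
      {x | p.1 v x ∧ p.2 x < p.2 w} = s} := by
    intro s
    have : {p : (V → V → Prop) × (V → unitInterval) | {x | p.1 v x ∧ p.2 x < p.2 w} = s} =
        ⋂ x, {p | (p.1 v x ∧ p.2 x < p.2 w) ↔ x ∈ s} := by
      ext p
      simp only [Set.ext_iff, Set.mem_ofPred_eq, Set.mem_iInter]
    rw [this]
    refine MeasurableSet.iInter fun x => ?_
    have h1 : MeasurableSet {p : (V → V → Prop) × (V → unitInterval) | p.1 v x} := by
      have : Measurable fun p : (V → V → Prop) × (V → unitInterval) => p.1 v x := by fun_prop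
      exact this.setOf
    have h2 : MeasurableSet {p : (V → V → Prop) × (V → unitInterval) | p.2 x < p.2 w} :=
      measurableSet_lt (by fun_prop) (by fun_prop)
    by_cases hx : x ∈ s
    · have : {p : (V → V → Prop) × (V → unitInterval) | (p.1 v x ∧ p.2 x < p.2 w) ↔ x ∈ s} =
          {p | p.1 v x} ∩ {p | p.2 x < p.2 w} := by
        ext p
        simp only [hx, iff_true, Set.mem_ofPred_eq, Set.mem_inter_iff]
      rw [this]
      exact h1.inter h2
    · have : {p : (V → V → Prop) × (V → unitInterval) | (p.1 v x ∧ p.2 x < p.2 w) ↔ x ∈ s} =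
          ({p | p.1 v x} ∩ {p | p.2 x < p.2 w})ᶜ := by
        ext p
        simp only [hx, iff_false, not_and, not_lt, Set.mem_ofPred_eq, Set.mem_compl_iff, Set.mem_inter_iff]
      rw [this]
      exact (h1.inter h2).compl
  have hpos : ∀ k : ℕ, 0 < k → MeasurableSet {p : (V → V → Prop) × (V → unitInterval) |
      rank p.1 p.2 v w = k} := by
    intro k hk
    have : {p : (V → V → Prop) × (V → unitInterval) | rank p.1 p.2 v w = k} =
        ⋃ s ∈ {s : Finset V | s.card = k}, {p | {x | p.1 v x ∧ p.2 x < p.2 w} = ↑s} := by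
      ext p
      simp only [Set.mem_ofPred_eq, Set.mem_iUnion, exists_prop]
      constructor
      · intro h
        have hfin : {x | p.1 v x ∧ p.2 x < p.2 w}.Finite :=
          Set.finite_of_ncard_pos (by unfold rank at h; omega)
        refine ⟨hfin.toFinset, ?_, by simp⟩
        rw [← h, rank, Set.ncard_eq_toFinset_card _ hfin]
      · rintro ⟨s, hs, h⟩
        rw [rank, h, Set.ncard_coe_finset, hs]
    rw [this]
    exact MeasurableSet.biUnion (Set.to_countable _) fun s _ => hset _
  refine measurable_to_countable' fun k => ?_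
  rcases Nat.eq_zero_or_pos k with rfl | hk
  · have : (fun p : (V → V → Prop) × (V → unitInterval) => rank p.1 p.2 v w) ⁻¹' {0} =
        (⋃ k : ℕ, {p | rank p.1 p.2 v w = k + 1})ᶜ := by
      ext p
      simp only [Set.mem_preimage, Set.mem_singleton_iff, Set.mem_compl_iff, Set.mem_iUnion,
        Set.mem_ofPred_eq, not_exists]
      constructor
      · intro h k; omega
      · intro h
        by_contra h0
        exact h (rank p.1 p.2 v w - 1) (by omega)
    rw [this]
    exact (MeasurableSet.iUnion fun k => hpos (k + 1) (Nat.succ_pos k)).compl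
  · exact hpos k hk

theorem measurable_pairNoise (v w : V) :
    Measurable fun p : (V → V → Prop) × (V → unitInterval) × (V → ℕ → ℝ) =>
      pairNoise p.1 p.2.1 p.2.2 v w := by
  have hr : ∀ v w : V, Measurable fun p : (V → V → Prop) × (V → unitInterval) × (V → ℕ → ℝ) =>
      rank p.1 p.2.1 v w := fun v w =>
    (measurable_rank v w).comp (f := fun p : (V → V → Prop) × (V → unitInterval) ×
      (V → ℕ → ℝ) => (p.1, p.2.1)) (by fun_prop)
  have hev : Measurable fun q : ℕ × (ℕ → ℝ) => q.2 q.1 :=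
    measurable_from_prod_countable_right fun n => by
      change Measurable fun f : ℕ → ℝ => f n
      fun_prop
  have hx : ∀ v w : V, Measurable fun p : (V → V → Prop) × (V → unitInterval) ×
      (V → ℕ → ℝ) => p.2.2 v (rank p.1 p.2.1 v w) := fun v w =>
    hev.comp (f := fun p : (V → V → Prop) × (V → unitInterval) × (V → ℕ → ℝ) =>
      (rank p.1 p.2.1 v w, p.2.2 v)) ((hr v w).prodMk (by fun_prop))
  unfold pairNoise
  refine Measurable.ite (measurableSet_lt (by fun_prop) (by fun_prop)) (hx v w) ?_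
  exact Measurable.ite (measurableSet_lt (by fun_prop) (by fun_prop)) (hx w v)
    measurable_const

/-- joint measurability of the edge noise in the graph and the labels -/
theorem measurable_edgeNoiseAux (κ : Measure ℝ) [IsProbabilityMeasure κ] (e : Sym2 V) :
    Measurable fun p : (V → V → Prop) × (V → unitInterval) => edgeNoiseAux κ p.1 p.2 e := by
  induction e with | _ v w
  simp only [edgeNoiseAux_mk]
  have hd := measurable_decode κ
  exact (measurable_pairNoise v w).comp
    (f := fun p : (V → V → Prop) × (V → unitInterval) =>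
      (p.1, (fun v => (decode κ (p.2 v)).1), (fun v => (decode κ (p.2 v)).2)))
    (by fun_prop)

end Measurability

section Law

variable {V : Type*}

/-- the endpoint with the larger label, and the rank of the other endpoint there -/
theorem exists_index (A : V → V → Prop) (hfin : ∀ v, {w | A v w}.Finite)
    (E : Set (Sym2 V)) (hE : ∀ v w, s(v, w) ∈ E → A v w ∧ v ≠ w)
    (u : V → unitInterval) (hu : Function.Injective u) :
    ∃ f : E → V × ℕ, Function.Injective f ∧ ∀ (x : V → ℕ → ℝ) (v w : V) (h : s(v, w) ∈ E),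
      pairNoise A u x v w = x (f ⟨s(v, w), h⟩).1 (f ⟨s(v, w), h⟩).2 := by
  have key : ∀ e : E, ∃ q : V × V, u q.2 < u q.1 ∧ s(q.1, q.2) = e.1 := by
    rintro ⟨e, he⟩
    induction e with | _ v w
    have hne : u v ≠ u w := fun h => (hE v w he).2 (hu h)
    rcases lt_or_gt_of_ne hne with h | h
    · exact ⟨(w, v), h, Sym2.eq_swap⟩
    · exact ⟨(v, w), h, rfl⟩
  choose q hq1 hq2 using key
  refine ⟨fun e => ((q e).1, rank A u (q e).1 (q e).2), ?_, ?_⟩
  · intro e e' h
    simp only [Prod.mk.injEq] at h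
    obtain ⟨h1, h2⟩ := h
    have hmem : ∀ e : E, A (q e).1 (q e).2 := fun e =>
      (hE _ _ (by rw [hq2 e]; exact e.2)).1
    have hlt : ∀ e e' : E, (q e).1 = (q e').1 → u (q e).2 < u (q e').2 →
        rank A u (q e).1 (q e).2 < rank A u (q e').1 (q e').2 := by
      intro e e' h1 h
      unfold rank
      refine Set.ncard_lt_ncard ?_ ((hfin _).subset fun x hx => hx.1)
      refine ⟨fun x hx => ⟨h1 ▸ hx.1, hx.2.trans h⟩, fun hsub => ?_⟩
      exact lt_irrefl _ (hsub ⟨h1 ▸ hmem e, h⟩).2
    have h3 : (q e).2 = (q e').2 := by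
      apply hu
      rcases lt_trichotomy (u (q e).2) (u (q e').2) with h | h | h
      · exact absurd h2 (hlt e e' h1 h).ne
      · exact h
      · exact absurd h2 (hlt e' e h1.symm h).ne'
    apply Subtype.ext
    rw [← hq2 e, ← hq2 e', h1, h3]
  · intro x v w h
    have hq := hq2 ⟨s(v, w), h⟩
    have hq' := hq1 ⟨s(v, w), h⟩
    dsimp only at hq ⊢
    generalize q ⟨s(v, w), h⟩ = r at hq hq' ⊢
    rcases Sym2.eq_iff.1 hq with ⟨h1, h2⟩ | ⟨h1, h2⟩
    · subst h1; subst h2
      simp only [pairNoise, hq', if_true]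
    · subst h1; subst h2
      simp only [pairNoise, hq', if_true, hq'.not_gt, if_false]

theorem ae_injective [Countable V] :
    ∀ᵐ u : V → unitInterval ∂(infinitePi fun _ : V => (volume : Measure unitInterval)),
      Function.Injective u := by
  have h : ∀ v w : V, v ≠ w →
      ∀ᵐ u : V → unitInterval ∂(infinitePi fun _ : V => (volume : Measure unitInterval)),
        u v ≠ u w := by
    intro v w hvw
    have h1 := infinitePi_map_eval_prod (P := fun _ : V => (volume : Measure unitInterval)) hvw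
    have h2 : ∀ᵐ q : unitInterval × unitInterval ∂((volume : Measure unitInterval).prod
        (volume : Measure unitInterval)), q.1 ≠ q.2 := by
      rw [ae_iff]
      have hm : MeasurableSet {q : unitInterval × unitInterval | ¬ q.1 ≠ q.2} := by
        simpa only [ne_eq, Decidable.not_not, measurableSet_setOfPred] using     measurableSet_eq_fun measurable_fst measurable_snd
      rw [Measure.prod_apply hm]
      have : ∀ x : unitInterval, Prod.mk x ⁻¹' {q : unitInterval × unitInterval | ¬ q.1 ≠ q.2} =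
          {x} := by
        intro x; ext y; simp [eq_comm]
      simp only [this, measure_singleton, lintegral_zero]
    rw [← h1] at h2
    exact ae_of_ae_map (f := fun u : V → unitInterval => (u v, u w))
      (by fun_prop : Measurable fun u : V → unitInterval => (u v, u w)).aemeasurable h2
  have h' : ∀ᵐ u : V → unitInterval
      ∂(infinitePi fun _ : V => (volume : Measure unitInterval)),
      ∀ v w : V, v ≠ w → u v ≠ u w := by
    rw [ae_all_iff]; intro v
    rw [ae_all_iff]; intro w
    by_cases hvw : v = w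
    · simp [hvw]
    · filter_upwards [h v w hvw] with u hu _ using hu
  filter_upwards [h'] with u hu v w hvw
  by_contra hne
  exact hu v w hne hvw

/-- the edge noise is i.i.d. with law `κ` over the edges of a locally finite graph -/
theorem map_edgeNoiseAux [Countable V] (κ : Measure ℝ) [IsProbabilityMeasure κ]
    (A : V → V → Prop) (hfin : ∀ v, {w | A v w}.Finite)
    (E : Set (Sym2 V)) (hE : ∀ v w, s(v, w) ∈ E → A v w ∧ v ≠ w) :
    (infinitePi fun _ : V => (volume : Measure unitInterval)).map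
      (fun U (e : E) => edgeNoiseAux κ A U e) = infinitePi fun _ : E => κ := by
  -- the labels
  have hd := measurable_decode κ
  have hW : (infinitePi fun _ : V => (volume : Measure unitInterval)).map
      (fun U v => decode κ (U v)) =
      infinitePi fun _ : V => (volume : Measure unitInterval).prod
        (infinitePi fun _ : ℕ => κ) := by
    rw [infinitePi_map_pi (fun _ : V => (volume : Measure unitInterval))
      (f := fun _ => decode κ) (hf := fun _ => hd)]
    simp only [map_decode]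
  have hZ := infinitePi_zip (fun _ : V => (volume : Measure unitInterval))
    (fun _ : V => infinitePi fun _ : ℕ => κ)
  -- the noise as a function of the decoded labels
  let F : (V → unitInterval) → (V → ℕ → ℝ) → E → ℝ := fun u x e =>
    Sym2.lift ⟨pairNoise A u x, pairNoise_comm A u x⟩ e.1
  have hF : Measurable (Function.uncurry F) := by
    refine measurable_pi_iff.2 fun e => ?_
    obtain ⟨e, he⟩ := e
    induction e with | _ v w
    exact (measurable_pairNoise v w).comp
      (f := fun p : (V → unitInterval) × (V → ℕ → ℝ) => (A, p.1, p.2)) (by fun_prop)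
  have h1 : (infinitePi fun _ : V => (volume : Measure unitInterval)).map
      (fun U (e : E) => edgeNoiseAux κ A U e) =
      ((infinitePi fun _ : V => (volume : Measure unitInterval)).prod
        (infinitePi fun _ : V => infinitePi fun _ : ℕ => κ)).map (Function.uncurry F) := by
    have e1 : (fun U (e : E) => edgeNoiseAux κ A U e) =
        (fun W : V → unitInterval × (ℕ → ℝ) => F (fun v => (W v).1) (fun v => (W v).2)) ∘
          (fun (U : V → unitInterval) v => decode κ (U v)) := rfl
    have e2 : Function.uncurry F =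
        (fun W : V → unitInterval × (ℕ → ℝ) => F (fun v => (W v).1) (fun v => (W v).2)) ∘
          (fun (p : (V → unitInterval) × (V → ℕ → ℝ)) v => (p.1 v, p.2 v)) := rfl
    have hG : Measurable fun W : V → unitInterval × (ℕ → ℝ) =>
        F (fun v => (W v).1) (fun v => (W v).2) :=
      hF.comp (f := fun W : V → unitInterval × (ℕ → ℝ) =>
        ((fun v => (W v).1), (fun v => (W v).2))) (by fun_prop)
    rw [e1, e2, ← Measure.map_map hG (by fun_prop), ← Measure.map_map hG (by fun_prop), hW, hZ]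
  rw [h1]
  -- conditionally on the first labels
  have h2 : ∀ u : V → unitInterval, Function.Injective u →
      (infinitePi fun _ : V => infinitePi fun _ : ℕ => κ).map (F u) =
        infinitePi fun _ : E => κ := by
    intro u hu
    obtain ⟨f, hf, hfx⟩ := exists_index A hfin E hE u hu
    have e1 : F u = (fun (y : V × ℕ → ℝ) (e : E) => y (f e)) ∘
        (MeasurableEquiv.curry V ℕ ℝ).symm := by
      ext x ⟨e, he⟩
      induction e with | _ v w
      exact hfx x v w he
    rw [e1, ← Measure.map_map (by fun_prop) (by (clear * -; fun_prop)),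
      infinitePi_map_curry_symm (fun _ : V => fun _ : ℕ => κ)]
    exact map_infinitePi_infinitePi_of_inj (P := fun _ : V × ℕ => κ) hf
  ext S hS
  rw [map_apply hF hS, Measure.prod_apply (hF hS)]
  have h3 : ∀ᵐ u : V → unitInterval ∂(infinitePi fun _ : V => (volume : Measure unitInterval)),
      (infinitePi fun _ : V => infinitePi fun _ : ℕ => κ)
        (Prod.mk u ⁻¹' (Function.uncurry F ⁻¹' S)) = (infinitePi fun _ : E => κ) S := by
    filter_upwards [ae_injective] with u hu
    have hFu : Measurable (F u) := hF.comp (f := fun x => (u, x)) (by fun_prop)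
    rw [← h2 u hu, map_apply hFu hS]
    rfl
  rw [lintegral_congr_ae h3, lintegral_const, measure_univ, mul_one]

end Law

end Vale.Agent.P143
end
end

section

section

/-!
Edge noise of a graph as a function of independent vertex labels.
-/

namespace Vale.Agent.P143

open MeasureTheory ProbabilityTheory Measure

/-- logistic noise attached to the unordered pairs of vertices, as a function of vertex labels -/
noncomputable def edgeNoise {V : Type*} (G : SimpleGraph V) (U : V → unitInterval) :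
    Sym2 V → ℝ :=
  edgeNoiseAux logistic G.Adj U

theorem edgeNoise_law {V : Type*} [Countable V] (G : SimpleGraph V)
    (hG : ∀ v, (G.neighborSet v).Finite) (S : Finset (Sym2 V))
    (hS : (S : Set (Sym2 V)) ⊆ G.edgeSet) :
    Measure.map (fun U (e : S) => edgeNoise G U e)
      (Measure.infinitePi fun _ : V => (volume : Measure unitInterval)) =
        Measure.pi fun _ => logistic := by
  have h := map_edgeNoiseAux logistic G.Adj hG (S : Set (Sym2 V)) (fun v w h => by
    have := hS h
    rw [SimpleGraph.mem_edgeSet] at this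
    exact ⟨this, this.ne⟩)
  rw [← infinitePi_eq_pi]
  exact h

theorem edgeNoise_map {V V' : Type*} (σ : V ≃ V') (G : SimpleGraph V)
    (U : V → unitInterval) (e : Sym2 V) :
    edgeNoise (G.map σ.toEmbedding) (U ∘ σ.symm) (e.map σ) = edgeNoise G U e := by
  unfold edgeNoise
  rw [edgeNoiseAux_equiv logistic σ G.Adj]
  · simp
  · intro v w
    exact SimpleGraph.map_adj_apply (f := σ.toEmbedding)

theorem measurable_edgeNoise {V : Type*} [Countable V] (e : Sym2 V) :
    Measurable fun p : SimpleGraph V × (V → unitInterval) => edgeNoise p.1 p.2 e :=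
  (measurable_edgeNoiseAux logistic e).comp
    (f := fun p : SimpleGraph V × (V → unitInterval) => (p.1.Adj, p.2))
    ((SimpleGraph.measurable_adj.comp measurable_fst).prodMk measurable_snd)

end Vale.Agent.P143
end
end

section

section

/-!
Transfer of the finite law identity to the ambient index type.
-/

namespace Vale.Agent.P143.Lim

open MeasureTheory Filter Topology

section Transfer

variable {E : Type*} [DecidableEq E]

/-- a subset of `F` as a finite set of the subtype -/
def sub (F : Finset E) (T : Finset E) : Finset F := T.subtype (· ∈ F)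

theorem mem_sub {F T : Finset E} (x : F) : x ∈ sub F T ↔ x.1 ∈ T := by
  simp [sub]

theorem sub_injOn (F : Finset E) (𝒯 : Finset (Finset E)) (hsub : ∀ T ∈ 𝒯, T ⊆ F) :
    Set.InjOn (sub F) (𝒯 : Set (Finset E)) := by
  intro T hT T' hT' h
  ext e
  constructor
  · intro he
    have : (⟨e, hsub T hT he⟩ : F) ∈ sub F T := (mem_sub _).2 he
    rw [h] at this
    exact (mem_sub _).1 this
  · intro he
    have : (⟨e, hsub T' hT' he⟩ : F) ∈ sub F T' := (mem_sub _).2 he
    rw [← h] at this
    exact (mem_sub _).1 this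

theorem prod_sub (F T : Finset E) (hT : T ⊆ F) (w : E → ℝ) :
    ∏ j ∈ sub F T, w j = ∏ j ∈ T, w j := by
  unfold sub
  rw [Finset.prod_subtype_eq_prod_filter]
  congr 1
  ext x
  simp only [Finset.mem_filter]
  exact ⟨fun h => h.1, fun h => ⟨h, hT h⟩⟩

theorem ind_sub (F T : Finset E) (x : F) : ind (sub F T) x = ind T x.1 := by
  simp [ind, mem_sub]

/-- restriction of the family to the subtype -/
def subFam (F : Finset E) (𝒯 : Finset (Finset E)) : Finset (Finset F) := 𝒯.image (sub F)

theorem sum_subFam (F : Finset E) (𝒯 : Finset (Finset E)) (hsub : ∀ T ∈ 𝒯, T ⊆ F)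
    (g : Finset F → ℝ) : ∑ T ∈ subFam F 𝒯, g T = ∑ T ∈ 𝒯, g (sub F T) := by
  unfold subFam
  rw [Finset.sum_image]
  exact sub_injOn F 𝒯 hsub

theorem card_subFam (F : Finset E) (𝒯 : Finset (Finset E)) (hsub : ∀ T ∈ 𝒯, T ⊆ F) :
    (subFam F 𝒯).card = 𝒯.card := by
  unfold subFam
  exact Finset.card_image_of_injOn (sub_injOn F 𝒯 hsub)

theorem ustp_subFam (F : Finset E) (𝒯 : Finset (Finset E)) (hsub : ∀ T ∈ 𝒯, T ⊆ F)
    (w : E → ℝ) (x : F) :
    ustp (subFam F 𝒯) (fun y : F => w y) x = ustp 𝒯 w x := by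
  unfold ustp
  rw [Finset.sum_filter, Finset.sum_filter, sum_subFam F 𝒯 hsub, sum_subFam F 𝒯 hsub]
  congr 1
  · refine Finset.sum_congr rfl fun T hT => ?_
    simp only [mem_sub, prod_sub F T (hsub T hT)]
  · exact Finset.sum_congr rfl fun T hT => prod_sub F T (hsub T hT) w

theorem isDrift_subFam (F : Finset E) (𝒯 : Finset (Finset E)) (hsub : ∀ T ∈ 𝒯, T ⊆ F)
    (hd : IsDrift (ustp 𝒯)) : IsDrift (ustp (subFam F 𝒯)) := by
  -- extension by one
  let ext1 : (F → ℝ) → E → ℝ := fun w e => if h : e ∈ F then w ⟨e, h⟩ else 1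
  have hpos : ∀ w : F → ℝ, (∀ f, 0 < w f) → ∀ f, 0 < ext1 w f := by
    intro w hw f
    simp only [ext1]
    split_ifs with h
    · exact hw _
    · exact one_pos
  have hres : ∀ w : F → ℝ, (fun y : F => ext1 w y) = w := by
    intro w
    ext y
    simp [ext1]
  have key : ∀ (w : F → ℝ) (x : F), ustp (subFam F 𝒯) w x = ustp 𝒯 (ext1 w) x := by
    intro w x
    rw [← ustp_subFam F 𝒯 hsub, hres]
  refine ⟨fun w hw x => ?_, fun w hw x => ?_, fun w w' hw hw' δ hδ x => ?_⟩
  · rw [key]; exact hd.nonneg _ (hpos w hw) _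
  · rw [key]; exact hd.le_one _ (hpos w hw) _
  · rw [key, key]
    refine hd.lip _ _ (hpos w hw) (hpos w' hw') δ (fun f => ?_) _
    simp only [ext1]
    split_ifs with h
    · exact hδ _
    · simpa only [Real.log_one, sub_self, abs_zero] using (abs_nonneg _).trans (hδ x)

end Transfer

section Meas

theorem measurable_ustp {ι : Type*} [DecidableEq ι] (𝒯 : Finset (Finset ι)) (i : ι) :
    Measurable fun w : ι → ℝ => ustp 𝒯 w i := by
  unfold ustp
  fun_prop

theorem measurable_wt (r : ℝ) : Measurable (wt r) := by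
  unfold wt dens
  fun_prop

theorem measurable_euler {ι : Type*} (a : (ι → ℝ) → ι → ℝ)
    (hm : ∀ i, Measurable fun w : ι → ℝ => a w i) (h : ℝ) (k : ℕ) (i : ι) :
    Measurable fun z : ι → ℝ => euler (field a) h k z i := by
  induction k generalizing i with
  | zero => exact measurable_pi_apply i
  | succ k ih =>
    simp only [euler]
    refine (ih i).add (measurable_const.mul ?_)
    unfold field
    refine (hm i).comp (measurable_pi_iff.2 fun f => ?_)
    exact (measurable_wt _).comp (ih f)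

end Meas

section Core

variable {E : Type*} [DecidableEq E]

/-- the flow of a finite system has the law of `Z + N 1_T` (finite product form) -/
theorem flow_law_fin (F : Finset E) (𝒯 : Finset (Finset E)) (h𝒯 : 𝒯.Nonempty)
    (hsub : ∀ T ∈ 𝒯, T ⊆ F) (hd : IsDrift (ustp 𝒯)) (S : Finset E) (hSF : S ⊆ F)
    (φ : (S → ℝ) → ℝ) (K : NNReal) (B : ℝ) (hφ : LipschitzWith K φ) (hB : ∀ x, |φ x| ≤ B)
    (N : ℕ) :
    ∫ z : F → ℝ, φ (fun e => flow (ustp (subFam F 𝒯)) N z ⟨e, hSF e.2⟩)
        ∂(Measure.pi fun _ => logistic) =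
      (∑ T ∈ 𝒯, ∫ z : F → ℝ, φ (fun e => z ⟨e, hSF e.2⟩ + N * ind T e)
        ∂(Measure.pi fun _ => logistic)) / 𝒯.card := by
  set a := ustp (subFam F 𝒯) with ha
  have hda : IsDrift a := isDrift_subFam F 𝒯 hsub hd
  let f : (F → ℝ) → ℝ := fun z => φ fun e => z ⟨e, hSF e.2⟩
  have hf : LipschitzWith K f := by
    refine LipschitzWith.of_dist_le_mul fun x y => ?_
    refine (hφ.dist_le_mul _ _).trans ?_
    refine mul_le_mul_of_nonneg_left ?_ K.2
    rw [dist_pi_le_iff dist_nonneg]
    exact fun e => dist_le_pi_dist x y _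
  have hne : (subFam F 𝒯).Nonempty := h𝒯.image _
  have hlim := law_main (subFam F 𝒯) hne hda f K B hf (fun z => hB _) N
  rw [sum_subFam F 𝒯 hsub, card_subFam F 𝒯 hsub] at hlim
  have hlim2 : Tendsto (fun j : ℕ => ∫ z : F → ℝ,
      f (euler (field a) (1 / 2 ^ j) (N * 2 ^ j) z) ∂(Measure.pi fun _ => logistic)) atTop
      (𝓝 (∫ z : F → ℝ, f (flow a N z) ∂(Measure.pi fun _ => logistic))) := by
    refine tendsto_integral_of_dominated_convergence (fun _ => B) (fun j => ?_)
      (integrable_const _) (fun j => ?_) ?_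
    · refine (hf.continuous.measurable.comp ?_).aestronglyMeasurable
      exact measurable_pi_iff.2 fun i => measurable_euler a (fun i => measurable_ustp _ i) _ _ i
    · filter_upwards with z
      exact hB _
    · filter_upwards with z
      refine (hf.continuous.tendsto _).comp ?_
      rw [tendsto_pi_nhds]
      intro e
      obtain ⟨C, hC⟩ := euler_sub_flow (E := F) N
      rw [tendsto_iff_norm_sub_tendsto_zero]
      refine squeeze_zero (fun _ => norm_nonneg _) (fun j => hC a hda j z e) ?_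
      have : Tendsto (fun j : ℕ => C * (1 / 2 : ℝ) ^ j) atTop (𝓝 (C * 0)) :=
        (tendsto_pow_atTop_nhds_zero_of_lt_one (by norm_num) (by norm_num)).const_mul C
      simpa only [div_eq_mul_inv, one_mul, inv_pow, mul_zero] using this
  have := tendsto_nhds_unique hlim2 hlim
  rw [show (∫ z : F → ℝ, φ (fun e => flow a N z ⟨e, hSF e.2⟩)
        ∂(Measure.pi fun _ => logistic)) =
      ∫ z : F → ℝ, f (flow a N z) ∂(Measure.pi fun _ => logistic) from rfl, this]
  congr 1
  refine Finset.sum_congr rfl fun T hT => ?_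
  refine integral_congr_ae ?_
  filter_upwards with z
  simp only [f, Pi.add_apply, Pi.smul_apply, smul_eq_mul, ind_sub]

/-- the same with the noise given on an ambient probability space -/
theorem flow_law (F : Finset E) (𝒯 : Finset (Finset E)) (h𝒯 : 𝒯.Nonempty)
    (hsub : ∀ T ∈ 𝒯, T ⊆ F) (hd : IsDrift (ustp 𝒯)) (S : Finset E) (hSF : S ⊆ F)
    {Ω : Type*} [MeasurableSpace Ω] (ℙ : Measure Ω) (Z : Ω → E → ℝ) (hZ : Measurable Z)
    (hlaw : Measure.map (fun ω (e : F) => Z ω e) ℙ = Measure.pi fun _ => logistic)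
    (φ : (S → ℝ) → ℝ) (K : NNReal) (B : ℝ) (hφ : LipschitzWith K φ) (hB : ∀ x, |φ x| ≤ B)
    (N : ℕ) :
    ∫ ω, φ (fun e => flow (ustp 𝒯) N (Z ω) e) ∂ℙ =
      (∑ T ∈ 𝒯, ∫ ω, φ (fun e => Z ω e + N * ind T e) ∂ℙ) / 𝒯.card := by
  have h := flow_law_fin F 𝒯 h𝒯 hsub hd S hSF φ K B hφ hB N
  have hZF : Measurable fun ω (e : F) => Z ω e := by fun_prop
  rw [← hlaw] at h
  have hda : IsDrift (ustp (subFam F 𝒯)) := isDrift_subFam F 𝒯 hsub hd
  have hmf : Measurable fun z : F → ℝ => fun e : S =>
      flow (ustp (subFam F 𝒯)) N z ⟨e, hSF e.2⟩ := by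
    refine measurable_pi_iff.2 fun e => ?_
    have := measurable_flow (Θ := Unit) (fun _ => ustp (subFam F 𝒯)) (fun _ => hda)
      (fun i => (measurable_ustp (subFam F 𝒯) i).comp measurable_snd) N ⟨e, hSF e.2⟩
    exact this.comp (f := fun z : F → ℝ => ((), z)) (by fun_prop)
  have hm1 : Measurable fun z : F → ℝ => φ (fun e : S =>
      flow (ustp (subFam F 𝒯)) N z ⟨e, hSF e.2⟩) := hφ.continuous.measurable.comp hmf
  rw [integral_map hZF.aemeasurable hm1.aestronglyMeasurable] at h
  have h2 : ∀ T : Finset E, ∫ z : F → ℝ, φ (fun e => z ⟨e, hSF e.2⟩ + N * ind T e)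
      ∂(Measure.map (fun ω (e : F) => Z ω e) ℙ) = ∫ ω, φ (fun e => Z ω e + N * ind T e) ∂ℙ := by
    intro T
    rw [integral_map hZF.aemeasurable]
    refine (hφ.continuous.measurable.comp ?_).aestronglyMeasurable
    fun_prop
  simp only [h2] at h
  rw [← h]
  refine integral_congr_ae ?_
  filter_upwards with ω
  congr 1
  ext e
  exact flow_comap (fun x : F => (x : E)) (ustp 𝒯) (ustp (subFam F 𝒯))
    (fun w _ x => (ustp_subFam F 𝒯 hsub w x).symm) N (Z ω) ⟨e, hSF e.2⟩

end Core

end Vale.Agent.P143.Lim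
end
end

section

section

/-!
Exponential tail of the logistic law, and cutoff functions.
-/

namespace Vale.Agent.P143.Lim

open MeasureTheory Filter Topology Set

theorem dens_nonneg (z : ℝ) : 0 ≤ dens z := by unfold dens; positivity

theorem dens_le_exp_neg (z : ℝ) : dens z ≤ Real.exp (-z) := by
  unfold dens
  have h := Real.exp_pos (-z)
  rw [div_le_iff₀ (by positivity)]
  nlinarith only [mul_pos h (mul_pos h h)]

theorem dens_le_exp (z : ℝ) : dens z ≤ Real.exp z := by
  unfold dens
  have h := Real.exp_pos (-z)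
  have h' := Real.exp_pos z
  have hm : Real.exp z * Real.exp (-z) = 1 := by rw [← Real.exp_add]; simp
  rw [div_le_iff₀ (by positivity)]
  have : Real.exp z * (1 + Real.exp (-z)) ^ 2 =
      Real.exp z + 2 * (Real.exp z * Real.exp (-z)) +
        (Real.exp z * Real.exp (-z)) * Real.exp (-z) := by ring
  rw [this, hm]
  linarith only [h']

theorem logistic_Ici (t : ℝ) : logistic (Ici t) ≤ ENNReal.ofReal (Real.exp (-t)) := by
  unfold logistic
  rw [withDensity_apply _ measurableSet_Ici]
  calc ∫⁻ z in Ici t, ENNReal.ofReal (dens z)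
      ≤ ∫⁻ z in Ici t, ENNReal.ofReal (Real.exp (-z)) :=
        lintegral_mono fun z => ENNReal.ofReal_le_ofReal (dens_le_exp_neg z)
    _ = ∫⁻ z in Ioi t, ENNReal.ofReal (Real.exp (-z)) :=
        setLIntegral_congr Ioi_ae_eq_Ici.symm
    _ = ENNReal.ofReal (∫ z in Ioi t, Real.exp (-z)) := by
        rw [ofReal_integral_eq_lintegral_ofReal]
        · have := integrableOn_exp_mul_Ioi (a := -1) (by norm_num) t
          simpa only [IntegrableOn, neg_mul, one_mul] using this
        · filter_upwards with z using (Real.exp_pos _).le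
    _ = ENNReal.ofReal (Real.exp (-t)) := by rw [integral_exp_neg_Ioi]

theorem logistic_Iic (t : ℝ) : logistic (Iic t) ≤ ENNReal.ofReal (Real.exp t) := by
  unfold logistic
  rw [withDensity_apply _ measurableSet_Iic]
  calc ∫⁻ z in Iic t, ENNReal.ofReal (dens z)
      ≤ ∫⁻ z in Iic t, ENNReal.ofReal (Real.exp z) :=
        lintegral_mono fun z => ENNReal.ofReal_le_ofReal (dens_le_exp z)
    _ = ENNReal.ofReal (∫ z in Iic t, Real.exp z) := by
        rw [ofReal_integral_eq_lintegral_ofReal]
        · exact integrableOn_exp_Iic t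
        · filter_upwards with z using (Real.exp_pos _).le
    _ = ENNReal.ofReal (Real.exp t) := by rw [integral_exp_Iic]

theorem logistic_tail (t : ℝ) :
    logistic {z | t ≤ |z|} ≤ ENNReal.ofReal (2 * Real.exp (-t)) := by
  have hsub : {z : ℝ | t ≤ |z|} ⊆ Ici t ∪ Iic (-t) := by
    intro z hz
    have hz' : t ≤ |z| := hz
    rcases le_abs.1 hz' with h | h
    · exact Or.inl h
    · exact Or.inr (by simp only [mem_Iic]; linarith)
  calc logistic {z | t ≤ |z|} ≤ logistic (Ici t ∪ Iic (-t)) := measure_mono hsub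
    _ ≤ logistic (Ici t) + logistic (Iic (-t)) := measure_union_le _ _
    _ ≤ ENNReal.ofReal (Real.exp (-t)) + ENNReal.ofReal (Real.exp (-t)) :=
        add_le_add (logistic_Ici t) (logistic_Iic (-t))
    _ = ENNReal.ofReal (2 * Real.exp (-t)) := by
        rw [← ENNReal.ofReal_add (Real.exp_pos _).le (Real.exp_pos _).le]
        ring_nf

theorem summable_tail : Summable fun N : ℕ => 2 * Real.exp (-((N : ℝ) / 4)) := by
  have h : ∀ N : ℕ, 2 * Real.exp (-((N : ℝ) / 4)) = 2 * (Real.exp (-(1 / 4))) ^ N := by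
    intro N
    rw [← Real.exp_nat_mul]
    congr 2
    ring
  simp only [h]
  refine Summable.mul_left _ (summable_geometric_of_lt_one (Real.exp_pos _).le ?_)
  exact Real.exp_lt_one_iff.2 (by norm_num)

/-- clamping to the unit interval -/
noncomputable def cl (t : ℝ) : ℝ := max 0 (min 1 t)

theorem cl_nonneg (t : ℝ) : 0 ≤ cl t := le_max_left _ _

theorem cl_le_one (t : ℝ) : cl t ≤ 1 := by
  unfold cl
  exact max_le zero_le_one (min_le_left _ _)

theorem cl_of_one_le {t : ℝ} (h : 1 ≤ t) : cl t = 1 := by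
  unfold cl
  rw [min_eq_left h, max_eq_right zero_le_one]

theorem cl_of_nonpos {t : ℝ} (h : t ≤ 0) : cl t = 0 := by
  unfold cl
  rw [min_eq_right (h.trans zero_le_one), max_eq_left h]

theorem cl_lip (s t : ℝ) : |cl s - cl t| ≤ |s - t| := by
  have h : LipschitzWith 1 cl := (LipschitzWith.id.const_min 1).const_max 0
  simpa only [ge_iff_le, Real.dist_eq, NNReal.coe_one, one_mul] using h.dist_le_mul s t

end Vale.Agent.P143.Lim
end
end

section

section

/-!
The limiting configuration of the infinite flow and its cylinder probabilities.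
-/

namespace Vale.Agent.P143

open MeasureTheory Filter Topology
open Lim

variable {E : Type*}

/-- limiting configuration: elements that move at speed about one -/
def limitSet (a : (E → ℝ) → E → ℝ) (z : E → ℝ) : Set E :=
  {e | ∀ᶠ N : ℕ in atTop, (N : ℝ) / 2 ≤ flow a N z e}

section

variable [Countable E] [DecidableEq E] {Ω : Type*} [MeasurableSpace Ω]
    (ℙ : Measure Ω) [IsProbabilityMeasure ℙ]
    (A : Set E) (F : ℕ → Finset E) (hF : Monotone F) (hA : ∀ e, e ∈ A ↔ ∃ n, e ∈ F n)
    (𝒯 : ℕ → Finset (Finset E)) (h𝒯 : ∀ n, (𝒯 n).Nonempty)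
    (hsub : ∀ n, ∀ T ∈ 𝒯 n, T ⊆ F n)
    (a : (E → ℝ) → E → ℝ) (ha : IsDrift a) (hm : ∀ e, Measurable fun w : E → ℝ => a w e)
    (han : ∀ n, IsDrift (ustp (𝒯 n))) (hconv : ConvDrift (fun n => ustp (𝒯 n)) a)
    (Z : Ω → E → ℝ) (hZ : Measurable Z)
    (hlaw : ∀ S : Finset E, (S : Set E) ⊆ A →
      Measure.map (fun ω (e : S) => Z ω e) ℙ = Measure.pi fun _ => logistic)

include hF hA in
theorem eventually_subset (S : Finset E) (hS : (S : Set E) ⊆ A) :
    ∀ᶠ n in atTop, S ⊆ F n := by
  have h : ∀ e ∈ S, ∀ᶠ n in atTop, e ∈ F n := by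
    intro e he
    obtain ⟨n, hn⟩ := (hA e).1 (hS he)
    filter_upwards [eventually_ge_atTop n] with m hm using hF hm hn
  have h' := (Filter.eventually_all_finset S).2 h
  filter_upwards [h'] with n hn e he using hn e he

include ha hm hZ in
theorem measurable_flow_comp (N : ℕ) (e : E) :
    Measurable fun ω => flow a N (Z ω) e := by
  have := measurable_flow (Θ := Unit) (fun _ => a) (fun _ => ha)
    (fun e => (hm e).comp measurable_snd) N e
  exact this.comp (f := fun ω => ((), Z ω)) (by fun_prop)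

include hF hA h𝒯 hsub ha hm han hconv hZ hlaw in
/-- the law of the infinite flow as a limit of finite averages -/
theorem tendsto_finite (S : Finset E) (hS : (S : Set E) ⊆ A)
    (φ : (S → ℝ) → ℝ) (K : NNReal) (B : ℝ) (hφ : LipschitzWith K φ) (hB : ∀ x, |φ x| ≤ B)
    (N : ℕ) :
    Tendsto (fun n => (∑ T ∈ 𝒯 n, ∫ ω, φ (fun e => Z ω e + N * ind T e) ∂ℙ) / (𝒯 n).card)
      atTop (𝓝 (∫ ω, φ (fun e => flow a N (Z ω) e) ∂ℙ)) := by
  have h1 : ∀ᶠ n in atTop, ∫ ω, φ (fun e => flow (ustp (𝒯 n)) N (Z ω) e) ∂ℙ =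
      (∑ T ∈ 𝒯 n, ∫ ω, φ (fun e => Z ω e + N * ind T e) ∂ℙ) / (𝒯 n).card := by
    filter_upwards [eventually_subset A F hF hA S hS] with n hn
    refine flow_law (F n) (𝒯 n) (h𝒯 n) (hsub n) (han n) S hn ℙ Z hZ (hlaw _ ?_) φ K B hφ hB N
    intro e he
    exact (hA e).2 ⟨n, he⟩
  refine Tendsto.congr' h1 ?_
  refine tendsto_integral_of_dominated_convergence (fun _ => B) (fun n => ?_)
    (integrable_const _) (fun n => ?_) ?_
  · refine (hφ.continuous.measurable.comp (measurable_pi_iff.2 fun e => ?_)).aestronglyMeasurable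
    exact measurable_flow_comp (ustp (𝒯 n)) (han n) (fun e => measurable_ustp _ e) Z hZ N e
  · filter_upwards with ω using hB _
  · filter_upwards with ω
    refine (hφ.continuous.tendsto _).comp ?_
    rw [tendsto_pi_nhds]
    intro e
    exact flow_tendsto a (fun n => ustp (𝒯 n)) ha han hconv N (Z ω) e

include hZ hlaw in
theorem tail_Z (e : E) (he : e ∈ A) (t : ℝ) :
    ℙ.real {ω | t ≤ |Z ω e|} ≤ 2 * Real.exp (-t) := by
  have h := hlaw {e} (by simpa using he)
  have h1 : Measure.map (fun ω => Z ω e) ℙ = logistic := by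
    have h2 : (fun ω => Z ω e) =
        (fun x : (({e} : Finset E) → ℝ) => x ⟨e, Finset.mem_singleton_self e⟩) ∘
          (fun ω (e' : ({e} : Finset E)) => Z ω e') := rfl
    rw [h2, ← Measure.map_map (by fun_prop) (by fun_prop), h, Measure.pi_map_eval]
    simp only [Finset.univ_unique, measure_univ, Finset.prod_const_one, one_smul]
  have hm' : MeasurableSet {z : ℝ | t ≤ |z|} :=
    measurableSet_le measurable_const (by fun_prop)
  have h3 : ℙ {ω | t ≤ |Z ω e|} = logistic {z | t ≤ |z|} := by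
    rw [← h1, Measure.map_apply (by fun_prop) hm']
    rfl
  rw [measureReal_def, h3]
  exact ENNReal.toReal_le_of_le_ofReal (by positivity) (Lim.logistic_tail t)

include hF hA h𝒯 hsub ha hm han hconv hZ hlaw in
/-- the position at time `N` is rarely in the middle -/
theorem prob_middle (e : E) (he : e ∈ A) (N : ℕ) :
    ℙ.real {ω | |flow a N (Z ω) e / N - 1 / 2| ≤ 1 / 8} ≤ 2 * Real.exp (-((N : ℝ) / 4)) := by
  rcases Nat.eq_zero_or_pos N with rfl | hN
  · have h1 : ℙ.real {ω | |flow a 0 (Z ω) e / (0 : ℕ) - 1 / 2| ≤ 1 / 8} ≤ 1 := measureReal_le_one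
    refine h1.trans ?_
    norm_num
  have hN1 : (1 : ℝ) ≤ N := by exact_mod_cast hN
  have hN0 : (0 : ℝ) < N := by linarith only [hN1]
  obtain ⟨S, hSe⟩ : ∃ S : Finset E, S = {e} := ⟨_, rfl⟩
  have heS : e ∈ S := by rw [hSe]; exact Finset.mem_singleton_self e
  obtain ⟨φ, hφd⟩ : ∃ φ : (S → ℝ) → ℝ, ∀ x, φ x = cl (2 - 8 * |x ⟨e, heS⟩ / N - 1 / 2|) :=
    ⟨_, fun _ => rfl⟩
  have hφ : LipschitzWith 8 φ := by
    refine LipschitzWith.of_dist_le_mul fun x y => ?_
    have h1 : dist (x ⟨e, heS⟩) (y ⟨e, heS⟩) ≤ dist x y := dist_le_pi_dist x y _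
    rw [Real.dist_eq, hφd, hφd]
    rw [Real.dist_eq] at h1
    refine (cl_lip _ _).trans ?_
    have h2 : |(2 - 8 * |x ⟨e, heS⟩ / N - 1 / 2|) - (2 - 8 * |y ⟨e, heS⟩ / N - 1 / 2|)| ≤
        8 * |(x ⟨e, heS⟩ / N - 1 / 2) - (y ⟨e, heS⟩ / N - 1 / 2)| := by
      rw [show (2 - 8 * |x ⟨e, heS⟩ / N - 1 / 2|) - (2 - 8 * |y ⟨e, heS⟩ / N - 1 / 2|) =
        8 * (|y ⟨e, heS⟩ / N - 1 / 2| - |x ⟨e, heS⟩ / N - 1 / 2|) by ring, abs_mul,
        abs_of_pos (by norm_num : (0 : ℝ) < 8), abs_sub_comm (x ⟨e, heS⟩ / N - 1 / 2)]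
      exact mul_le_mul_of_nonneg_left (abs_abs_sub_abs_le_abs_sub _ _) (by norm_num)
    refine h2.trans ?_
    rw [show (x ⟨e, heS⟩ / N - 1 / 2) - (y ⟨e, heS⟩ / N - 1 / 2) =
      (x ⟨e, heS⟩ - y ⟨e, heS⟩) / N by ring, abs_div, abs_of_pos hN0]
    have h3 : |x ⟨e, heS⟩ - y ⟨e, heS⟩| / N ≤ |x ⟨e, heS⟩ - y ⟨e, heS⟩| :=
      div_le_self (abs_nonneg _) hN1
    have : ((8 : NNReal) : ℝ) = 8 := rfl
    rw [this]
    linarith only [h1, h3]
  have hφ0 : ∀ x, 0 ≤ φ x := fun x => by rw [hφd]; exact cl_nonneg _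
  have hφ1 : ∀ x, φ x ≤ 1 := fun x => by rw [hφd]; exact cl_le_one _
  have hS : (S : Set E) ⊆ A := by rw [hSe]; simpa using he
  have hlim := tendsto_finite ℙ A F hF hA 𝒯 h𝒯 hsub a ha hm han hconv Z hZ hlaw S hS φ 8 1 hφ
    (fun x => abs_le.2 ⟨by linarith only [hφ0 x], hφ1 x⟩) N
  -- the limit is at most the tail
  have hup : ∫ ω, φ (fun e => flow a N (Z ω) e) ∂ℙ ≤ 2 * Real.exp (-((N : ℝ) / 4)) := by
    refine le_of_tendsto' hlim fun n => ?_
    have hc : (0 : ℝ) < (𝒯 n).card := by exact_mod_cast (h𝒯 n).card_pos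
    rw [div_le_iff₀ hc]
    have hterm : ∀ T ∈ 𝒯 n, ∫ ω, φ (fun e => Z ω e + N * ind T e) ∂ℙ ≤
        2 * Real.exp (-((N : ℝ) / 4)) := by
      intro T _
      refine le_trans ?_ (tail_Z ℙ A Z hZ hlaw e he ((N : ℝ) / 4))
      have hms : MeasurableSet {ω | (N : ℝ) / 4 ≤ |Z ω e|} :=
        measurableSet_le measurable_const (by fun_prop)
      rw [← integral_indicator_one hms]
      refine integral_mono_of_nonneg ?_ ?_ ?_
      · filter_upwards with ω using hφ0 _
      · exact (integrable_const (1 : ℝ)).indicator hms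
      · filter_upwards with ω
        by_cases hω : (N : ℝ) / 4 ≤ |Z ω e|
        · rw [Set.indicator_of_mem (by exact hω)]
          exact hφ1 _
        · rw [Set.indicator_of_notMem (by exact hω), hφd]
          push Not at hω
          have hz := abs_lt.1 hω
          refine (cl_of_nonpos ?_).le
          have hq : (1 : ℝ) / 4 ≤ |(Z ω e + N * ind T e) / N - 1 / 2| := by
            unfold ind
            split_ifs with h
            · refine le_trans ?_ (le_abs_self _)
              have : (Z ω e + N * 1) / N = Z ω e / N + 1 := by (clear * - hN; field_simp)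
              rw [this]
              have : -(1 / 4) < Z ω e / N := by rw [lt_div_iff₀ hN0]; linarith only [hz]
              linarith only [this]
            · refine le_trans ?_ (neg_le_abs _)
              have : (Z ω e + N * 0) / N = Z ω e / N := by simp
              rw [this]
              have : Z ω e / N < 1 / 4 := by rw [div_lt_iff₀ hN0]; linarith only [hz]
              linarith only [this]
          linarith only [hq]
    calc ∑ T ∈ 𝒯 n, ∫ ω, φ (fun e => Z ω e + N * ind T e) ∂ℙ
        ≤ ∑ _T ∈ 𝒯 n, 2 * Real.exp (-((N : ℝ) / 4)) := Finset.sum_le_sum hterm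
      _ = 2 * Real.exp (-((N : ℝ) / 4)) * (𝒯 n).card := by
          rw [Finset.sum_const, nsmul_eq_mul]; ring
  refine le_trans ?_ hup
  have hmf := measurable_flow_comp a ha hm Z hZ N e
  have hms : MeasurableSet {ω | |flow a N (Z ω) e / N - 1 / 2| ≤ 1 / 8} :=
    measurableSet_le (by fun_prop) measurable_const
  have hmφ : Measurable fun ω => φ (fun e => flow a N (Z ω) e) :=
    hφ.continuous.measurable.comp (measurable_pi_iff.2 fun e' =>
      measurable_flow_comp a ha hm Z hZ N e')
  rw [← integral_indicator_one hms]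
  refine integral_mono_of_nonneg ?_ ?_ ?_
  · filter_upwards with ω
    exact Set.indicator_nonneg (fun _ _ => zero_le_one) _
  · refine Integrable.mono' (integrable_const (1 : ℝ)) hmφ.aestronglyMeasurable ?_
    filter_upwards with ω
    rw [Real.norm_eq_abs, abs_of_nonneg (hφ0 _)]
    exact hφ1 _
  · filter_upwards with ω
    by_cases hω : |flow a N (Z ω) e / N - 1 / 2| ≤ 1 / 8
    · rw [Set.indicator_of_mem (by exact hω), hφd]
      simp only [Pi.one_apply]
      rw [cl_of_one_le]
      linarith only [hω]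
    · rw [Set.indicator_of_notMem (by exact hω)]
      exact hφ0 _

include hF hA h𝒯 hsub ha hm han hconv hZ hlaw in
/-- almost surely every element eventually stays high or stays low -/
theorem ae_dichotomy (e : E) (he : e ∈ A) :
    ∀ᵐ ω ∂ℙ, (∀ᶠ N : ℕ in atTop, 5 / 8 * (N : ℝ) < flow a N (Z ω) e) ∨
      (∀ᶠ N : ℕ in atTop, flow a N (Z ω) e < 3 / 8 * (N : ℝ)) := by
  have hsum : ∑' N : ℕ, ℙ {ω | |flow a N (Z ω) e / N - 1 / 2| ≤ 1 / 8} ≠ ⊤ := by
    have h1 : ∀ N : ℕ, ℙ {ω | |flow a N (Z ω) e / N - 1 / 2| ≤ 1 / 8} ≤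
        ENNReal.ofReal (2 * Real.exp (-((N : ℝ) / 4))) := by
      intro N
      rw [← ofReal_measureReal]
      exact ENNReal.ofReal_le_ofReal
        (prob_middle ℙ A F hF hA 𝒯 h𝒯 hsub a ha hm han hconv Z hZ hlaw e he N)
    refine ne_top_of_le_ne_top ?_ (ENNReal.tsum_le_tsum h1)
    exact summable_tail.tsum_ofReal_ne_top
  filter_upwards [ae_eventually_notMem hsum] with ω hω
  obtain ⟨N0, hN0⟩ := eventually_atTop.1 hω
  have hstep : ∀ N, |flow a (N + 1) (Z ω) e - flow a N (Z ω) e| ≤ 1 := fun N =>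
    flow_succ_sub a ha N (Z ω) e
  have hdi : ∀ N : ℕ, N0 ≤ N → 1 ≤ N → 5 / 8 * (N : ℝ) < flow a N (Z ω) e ∨
      flow a N (Z ω) e < 3 / 8 * (N : ℝ) := by
    intro N hN hN1
    have h := hN0 N hN
    have hNpos : (0 : ℝ) < N := by exact_mod_cast hN1
    have h' : ¬ |flow a N (Z ω) e / N - 1 / 2| ≤ 1 / 8 := h
    rw [not_le, lt_abs] at h'
    rcases h' with h' | h'
    · left
      have : 5 / 8 < flow a N (Z ω) e / N := by linarith only [h']
      rwa [lt_div_iff₀ hNpos] at this
    · right
      have : flow a N (Z ω) e / N < 3 / 8 := by linarith only [h']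
      rwa [div_lt_iff₀ hNpos] at this
  by_cases hlow : ∃ N1, N0 ≤ N1 ∧ 4 ≤ N1 ∧ flow a N1 (Z ω) e < 3 / 8 * (N1 : ℝ)
  · right
    obtain ⟨N1, h1, h2, h3⟩ := hlow
    refine eventually_atTop.2 ⟨N1, fun N hN => ?_⟩
    induction N, hN using Nat.le_induction with
    | base => exact h3
    | succ N hN ih =>
      rcases hdi (N + 1) (by omega) (by omega) with h | h
      · exfalso
        have h4 := (abs_le.1 (hstep N)).2
        have h5 : (4 : ℝ) ≤ N := by exact_mod_cast h2.trans hN
        push_cast at h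
        linarith only [ih, h4, h5, h]
      · exact h
  · left
    push Not at hlow
    refine eventually_atTop.2 ⟨max N0 4, fun N hN => ?_⟩
    rcases hdi N (le_trans (le_max_left _ _) hN) (by have := le_trans (le_max_right N0 4) hN; omega)
      with h | h
    · exact h
    · exact absurd h (not_lt.2 (hlow N (le_trans (le_max_left _ _) hN)
        (le_trans (le_max_right _ _) hN)))

/-- discrepancy of one coordinate from the pattern `B` -/
noncomputable def disc (B : Finset E) (N : ℕ) (e : E) (x : ℝ) : ℝ :=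
  if e ∈ B then 1 - cl (4 * (x / N) - 3 / 2) else cl (4 * (x / N) - 3 / 2)

omit [Countable E] in
theorem disc_nonneg (B : Finset E) (N : ℕ) (e : E) (x : ℝ) : 0 ≤ disc B N e x := by
  unfold disc
  split_ifs
  · linarith only [cl_le_one (4 * (x / N) - 3 / 2)]
  · exact cl_nonneg _

omit [Countable E] in
theorem disc_lip (B : Finset E) (N : ℕ) (hN : 1 ≤ N) (e : E) (x y : ℝ) :
    |disc B N e x - disc B N e y| ≤ 4 * |x - y| := by
  have hN1 : (1 : ℝ) ≤ N := by exact_mod_cast hN
  have hN0 : (0 : ℝ) < N := by linarith only [hN1]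
  have h : |cl (4 * (x / N) - 3 / 2) - cl (4 * (y / N) - 3 / 2)| ≤ 4 * |x - y| := by
    refine (cl_lip _ _).trans ?_
    rw [show (4 * (x / N) - 3 / 2) - (4 * (y / N) - 3 / 2) = 4 * ((x - y) / N) by ring,
      abs_mul, abs_of_pos (by norm_num : (0 : ℝ) < 4), abs_div, abs_of_pos hN0]
    have := div_le_self (abs_nonneg (x - y)) hN1
    linarith only [this]
  unfold disc
  split_ifs
  · rw [show 1 - cl (4 * (x / N) - 3 / 2) - (1 - cl (4 * (y / N) - 3 / 2)) =
      -(cl (4 * (x / N) - 3 / 2) - cl (4 * (y / N) - 3 / 2)) by ring, abs_neg]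
    exact h
  · exact h

omit [Countable E] in
theorem disc_high (B : Finset E) (N : ℕ) (hN : 1 ≤ N) (e : E) (x : ℝ)
    (h : 5 / 8 * (N : ℝ) < x) : disc B N e x = if e ∈ B then 0 else 1 := by
  have hN0 : (0 : ℝ) < N := by exact_mod_cast hN
  have h1 : 5 / 8 < x / N := by rwa [lt_div_iff₀ hN0]
  unfold disc
  rw [cl_of_one_le (by linarith only [h1])]
  simp

omit [Countable E] in
theorem disc_low (B : Finset E) (N : ℕ) (hN : 1 ≤ N) (e : E) (x : ℝ)
    (h : x < 3 / 8 * (N : ℝ)) : disc B N e x = if e ∈ B then 1 else 0 := by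
  have hN0 : (0 : ℝ) < N := by exact_mod_cast hN
  have h1 : x / N < 3 / 8 := by rwa [div_lt_iff₀ hN0]
  unfold disc
  rw [cl_of_nonpos (by linarith only [h1])]
  simp

/-- smooth test of the pattern `B` on `S` -/
noncomputable def test (S B : Finset E) (N : ℕ) (x : S → ℝ) : ℝ :=
  cl (1 - ∑ e : S, disc B N e (x e))

omit [Countable E] in
theorem test_lip (S B : Finset E) (N : ℕ) (hN : 1 ≤ N) :
    LipschitzWith (4 * S.card) (test S B N) := by
  refine LipschitzWith.of_dist_le_mul fun x y => ?_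
  rw [Real.dist_eq]
  unfold test
  refine (cl_lip _ _).trans ?_
  rw [show (1 - ∑ e : S, disc B N e (x e)) - (1 - ∑ e : S, disc B N e (y e)) =
    -(∑ e : S, (disc B N e (x e) - disc B N e (y e))) by
      rw [Finset.sum_sub_distrib]; ring, abs_neg]
  refine (Finset.abs_sum_le_sum_abs _ _).trans ?_
  have h : ∀ e ∈ (Finset.univ : Finset S), |disc B N e (x e) - disc B N e (y e)| ≤
      4 * dist x y := by
    intro e _
    refine (disc_lip B N hN e (x e) (y e)).trans ?_
    have h1 : dist (x e) (y e) ≤ dist x y := dist_le_pi_dist x y e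
    rw [Real.dist_eq] at h1
    linarith only [h1]
  refine (Finset.sum_le_sum h).trans ?_
  rw [Finset.sum_const, Finset.card_univ, Fintype.card_coe, nsmul_eq_mul]
  push_cast
  exact le_of_eq (by ring)

omit [Countable E] in
/-- value of the test on a configuration with clear positions -/
theorem test_eq_one (S B : Finset E) (N : ℕ) (x : S → ℝ)
    (h : ∀ e : S, disc B N e (x e) = 0) : test S B N x = 1 := by
  unfold test
  rw [Finset.sum_eq_zero fun e _ => h e]
  exact cl_of_one_le (by norm_num)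

omit [Countable E] in
theorem test_eq_zero (S B : Finset E) (N : ℕ) (x : S → ℝ) (e : S)
    (h : disc B N e (x e) = 1) : test S B N x = 0 := by
  unfold test
  refine cl_of_nonpos ?_
  have h2 : disc B N e (x e) ≤ ∑ e : S, disc B N e (x e) :=
    Finset.single_le_sum (f := fun e : S => disc B N e (x e))
      (fun e _ => disc_nonneg B N e (x e)) (Finset.mem_univ e)
  linarith only [h, h2]

omit [Countable E] in
theorem test_nonneg (S B : Finset E) (N : ℕ) (x : S → ℝ) : 0 ≤ test S B N x := cl_nonneg _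

omit [Countable E] in
theorem test_le_one (S B : Finset E) (N : ℕ) (x : S → ℝ) : test S B N x ≤ 1 := cl_le_one _

include hZ hlaw in
/-- the test on `Z + N 1_T` is close to the indicator of the pattern of `T` -/
theorem test_shift (S B : Finset E) (hS : (S : Set E) ⊆ A) (hB : B ⊆ S) (N : ℕ) (hN : 1 ≤ N)
    (T : Finset E) :
    |∫ ω, test S B N (fun e => Z ω e + N * ind T e) ∂ℙ - (if T ∩ S = B then 1 else 0)| ≤
      S.card * (2 * Real.exp (-((N : ℝ) / 4))) := by
  classical
  have hN0 : (0 : ℝ) < N := by exact_mod_cast hN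
  have hpat : T ∩ S = B ↔ ∀ e ∈ S, (e ∈ T ↔ e ∈ B) := by
    constructor
    · rintro rfl e he
      simp [he]
    · intro h
      ext e
      simp only [Finset.mem_inter]
      constructor
      · rintro ⟨h1, h2⟩
        exact (h e h2).1 h1
      · intro h1
        exact ⟨(h e (hB h1)).2 h1, hB h1⟩
  have hms : ∀ e, MeasurableSet {ω | (N : ℝ) / 4 ≤ |Z ω e|} := fun e =>
    measurableSet_le measurable_const (by fun_prop)
  have hmt : Measurable fun ω => test S B N (fun e => Z ω e + N * ind T e) :=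
    (test_lip S B N hN).continuous.measurable.comp (by fun_prop)
  have hint : Integrable (fun ω => test S B N (fun e => Z ω e + N * ind T e)) ℙ := by
    refine Integrable.mono' (integrable_const (1 : ℝ)) hmt.aestronglyMeasurable ?_
    filter_upwards with ω
    rw [Real.norm_eq_abs, abs_of_nonneg (test_nonneg _ _ _ _)]
    exact test_le_one _ _ _ _
  have hpt : ∀ ω, |test S B N (fun e => Z ω e + N * ind T e) - (if T ∩ S = B then 1 else 0)| ≤
      ∑ e ∈ S, Set.indicator {ω | (N : ℝ) / 4 ≤ |Z ω e|} (1 : Ω → ℝ) ω := by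
    intro ω
    by_cases hall : ∀ e ∈ S, |Z ω e| < (N : ℝ) / 4
    · have hd : ∀ e : S, disc B N e (Z ω e + N * ind T e) =
          if (e.1 ∈ T ↔ e.1 ∈ B) then 0 else 1 := by
        intro e
        have hz := abs_lt.1 (hall e e.2)
        unfold ind
        by_cases heT : e.1 ∈ T
        · rw [if_pos heT, disc_high B N hN e _ (by linarith only [hz])]
          simp [heT]
        · rw [if_neg heT, disc_low B N hN e _ (by linarith only [hz])]
          by_cases heB : e.1 ∈ B <;> simp [heT, heB]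
      have h0 : test S B N (fun e => Z ω e + N * ind T e) = if T ∩ S = B then 1 else 0 := by
        by_cases hTB : T ∩ S = B
        · rw [if_pos hTB]
          exact test_eq_one S B N _ fun e => by rw [hd e, if_pos (hpat.1 hTB e e.2)]
        · rw [if_neg hTB]
          rw [hpat] at hTB
          push Not at hTB
          obtain ⟨e, heS, he⟩ := hTB
          have he' : ¬ (e ∈ T ↔ e ∈ B) := by tauto
          exact test_eq_zero S B N _ ⟨e, heS⟩ (by rw [hd ⟨e, heS⟩, if_neg he'])
      rw [h0, sub_self, abs_zero]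
      exact Finset.sum_nonneg fun e _ => Set.indicator_nonneg (fun _ _ => zero_le_one) _
    · push Not at hall
      obtain ⟨e, heS, he⟩ := hall
      have h1 : |test S B N (fun e => Z ω e + N * ind T e) - (if T ∩ S = B then 1 else 0)| ≤ 1 := by
        have := test_nonneg S B N (fun e => Z ω e + N * ind T e)
        have := test_le_one S B N (fun e => Z ω e + N * ind T e)
        rw [abs_le]
        split_ifs <;> constructor <;> linarith
      refine h1.trans ?_
      have h2 : Set.indicator {ω | (N : ℝ) / 4 ≤ |Z ω e|} (1 : Ω → ℝ) ω = 1 := by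
        rw [Set.indicator_of_mem (by exact he)]
        rfl
      rw [← h2]
      exact Finset.single_le_sum
        (f := fun e => Set.indicator {ω | (N : ℝ) / 4 ≤ |Z ω e|} (1 : Ω → ℝ) ω)
        (fun e _ => Set.indicator_nonneg (fun _ _ => zero_le_one) _) heS
  have hsplit : ∫ ω, test S B N (fun e => Z ω e + N * ind T e) ∂ℙ -
      (if T ∩ S = B then 1 else 0) =
      ∫ ω, (test S B N (fun e => Z ω e + N * ind T e) - (if T ∩ S = B then 1 else 0)) ∂ℙ := by
    rw [integral_sub hint (integrable_const _), integral_const]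
    simp only [probReal_univ, smul_eq_mul, mul_ite, mul_one, mul_zero]
  rw [hsplit]
  refine (abs_integral_le_integral_abs).trans ?_
  have hint2 : ∀ e ∈ S, Integrable
      (Set.indicator {ω | (N : ℝ) / 4 ≤ |Z ω e|} (1 : Ω → ℝ)) ℙ := fun e _ =>
    (integrable_const (1 : ℝ)).indicator (hms e)
  calc ∫ ω, |test S B N (fun e => Z ω e + N * ind T e) - (if T ∩ S = B then 1 else 0)| ∂ℙ
      ≤ ∫ ω, ∑ e ∈ S, Set.indicator {ω | (N : ℝ) / 4 ≤ |Z ω e|} (1 : Ω → ℝ) ω ∂ℙ := by
        refine integral_mono_of_nonneg ?_ (integrable_finsetSum S hint2) ?_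
        · filter_upwards with ω using abs_nonneg _
        · filter_upwards with ω using hpt ω
    _ = ∑ e ∈ S, ℙ.real {ω | (N : ℝ) / 4 ≤ |Z ω e|} := by
        rw [integral_finsetSum S hint2]
        exact Finset.sum_congr rfl fun e _ => integral_indicator_one (hms e)
    _ ≤ ∑ _e ∈ S, 2 * Real.exp (-((N : ℝ) / 4)) :=
        Finset.sum_le_sum fun e he => tail_Z ℙ A Z hZ hlaw e (hS he) _
    _ = S.card * (2 * Real.exp (-((N : ℝ) / 4))) := by
        rw [Finset.sum_const, nsmul_eq_mul]

include ha hm hZ in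
theorem measurableSet_limit (e : E) :
    MeasurableSet {ω | e ∈ limitSet a (Z ω)} := by
  have : {ω | e ∈ limitSet a (Z ω)} =
      ⋃ N0 : ℕ, ⋂ N : ℕ, ⋂ _ : N0 ≤ N, {ω | (N : ℝ) / 2 ≤ flow a N (Z ω) e} := by
    ext ω
    simp only [limitSet, eventually_atTop, Set.mem_ofPred_eq, Set.mem_iUnion, Set.mem_iInter]
  rw [this]
  refine MeasurableSet.iUnion fun N0 => MeasurableSet.iInter fun N => MeasurableSet.iInter
    fun _ => measurableSet_le measurable_const (measurable_flow_comp a ha hm Z hZ N e)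

include hF hA h𝒯 hsub ha hm han hconv hZ hlaw in
/-- the tests along the infinite flow converge to the probability of the pattern -/
theorem tendsto_test (S B : Finset E) (hS : (S : Set E) ⊆ A) :
    Tendsto (fun N : ℕ => ∫ ω, test S B N (fun e => flow a N (Z ω) e) ∂ℙ) atTop
      (𝓝 (ℙ.real {ω | ∀ e ∈ S, (e ∈ limitSet a (Z ω) ↔ e ∈ B)})) := by
  classical
  have hms : MeasurableSet {ω | ∀ e ∈ S, (e ∈ limitSet a (Z ω) ↔ e ∈ B)} := by
    have : {ω | ∀ e ∈ S, (e ∈ limitSet a (Z ω) ↔ e ∈ B)} =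
        ⋂ e ∈ S, {ω | e ∈ limitSet a (Z ω) ↔ e ∈ B} := by
      ext ω; simp only [Set.mem_ofPred_eq, Set.mem_iInter]
    rw [this]
    refine Finset.measurableSet_biInter S fun e _ => ?_
    have h1 := measurableSet_limit a ha hm Z hZ e
    by_cases he : e ∈ B
    · have : {ω | e ∈ limitSet a (Z ω) ↔ e ∈ B} = {ω | e ∈ limitSet a (Z ω)} := by
        ext ω; simp [he]
      rw [this]
      exact h1
    · have : {ω | e ∈ limitSet a (Z ω) ↔ e ∈ B} = {ω | e ∈ limitSet a (Z ω)}ᶜ := by
        ext ω; simp [he]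
      rw [this]
      exact h1.compl
  rw [← integral_indicator_one hms]
  have hae : ∀ᵐ ω ∂ℙ, ∀ e ∈ S, (∀ᶠ N : ℕ in atTop, 5 / 8 * (N : ℝ) < flow a N (Z ω) e) ∨
      (∀ᶠ N : ℕ in atTop, flow a N (Z ω) e < 3 / 8 * (N : ℝ)) :=
    (ae_ball_iff S.countable_toSet).2 fun e he =>
      ae_dichotomy ℙ A F hF hA 𝒯 h𝒯 hsub a ha hm han hconv Z hZ hlaw e (hS he)
  refine Tendsto.congr' (f₁ := fun N : ℕ => ∫ ω, test S B (max N 1)
    (fun e => flow a (max N 1) (Z ω) e) ∂ℙ) ?_ ?_
  · filter_upwards [eventually_ge_atTop 1] with N hN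
    rw [max_eq_left hN]
  refine tendsto_integral_of_dominated_convergence (fun _ => (1 : ℝ)) (fun N => ?_)
    (integrable_const _) (fun N => ?_) ?_
  · exact ((test_lip S B (max N 1) (le_max_right _ _)).continuous.measurable.comp
      (measurable_pi_iff.2 fun e =>
        measurable_flow_comp a ha hm Z hZ (max N 1) e)).aestronglyMeasurable
  · filter_upwards with ω
    rw [Real.norm_eq_abs, abs_of_nonneg (test_nonneg _ _ _ _)]
    exact test_le_one _ _ _ _
  · filter_upwards [hae] with ω hω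
    have hev : ∀ᶠ N : ℕ in atTop, ∀ e ∈ S, disc B N e (flow a N (Z ω) e) =
        if (e ∈ limitSet a (Z ω) ↔ e ∈ B) then 0 else 1 := by
      rw [Filter.eventually_all_finset]
      intro e he
      rcases hω e he with h | h
      · have hmem : e ∈ limitSet a (Z ω) := by
          filter_upwards [h] with N hN
          have : (0 : ℝ) ≤ N := Nat.cast_nonneg N
          linarith only [hN]
        filter_upwards [h, eventually_ge_atTop 1] with N hN hN1
        rw [disc_high B N hN1 e _ hN]
        simp [hmem]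
      · have hmem : e ∉ limitSet a (Z ω) := by
          intro hmem
          have hmem' : ∀ᶠ N : ℕ in atTop, (N : ℝ) / 2 ≤ flow a N (Z ω) e := hmem
          obtain ⟨N, h1, h2, h3⟩ := (h.and (hmem'.and (eventually_ge_atTop 1))).exists
          have : (1 : ℝ) ≤ N := by exact_mod_cast h3
          linarith only [h1, h2]
        filter_upwards [h, eventually_ge_atTop 1] with N hN hN1
        rw [disc_low B N hN1 e _ hN]
        by_cases heB : e ∈ B <;> simp [hmem, heB]
    have hev2 : ∀ᶠ N : ℕ in atTop, test S B (max N 1) (fun e => flow a (max N 1) (Z ω) e) =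
        Set.indicator {ω | ∀ e ∈ S, (e ∈ limitSet a (Z ω) ↔ e ∈ B)} (1 : Ω → ℝ) ω := by
      filter_upwards [hev, eventually_ge_atTop 1] with N hN hN1
      rw [max_eq_left hN1]
      by_cases hω : ∀ e ∈ S, (e ∈ limitSet a (Z ω) ↔ e ∈ B)
      · rw [Set.indicator_of_mem (by exact hω)]
        exact test_eq_one S B N _ fun e => by rw [hN e e.2, if_pos (hω e e.2)]
      · rw [Set.indicator_of_notMem (by exact hω)]
        push Not at hω
        obtain ⟨e, heS, he⟩ := hω
        have he' : ¬ (e ∈ limitSet a (Z ω) ↔ e ∈ B) := by (clear * - he; tauto)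
        exact test_eq_zero S B N _ ⟨e, heS⟩ (by rw [hN e heS, if_neg he'])
    exact tendsto_const_nhds.congr' (hev2.mono fun N h => h.symm)

end

theorem limit_main [Countable E] [DecidableEq E] {Ω : Type*} [MeasurableSpace Ω]
    (ℙ : Measure Ω) [IsProbabilityMeasure ℙ]
    (A : Set E) (F : ℕ → Finset E) (hF : Monotone F) (hA : ∀ e, e ∈ A ↔ ∃ n, e ∈ F n)
    (𝒯 : ℕ → Finset (Finset E)) (h𝒯 : ∀ n, (𝒯 n).Nonempty)
    (hsub : ∀ n, ∀ T ∈ 𝒯 n, T ⊆ F n)
    (a : (E → ℝ) → E → ℝ) (ha : IsDrift a) (hm : ∀ e, Measurable fun w : E → ℝ => a w e)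
    (han : ∀ n, IsDrift (ustp (𝒯 n))) (hconv : ConvDrift (fun n => ustp (𝒯 n)) a)
    (Z : Ω → E → ℝ) (hZ : Measurable Z)
    (hlaw : ∀ S : Finset E, (S : Set E) ⊆ A →
      Measure.map (fun ω (e : S) => Z ω e) ℙ = Measure.pi fun _ => logistic)
    (S B : Finset E) (hS : (S : Set E) ⊆ A) (hB : B ⊆ S) :
    Tendsto (fun n => (((𝒯 n).filter fun T => T ∩ S = B).card : ℝ) / (𝒯 n).card) atTop
      (𝓝 (ℙ.real {ω | ∀ e ∈ S, (e ∈ limitSet a (Z ω) ↔ e ∈ B)})) := by
  set q := ℙ.real {ω | ∀ e ∈ S, (e ∈ limitSet a (Z ω) ↔ e ∈ B)} with hq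
  rw [Metric.tendsto_atTop]
  intro ε hε
  have h1 := tendsto_test ℙ A F hF hA 𝒯 h𝒯 hsub a ha hm han hconv Z hZ hlaw S B hS
  have h2 : Tendsto (fun N : ℕ => (S.card : ℝ) * (2 * Real.exp (-((N : ℝ) / 4)))) atTop
      (𝓝 0) := by
    have := summable_tail.tendsto_atTop_zero.const_mul (S.card : ℝ)
    simpa only [mul_zero] using this
  obtain ⟨N, hN1, hN2, hN3⟩ := ((Metric.tendsto_nhds.1 h1 (ε / 3) (by positivity)).and
    ((h2.eventually_lt_const (by positivity : (0 : ℝ) < ε / 3)).and
      (eventually_ge_atTop 1))).exists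
  have h3 := tendsto_finite ℙ A F hF hA 𝒯 h𝒯 hsub a ha hm han hconv Z hZ hlaw S hS
    (test S B N) (4 * S.card) 1 (test_lip S B N hN3)
    (fun x => abs_le.2 ⟨by linarith only [test_nonneg S B N x], test_le_one S B N x⟩) N
  obtain ⟨n0, hn0⟩ := Metric.tendsto_atTop.1 h3 (ε / 3) (by positivity)
  refine ⟨n0, fun n hn => ?_⟩
  have h4 := hn0 n hn
  have hc : (0 : ℝ) < (𝒯 n).card := by exact_mod_cast (h𝒯 n).card_pos
  have h5 : |(((𝒯 n).filter fun T => T ∩ S = B).card : ℝ) / (𝒯 n).card -
      (∑ T ∈ 𝒯 n, ∫ ω, test S B N (fun e => Z ω e + N * ind T e) ∂ℙ) / (𝒯 n).card| ≤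
      S.card * (2 * Real.exp (-((N : ℝ) / 4))) := by
    have h6 : (((𝒯 n).filter fun T => T ∩ S = B).card : ℝ) =
        ∑ T ∈ 𝒯 n, (if T ∩ S = B then (1 : ℝ) else 0) := by
      rw [Finset.sum_boole]
    rw [h6, ← sub_div, ← Finset.sum_sub_distrib, abs_div, abs_of_pos hc, div_le_iff₀ hc]
    refine (Finset.abs_sum_le_sum_abs _ _).trans ?_
    have h7 : ∀ T ∈ 𝒯 n, |(if T ∩ S = B then (1 : ℝ) else 0) -
        ∫ ω, test S B N (fun e => Z ω e + N * ind T e) ∂ℙ| ≤
        S.card * (2 * Real.exp (-((N : ℝ) / 4))) := by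
      intro T _
      rw [abs_sub_comm]
      exact test_shift ℙ A Z hZ hlaw S B hS hB N hN3 T
    refine (Finset.sum_le_sum h7).trans ?_
    rw [Finset.sum_const, nsmul_eq_mul]
    exact le_of_eq (by ring)
  rw [Real.dist_eq] at h4 hN1 ⊢
  have h8 := abs_sub_le ((((𝒯 n).filter fun T => T ∩ S = B).card : ℝ) / (𝒯 n).card)
    ((∑ T ∈ 𝒯 n, ∫ ω, test S B N (fun e => Z ω e + N * ind T e) ∂ℙ) / (𝒯 n).card) q
  have h9 := abs_sub_le
    ((∑ T ∈ 𝒯 n, ∫ ω, test S B N (fun e => Z ω e + N * ind T e) ∂ℙ) / (𝒯 n).card)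
    (∫ ω, test S B N (fun e => flow a N (Z ω) e) ∂ℙ) q
  linarith

end Vale.Agent.P143
end
end

section

section

/-!
Weak convergence on `E → Bool` from convergence of cylinder probabilities.
-/

namespace Vale.Agent.P143

open Filter Topology MeasureTheory Uniformity

/-- a continuous function on the Cantor cube almost depends on finitely many coordinates -/
theorem exists_finset_osc {E : Type*} (f : C(E → Bool, ℝ)) {ε : ℝ} (hε : 0 < ε) :
    ∃ S : Finset E, ∀ ω ω' : E → Bool, (∀ e ∈ S, ω e = ω' e) → |f ω - f ω'| < ε := by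
  have huc : UniformContinuous f := CompactSpace.uniformContinuous_of_continuous f.continuous
  have h1 : (fun p : (E → Bool) × (E → Bool) => (f p.1, f p.2)) ⁻¹'
      {q : ℝ × ℝ | dist q.1 q.2 < ε} ∈ 𝓤 (E → Bool) :=
    huc (Metric.dist_mem_uniformity hε)
  rw [Pi.uniformity, Filter.mem_iInf] at h1
  obtain ⟨I, hI, V, hV, hs⟩ := h1
  refine ⟨hI.toFinset, fun ω ω' h => ?_⟩
  have h2 : (ω, ω') ∈ ⋂ i, V i := by
    refine Set.mem_iInter.2 fun i => ?_
    obtain ⟨t, ht, hts⟩ := hV i
    refine hts ?_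
    have h3 : ω i = ω' i := h i (hI.mem_toFinset.2 i.2)
    show (ω i, ω' i) ∈ t
    rw [h3]
    exact refl_mem_uniformity ht
  rw [← hs] at h2
  exact h2

/-- the point of the cube with support `B` -/
noncomputable def ptOf {E : Type*} (B : Finset E) : E → Bool := by
  classical exact fun e => decide (e ∈ B)

theorem measurableSet_cyl' {E : Type*} (S B : Finset E) :
    MeasurableSet {ω : E → Bool | ∀ e ∈ S, (ω e = true ↔ e ∈ B)} := by
  have : {ω : E → Bool | ∀ e ∈ S, (ω e = true ↔ e ∈ B)} =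
    ⋂ e ∈ S, {ω | (ω e = true ↔ e ∈ B)} := by ext ω; simp only [Set.mem_ofPred_eq, Set.mem_iInter]
  rw [this]
  refine Finset.measurableSet_biInter _ fun e _ => ?_
  have h : MeasurableSet ((fun ω : E → Bool => ω e) ⁻¹' {true}) :=
    measurable_pi_apply e (measurableSet_singleton true)
  by_cases heB : e ∈ B
  · simp only [heB, iff_true]
    exact h
  · simp only [heB, iff_false]
    exact h.compl

/-- the step function attached to `f` and the finite set `S` -/
noncomputable def stepFun {E : Type*} (f : (E → Bool) → ℝ) (S : Finset E) (ω : E → Bool) : ℝ :=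
  ∑ B ∈ S.powerset,
    ({ω : E → Bool | ∀ e ∈ S, (ω e = true ↔ e ∈ B)}.indicator (fun _ => f (ptOf B)) ω)

theorem stepFun_eq {E : Type*} (f : (E → Bool) → ℝ) (S : Finset E) (ω : E → Bool) :
    ∃ ω' : E → Bool, (∀ e ∈ S, ω e = ω' e) ∧ stepFun f S ω = f ω' := by
  classical
  refine ⟨ptOf (S.filter fun e => ω e = true), ?_, ?_⟩
  · intro e he
    simp only [ptOf, Finset.mem_filter, he, true_and]
    cases ω e <;> simp
  · unfold stepFun
    rw [Finset.sum_eq_single (S.filter fun e => ω e = true)]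
    · rw [Set.indicator_of_mem]
      intro e he
      simp [he]
    · intro B hB hne
      rw [Set.indicator_of_notMem]
      intro hmem
      apply hne
      ext e
      rw [Finset.mem_filter]
      constructor
      · intro he
        have := Finset.mem_powerset.1 hB he
        exact ⟨this, (hmem e this).2 he⟩
      · rintro ⟨he, h⟩
        exact (hmem e he).1 h
    · intro h
      exact absurd (Finset.mem_powerset.2 (Finset.filter_subset _ _)) h

theorem integral_stepFun {E : Type*} (f : (E → Bool) → ℝ) (S : Finset E)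
    (P : Measure (E → Bool)) [IsProbabilityMeasure P] :
    Integrable (stepFun f S) P ∧ ∫ ω, stepFun f S ω ∂P = ∑ B ∈ S.powerset,
      P.real {ω | ∀ e ∈ S, (ω e = true ↔ e ∈ B)} * f (ptOf B) := by
  have hint : ∀ B ∈ S.powerset, Integrable (fun ω =>
      ({ω : E → Bool | ∀ e ∈ S, (ω e = true ↔ e ∈ B)}.indicator (fun _ => f (ptOf B)) ω)) P := by
    intro B _
    exact (integrable_const _).indicator (measurableSet_cyl' S B)
  constructor
  · exact integrable_finsetSum _ hint
  · unfold stepFun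
    rw [integral_finsetSum _ hint]
    refine Finset.sum_congr rfl fun B _ => ?_
    rw [integral_indicator_const _ (measurableSet_cyl' S B)]
    rfl

theorem integral_sub_stepFun {E : Type*} [Countable E] (f : C(E → Bool, ℝ)) {ε : ℝ}
    (S : Finset E) (hS : ∀ ω ω' : E → Bool, (∀ e ∈ S, ω e = ω' e) → |f ω - f ω'| < ε)
    (P : Measure (E → Bool)) [IsProbabilityMeasure P] :
    |∫ ω, f ω ∂P - ∫ ω, stepFun f S ω ∂P| ≤ ε := by
  have hf : Integrable (fun ω => f ω) P := by
    obtain ⟨C, hC⟩ := (isCompact_range f.continuous).isBounded.exists_norm_le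
    refine Integrable.of_bound f.continuous.measurable.aestronglyMeasurable C ?_
    exact Filter.Eventually.of_forall fun ω => hC _ ⟨ω, rfl⟩
  rw [← integral_sub hf (integral_stepFun f S P).1]
  have h := norm_integral_le_of_norm_le_const (μ := P) (f := fun ω => f ω - stepFun f S ω)
    (C := ε) (Filter.Eventually.of_forall fun ω => by
      obtain ⟨ω', h1, h2⟩ := stepFun_eq f S ω
      rw [h2]
      exact (hS ω ω' h1).le)
  simpa only [ge_iff_le, Real.norm_eq_abs, probReal_univ, mul_one] using h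

/-- weak convergence follows from the convergence of the cylinder probabilities -/
theorem weak_of_cylinder {E : Type*} [Countable E] [DecidableEq E] (P : ℕ → Measure (E → Bool))
    (μ : Measure (E → Bool)) [∀ n, IsProbabilityMeasure (P n)] [IsProbabilityMeasure μ]
    (h : ∀ S B : Finset E, B ⊆ S → Tendsto (fun n => (P n).real
      {ω | ∀ e ∈ S, (ω e = true ↔ e ∈ B)}) atTop
      (𝓝 (μ.real {ω | ∀ e ∈ S, (ω e = true ↔ e ∈ B)}))) (f : C(E → Bool, ℝ)) :
    Tendsto (fun n => ∫ ω, f ω ∂(P n)) atTop (𝓝 (∫ ω, f ω ∂μ)) := by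
  rw [Metric.tendsto_atTop]
  intro ε hε
  obtain ⟨S, hS⟩ := exists_finset_osc f (show 0 < ε / 4 by linarith only [hε])
  have hstep : Tendsto (fun n => ∫ ω, stepFun f S ω ∂(P n)) atTop
      (𝓝 (∫ ω, stepFun f S ω ∂μ)) := by
    simp only [(integral_stepFun f S (P _)).2, (integral_stepFun f S μ).2]
    exact tendsto_finsetSum _ fun B hB => (h S B (Finset.mem_powerset.1 hB)).mul_const _
  obtain ⟨N, hN⟩ := Metric.tendsto_atTop.1 hstep (ε / 4) (by linarith only [hε])
  refine ⟨N, fun n hn => ?_⟩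
  have h1 := abs_le.1 (integral_sub_stepFun f S hS (P n))
  have h2 := abs_le.1 (integral_sub_stepFun f S hS μ)
  have h3 := hN n hn
  rw [Real.dist_eq] at h3 ⊢
  have h3' := abs_lt.1 h3
  rw [abs_lt]
  constructor <;> linarith only [h1, h2, h3']

end Vale.Agent.P143
end
end

section

section

/-!
Cayley graphs of finitely generated groups are connected and locally finite, and countable.
-/

namespace Vale.Agent.P143

open SimpleGraph

variable {Γ : Type*} [Group Γ]

theorem mulCayley_adj_mul (S : Set Γ) {g : Γ} (hg : g ∈ S) (v : Γ) :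
    (mulCayley S).Reachable v (v * g) := by
  by_cases h : v = v * g
  · rw [← h]
  · refine Adj.reachable ?_
    rw [mulCayley_adj']
    exact ⟨h, g, hg, Or.inl rfl⟩

/-- The Cayley graph of a generating set is connected. -/
theorem mulCayley_connected (S : Set Γ) (hS : Subgroup.closure S = ⊤) :
    (mulCayley S).Connected := by
  have key : ∀ g : Γ, g ∈ Subgroup.closure S → ∀ v : Γ, (mulCayley S).Reachable v (v * g) := by
    intro g hg
    induction hg using Subgroup.closure_induction with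
    | mem x hx => exact fun v => mulCayley_adj_mul S hx v
    | one => intro v; rw [mul_one]
    | mul x y _ _ hx hy =>
      intro v
      rw [← mul_assoc]
      exact (hx v).trans (hy (v * x))
    | inv x _ hx =>
      intro v
      have h := hx (v * x⁻¹)
      rw [inv_mul_cancel_right] at h
      exact h.symm
  have : Nonempty Γ := ⟨1⟩
  refine Connected.mk ?_
  intro u v
  have h := key (u⁻¹ * v) (by rw [hS]; exact Subgroup.mem_top _) u
  rwa [mul_inv_cancel_left] at h

/-- The Cayley graph of a finite set is locally finite. -/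
theorem mulCayley_locallyFinite (S : Set Γ) (hS : S.Finite) (v : Γ) :
    ((mulCayley S).neighborSet v).Finite := by
  refine ((hS.image fun g => v * g).union (hS.image fun g => v * g⁻¹)).subset ?_
  intro w hw
  rw [mem_neighborSet, mulCayley_adj'] at hw
  obtain ⟨_, g, hg, h | h⟩ := hw
  · exact Or.inl ⟨g, hg, h⟩
  · refine Or.inr ⟨g, hg, ?_⟩
    simp only [h, mul_inv_cancel_right]

/-- Left multiplication is an automorphism of the Cayley graph. -/
theorem mulCayley_map_mulLeft (S : Set Γ) (γ : Γ) :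
    (mulCayley S).map (Equiv.mulLeft γ).toEmbedding = mulCayley S := by
  ext a b
  rw [map_adj]
  constructor
  · rintro ⟨u, v, huv, rfl, rfl⟩
    exact mulCayley_adj_mul_iff_right.2 huv
  · intro h
    refine ⟨γ⁻¹ * a, γ⁻¹ * b, mulCayley_adj_mul_iff_right.2 h, ?_, ?_⟩
    · exact mul_inv_cancel_left γ a
    · exact mul_inv_cancel_left γ b

end Vale.Agent.P143
end
end

section

section

/-!
The factor map: measurability and equivariance.
-/

namespace Vale.Agent.P143

open SimpleGraph Filter Topology MeasureTheory unitInterval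

open Classical in
/-- the drift with the classical decidability instance -/
noncomputable def gdrift {V : Type*} (G : SimpleGraph V) : (Sym2 V → ℝ) → Sym2 V → ℝ :=
  drift G.edgeSet

open Classical in
/-- the factor map -/
noncomputable def factor {V : Type*} (G : SimpleGraph V) (U : V → I) (e : Sym2 V) : Bool :=
  decide (e ∈ limitSet (gdrift G) (edgeNoise G U))

theorem isDrift_gdrift {V : Type*} (G : SimpleGraph V) : IsDrift (gdrift G) := by
  classical
  exact isDrift_drift fun e he => G.not_isDiag_of_mem_edgeSet he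

theorem measurable_gdrift {V : Type*} [Countable V] (e : Sym2 V) :
    Measurable fun p : SimpleGraph V × (Sym2 V → ℝ) => gdrift p.1 p.2 e := by
  classical
  exact measurable_drift_graph e

theorem factor_eq_true {V : Type*} (G : SimpleGraph V) (U : V → I) (e : Sym2 V) :
    factor G U e = true ↔ e ∈ limitSet (gdrift G) (edgeNoise G U) := by
  simp [factor]

theorem measurable_factor {V : Type*} [Countable V] (e : Sym2 V) :
    Measurable fun p : SimpleGraph V × (V → I) => factor p.1 p.2 e := by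
  classical
  have : Countable (Sym2 V) := Quotient.countable
  have h1 : ∀ N : ℕ, Measurable fun p : SimpleGraph V × (V → I) =>
      flow (gdrift p.1) N (edgeNoise p.1 p.2) e := by
    intro N
    have h2 : Measurable fun p : SimpleGraph V × (Sym2 V → ℝ) => flow (gdrift p.1) N p.2 e :=
      measurable_flow (Θ := SimpleGraph V) (E := Sym2 V) (fun G => gdrift G)
        (fun G => isDrift_gdrift G) measurable_gdrift N e
    have h3 : Measurable fun p : SimpleGraph V × (V → I) => (p.1, edgeNoise p.1 p.2) :=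
      Measurable.prodMk measurable_fst (measurable_pi_iff.2 fun f => measurable_edgeNoise f)
    have h4 := h2.comp h3
    simp only [Function.comp_def] at h4
    exact h4
  have h2 : MeasurableSet {p : SimpleGraph V × (V → I) |
      e ∈ limitSet (gdrift p.1) (edgeNoise p.1 p.2)} := by
    have : {p : SimpleGraph V × (V → I) | e ∈ limitSet (gdrift p.1) (edgeNoise p.1 p.2)} =
        ⋃ n : ℕ, ⋂ N : ℕ, ⋂ _ : n ≤ N, {p | (N : ℝ) / 2 ≤
          flow (gdrift p.1) N (edgeNoise p.1 p.2) e} := by
      ext p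
      simp only [limitSet, eventually_atTop, Set.mem_ofPred_eq, Set.mem_iUnion, Set.mem_iInter]
    rw [this]
    refine MeasurableSet.iUnion fun n => MeasurableSet.iInter fun N => MeasurableSet.iInter
      fun _ => measurableSet_le measurable_const (h1 N)
  refine measurable_to_bool ?_
  convert h2 using 1
  ext p
  simp only [factor, Set.mem_preimage, Set.mem_singleton_iff, decide_eq_true_eq, Set.mem_ofPred_eq]

theorem measurable_factor_fixed {V : Type*} [Countable V] (G : SimpleGraph V) :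
    Measurable fun (U : V → I) (e : G.edgeSet) => factor G U e := by
  refine measurable_pi_iff.2 fun e => ?_
  have h1 : Measurable fun U : V → I => (G, U) := measurable_const.prodMk measurable_id
  have h2 := (measurable_factor (e : Sym2 V)).comp h1
  simp only [Function.comp_def] at h2
  exact h2

theorem measurable_gdrift_fixed {V : Type*} [Countable V] (G : SimpleGraph V) (e : Sym2 V) :
    Measurable fun w : Sym2 V → ℝ => gdrift G w e := by
  have h1 : Measurable fun w : Sym2 V → ℝ => (G, w) := measurable_const.prodMk measurable_id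
  have h2 := (measurable_gdrift e).comp h1
  simp only [Function.comp_def] at h2
  exact h2

theorem measurable_edgeNoise_fixed {V : Type*} [Countable V] (G : SimpleGraph V) :
    Measurable fun U : V → I => edgeNoise G U := by
  refine measurable_pi_iff.2 fun e => ?_
  have h1 : Measurable fun U : V → I => (G, U) := measurable_const.prodMk measurable_id
  have h2 := (measurable_edgeNoise e).comp h1
  simp only [Function.comp_def] at h2
  exact h2

theorem factor_map {V V' : Type*} (τ : V ≃ V') (G : SimpleGraph V) (U : V → I) (e : Sym2 V) :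
    factor (G.map τ.toEmbedding) (U ∘ τ.symm) (e.map τ) = factor G U e := by
  classical
  rw [Bool.eq_iff_iff, factor_eq_true, factor_eq_true]
  unfold limitSet
  simp only [Set.mem_ofPred_eq]
  have h : ∀ N, flow (gdrift (G.map τ.toEmbedding)) N
      (edgeNoise (G.map τ.toEmbedding) (U ∘ τ.symm)) (e.map τ) =
      flow (gdrift G) N (edgeNoise G U) e := by
    intro N
    have h1 := flow_comap (symE τ) (gdrift (G.map τ.toEmbedding)) (gdrift G)
      (fun w _ x => drift_map_graph τ G w x) N
      (edgeNoise (G.map τ.toEmbedding) (U ∘ τ.symm)) e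
    rw [symE_apply] at h1
    rw [h1]
    congr 1
    funext f
    exact edgeNoise_map τ G U f
  simp only [h]

end Vale.Agent.P143
end
end

section

section

/-!
The uniform spanning tree of the statement as a finite average over `spans`.
-/

namespace Vale.Agent.P143

open MeasureTheory ProbabilityTheory Filter Topology SimpleGraph

variable {V : Type*}

theorem isAcyclic_of_induce {K : SimpleGraph V} {S : Set V} (hS : ∀ a b, K.Adj a b → a ∈ S)
    (h : (K.induce S).IsAcyclic) : K.IsAcyclic := by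
  intro v c hc
  have hw : ∀ x ∈ c.support, x ∈ S := by
    intro x hx
    rw [Walk.mem_support_iff_exists_mem_edges_of_not_nil hc.not_nil] at hx
    obtain ⟨e, he, hxe⟩ := hx
    have h1 := c.edges_subset_edgeSet he
    obtain ⟨y, rfl⟩ := Sym2.mem_iff_exists.1 hxe
    exact hS x y h1
  apply h (c.induce S hw)
  rw [← Walk.isCycle_map_iff_of_injective
    (f := (Embedding.induce (G := K) S).toHom) Subtype.val_injective, Walk.map_induce]
  exact hc

theorem reachable_induce {K : SimpleGraph V} {S : Set V} (hS : ∀ a b, K.Adj a b → a ∈ S)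
    {x y : V} (h : K.Reachable x y) (hx : x ∈ S) (hy : y ∈ S) :
    (K.induce S).Reachable ⟨x, hx⟩ ⟨y, hy⟩ := by
  obtain ⟨p⟩ := h
  induction p with
  | nil => exact Reachable.refl _
  | @cons a b c hadj p ih =>
    have hb : b ∈ S := hS b a hadj.symm
    have h1 : (K.induce S).Adj ⟨a, hx⟩ ⟨b, hb⟩ := hadj
    exact h1.reachable.trans (ih hb hy)

theorem mem_verts_of_adj_fromEdgeSet {G : SimpleGraph V} (H : G.Subgraph) {T : Set (Sym2 V)}
    (hT : T ⊆ H.edgeSet) (a b : V) (h : (fromEdgeSet T).Adj a b) : a ∈ H.verts := by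
  rw [fromEdgeSet_adj] at h
  have := hT h.1
  rw [Subgraph.mem_edgeSet] at this
  exact H.edge_vert this

theorem isTree_induce_iff {G : SimpleGraph V} (H : G.Subgraph) (hc : H.Connected)
    (F T : Finset (Sym2 V)) (hF : (F : Set (Sym2 V)) = H.edgeSet) (hT : T ⊆ F) :
    ((fromEdgeSet (T : Set (Sym2 V))).induce H.verts).IsTree ↔
      Acyc T ∧ ∀ x y, Conn F x y → Conn T x y := by
  have hT' : (T : Set (Sym2 V)) ⊆ H.edgeSet := by
    rw [← hF]; exact_mod_cast hT
  have hadj := mem_verts_of_adj_fromEdgeSet H hT'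
  constructor
  · intro h
    refine ⟨isAcyclic_of_induce hadj h.isAcyclic, fun x y hxy => ?_⟩
    refine Conn.rec_on (fun x y => Conn T x y) (fun x => Conn.refl _ x)
      (fun x y z h1 h2 => h1.trans h2) (fun a b _ hab => ?_) hxy
    have hab' : s(a, b) ∈ H.edgeSet := by rw [← hF]; exact_mod_cast hab
    rw [Subgraph.mem_edgeSet] at hab'
    have ha : a ∈ H.verts := H.edge_vert hab'
    have hb : b ∈ H.verts := H.edge_vert hab'.symm
    have h1 := h.connected.preconnected ⟨a, ha⟩ ⟨b, hb⟩
    exact h1.map (Embedding.induce (G := fromEdgeSet (T : Set (Sym2 V))) H.verts).toHom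
  · rintro ⟨h1, h2⟩
    refine ⟨?_, h1.induce _⟩
    have hne : Nonempty H.verts := hc.coe.nonempty
    rw [connected_iff]
    refine ⟨?_, hne⟩
    rintro ⟨x, hx⟩ ⟨y, hy⟩
    have h3 : Conn F x y := by
      have h4 := (hc.coe.preconnected ⟨x, hx⟩ ⟨y, hy⟩).map H.hom
      have h5 : (fromEdgeSet (F : Set (Sym2 V))).Reachable x y := by
        obtain ⟨p⟩ := hc.coe.preconnected ⟨x, hx⟩ ⟨y, hy⟩
        have h6 : ∀ (u v : H.verts), H.coe.Adj u v →
            (fromEdgeSet (F : Set (Sym2 V))).Adj (u : V) (v : V) := by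
          intro u v huv
          rw [fromEdgeSet_adj, hF, Subgraph.mem_edgeSet]
          exact ⟨huv, huv.ne ∘ Subtype.ext⟩
        let f : H.coe →g fromEdgeSet (F : Set (Sym2 V)) := ⟨Subtype.val, fun {u v} huv => h6 u v huv⟩
        exact (Walk.reachable p).map f
      exact h5
    exact reachable_induce hadj (h2 x y h3) hx hy

theorem spanningTrees_eq [DecidableEq (Sym2 V)] {G : SimpleGraph V} (H : G.Subgraph)
    (hc : H.Connected) (F : Finset (Sym2 V)) (hF : (F : Set (Sym2 V)) = H.edgeSet) :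
    spanningTrees H = (fun (T : Finset (Sym2 V)) (e : G.edgeSet) => decide ((e : Sym2 V) ∈ T)) ''
      (spans F : Set (Finset (Sym2 V))) := by
  have hFG : (F : Set (Sym2 V)) ⊆ G.edgeSet := by
    rw [hF]; exact H.edgeSet_subset
  ext ω
  constructor
  · rintro ⟨h1, h2⟩
    classical
    have hset : {e : Sym2 V | ∃ h : e ∈ G.edgeSet, ω ⟨e, h⟩ = true}
        = ((F.filter fun e => ∃ h : e ∈ G.edgeSet, ω ⟨e, h⟩ = true : Finset (Sym2 V)) :
          Set (Sym2 V)) := by
      ext e
      simp only [Finset.coe_filter]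
      constructor
      · rintro ⟨h, he⟩
        have := h1 ⟨e, h⟩ he
        rw [← hF] at this
        exact ⟨by exact_mod_cast this, h, he⟩
      · rintro ⟨_, h⟩; exact h
    refine ⟨F.filter fun e => ∃ h : e ∈ G.edgeSet, ω ⟨e, h⟩ = true, ?_, ?_⟩
    · rw [hset, isTree_induce_iff H hc F _ hF (Finset.filter_subset _ _)] at h2
      rw [Finset.mem_coe, mem_spans]
      exact ⟨Finset.filter_subset _ _, h2.1, h2.2⟩
    · funext e
      have : ω e = true ↔ (e : Sym2 V) ∈ F.filter fun e => ∃ h : e ∈ G.edgeSet, ω ⟨e, h⟩ = true := by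
        rw [Finset.mem_filter]
        constructor
        · intro he
          have h3 := h1 e he
          rw [← hF] at h3
          exact ⟨by exact_mod_cast h3, e.2, he⟩
        · rintro ⟨_, _, h⟩; exact h
      by_cases hω : ω e = true
      · rw [hω]; simpa only [Finset.mem_filter, Subtype.coe_eta, Subtype.coe_prop, exists_const, Bool.decide_and,     Bool.decide_eq_true, Bool.and_eq_true, decide_eq_true_eq] using this.1 hω
      · rw [Bool.not_eq_true] at hω
        rw [hω, decide_eq_false_iff_not]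
        intro h
        have := this.2 h
        rw [hω] at this
        exact Bool.false_ne_true this
  · rintro ⟨T, hT, rfl⟩
    rw [Finset.mem_coe, mem_spans] at hT
    obtain ⟨hTF, hT1, hT2⟩ := hT
    refine ⟨fun e he => ?_, ?_⟩
    · rw [decide_eq_true_iff] at he
      rw [← hF]; exact_mod_cast hTF he
    · have hset : {e : Sym2 V | ∃ h : e ∈ G.edgeSet, decide (((⟨e, h⟩ : G.edgeSet) : Sym2 V) ∈ T) = true}
          = (T : Set (Sym2 V)) := by
        ext e
        constructor
        · rintro ⟨h, he⟩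
          rw [decide_eq_true_iff] at he
          exact_mod_cast he
        · intro he
          have he' : e ∈ T := by exact_mod_cast he
          exact ⟨hFG (by exact_mod_cast hTF he'), by rw [decide_eq_true_iff]; exact he'⟩
      rw [hset, isTree_induce_iff H hc F _ hF hTF]
      exact ⟨hT1, hT2⟩

theorem integral_uniformOn_finset {Ω : Type*} [MeasurableSpace Ω] [MeasurableSingletonClass Ω]
    (s : Finset Ω) (f : Ω → ℝ) :
    ∫ ω, f ω ∂(uniformOn (s : Set Ω)) = (∑ ω ∈ s, f ω) / s.card := by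
  have hcard : Measure.count (s : Set Ω) = s.card := Measure.count_apply_finset s
  have hfin : IsFiniteMeasure (Measure.count.restrict (s : Set Ω)) := ⟨by
    rw [Measure.restrict_apply_univ, hcard]; exact ENNReal.natCast_lt_top _⟩
  rw [uniformOn, ProbabilityTheory.cond, integral_smul_measure, hcard, setIntegral_finset s]
  · simp only [smul_eq_mul]
    rw [ENNReal.toReal_inv, ENNReal.toReal_natCast, div_eq_inv_mul]
    congr 1
    refine Finset.sum_congr rfl fun ω _ => ?_
    rw [measureReal_def, Measure.count_singleton, ENNReal.toReal_one, one_mul]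
  · rw [← (s : Set Ω).biUnion_of_singleton]
    simp only [SetLike.mem_coe, integrableOn_finset_iUnion, ne_eq, enorm_ne_top, not_false_eq_true, integrableOn_singleton_iff, enorm_eq_zero, MeasurableSet.singleton, Measure.count_singleton', ENNReal.one_lt_top, or_true, implies_true]

theorem injOn_spans [DecidableEq (Sym2 V)] {G : SimpleGraph V} (F : Finset (Sym2 V))
    (hFG : (F : Set (Sym2 V)) ⊆ G.edgeSet) :
    Set.InjOn (fun (T : Finset (Sym2 V)) (e : G.edgeSet) => decide ((e : Sym2 V) ∈ T))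
      (spans F : Set (Finset (Sym2 V))) := by
  intro T hT T' hT' h
  rw [Finset.mem_coe, mem_spans] at hT hT'
  have key : ∀ e ∈ F, (e ∈ T ↔ e ∈ T') := by
    intro e he
    have := congrFun h ⟨e, hFG (by exact_mod_cast he)⟩
    simpa using this
  ext e
  constructor
  · intro he; exact (key e (hT.1 he)).1 he
  · intro he; exact (key e (hT'.1 he)).2 he

open Classical in
theorem ust_eq_uniformOn_finset [DecidableEq (Sym2 V)] {G : SimpleGraph V} (H : G.Subgraph)
    (hc : H.Connected) (F : Finset (Sym2 V)) (hF : (F : Set (Sym2 V)) = H.edgeSet) :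
    ust H = uniformOn (((spans F).image fun (T : Finset (Sym2 V)) (e : G.edgeSet) =>
      decide ((e : Sym2 V) ∈ T) : Finset (G.edgeSet → Bool)) : Set (G.edgeSet → Bool)) := by
  rw [ust, spanningTrees_eq H hc F hF, Finset.coe_image]

/-- integrals against the uniform spanning tree are averages over `spans` -/
theorem integral_ust [Countable V] [DecidableEq (Sym2 V)] {G : SimpleGraph V} (H : G.Subgraph)
    (hc : H.Connected) (F : Finset (Sym2 V)) (hF : (F : Set (Sym2 V)) = H.edgeSet)
    (f : (G.edgeSet → Bool) → ℝ) :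
    ∫ ω, f ω ∂(ust H)
      = (∑ T ∈ spans F, f (fun e => decide ((e : Sym2 V) ∈ T))) / (spans F).card := by
  classical
  have hFG : (F : Set (Sym2 V)) ⊆ G.edgeSet := by
    rw [hF]; exact H.edgeSet_subset
  rw [ust_eq_uniformOn_finset H hc F hF, integral_uniformOn_finset,
    Finset.sum_image (injOn_spans F hFG), Finset.card_image_of_injOn (injOn_spans F hFG)]

theorem isProbabilityMeasure_ust [Countable V] [DecidableEq (Sym2 V)] {G : SimpleGraph V}
    (H : G.Subgraph) (hc : H.Connected) (F : Finset (Sym2 V))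
    (hF : (F : Set (Sym2 V)) = H.edgeSet) : IsProbabilityMeasure (ust H) := by
  classical
  rw [ust_eq_uniformOn_finset H hc F hF]
  exact isProbabilityMeasure_uniformOn (Finset.finite_toSet _)
    (by rw [Finset.coe_nonempty]; exact (spans_nonempty F).image _)

end Vale.Agent.P143
end
end

section

section

/-!
Exhaustions of connected locally finite graphs by finite connected subgraphs.
-/

namespace Vale.Agent.P143

open SimpleGraph

variable {V : Type*}

/-- ball of radius `n` around `o` -/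
def gball (G : SimpleGraph V) (o : V) (n : ℕ) : Set V :=
  {v | ∃ p : G.Walk v o, p.length ≤ n}

theorem root_mem_gball (G : SimpleGraph V) (o : V) (n : ℕ) : o ∈ gball G o n :=
  ⟨Walk.nil, by simp⟩

theorem gball_mono (G : SimpleGraph V) (o : V) : Monotone (gball G o) := by
  rintro m n hmn v ⟨p, hp⟩
  exact ⟨p, hp.trans hmn⟩

theorem gball_finite (G : SimpleGraph V) (hlf : ∀ v, (G.neighborSet v).Finite) (o : V) (n : ℕ) :
    (gball G o n).Finite := by
  induction n with
  | zero =>
    refine (Set.finite_singleton o).subset ?_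
    rintro v ⟨p, hp⟩
    cases p with
    | nil => exact rfl
    | cons h q => simp at hp
  | succ n ih =>
    refine ((Set.finite_singleton o).union (ih.biUnion fun w _ => hlf w)).subset ?_
    rintro v ⟨p, hp⟩
    cases p with
    | nil => exact Or.inl rfl
    | cons h q =>
      right
      rw [Set.mem_iUnion₂]
      refine ⟨_, ⟨q, ?_⟩, h.symm⟩
      rw [Walk.length_cons] at hp
      omega

theorem exists_mem_gball (G : SimpleGraph V) (hG : G.Connected) (o v : V) :
    ∃ n, v ∈ gball G o n := by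
  obtain ⟨p⟩ := hG.preconnected v o
  exact ⟨p.length, p, le_rfl⟩

theorem gball_connected (G : SimpleGraph V) (o : V) (n : ℕ) :
    ((⊤ : G.Subgraph).induce (gball G o n)).Connected := by
  classical
  rw [← connected_induce_iff]
  refine induce_connected_of_patches o (root_mem_gball G o n) ?_
  rintro v ⟨p, hp⟩
  refine ⟨{w | w ∈ p.support}, ?_, p.end_mem_support, p.start_mem_support, ?_⟩
  · intro w hw
    refine ⟨p.dropUntil w hw, ?_⟩
    exact (p.length_dropUntil_le_length hw).trans hp
  · exact p.connected_induce_support.preconnected _ _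

/-- A connected locally finite graph has a countable vertex set. -/
theorem countable_of_locallyFinite (G : SimpleGraph V) (hG : G.Connected)
    (hlf : ∀ v, (G.neighborSet v).Finite) : Countable V := by
  obtain ⟨o⟩ := hG.nonempty
  rw [← Set.countable_univ_iff]
  have h : (Set.univ : Set V) = ⋃ n, gball G o n := by
    symm
    rw [Set.eq_univ_iff_forall]
    intro v
    rw [Set.mem_iUnion]
    exact exists_mem_gball G hG o v
  rw [h]
  exact Set.countable_iUnion fun n => (gball_finite G hlf o n).countable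

/-- Exhaustions exist. -/
theorem exists_exhaustion (G : SimpleGraph V) (hG : G.Connected)
    (hlf : ∀ v, (G.neighborSet v).Finite) : ∃ H : ℕ → G.Subgraph, IsExhaustion H := by
  obtain ⟨o⟩ := hG.nonempty
  refine ⟨fun n => (⊤ : G.Subgraph).induce (gball G o n), ?_, ?_, ?_, ?_⟩
  · intro m n hmn
    exact Subgraph.induce_mono le_rfl (gball_mono G o hmn)
  · intro n
    exact gball_finite G hlf o n
  · intro n
    exact gball_connected G o n
  · refine le_antisymm le_top ⟨?_, ?_⟩
    · intro v _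
      rw [Subgraph.verts_iSup, Set.mem_iUnion]
      exact exists_mem_gball G hG o v
    · intro a b hab
      rw [Subgraph.iSup_adj]
      obtain ⟨m, hm⟩ := exists_mem_gball G hG o a
      obtain ⟨n, hn⟩ := exists_mem_gball G hG o b
      refine ⟨max m n, ?_⟩
      rw [Subgraph.induce_adj]
      exact ⟨gball_mono G o (le_max_left m n) hm, gball_mono G o (le_max_right m n) hn, hab⟩

theorem edgeSet_finite {G : SimpleGraph V} {H : G.Subgraph} (h : H.verts.Finite) :
    H.edgeSet.Finite := by
  refine ((h.prod h).image (fun p : V × V => s(p.1, p.2))).subset ?_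
  intro e
  induction e using Sym2.ind with
  | _ a b =>
    intro he
    rw [Subgraph.mem_edgeSet] at he
    exact ⟨(a, b), ⟨he.fst_mem, he.snd_mem⟩, rfl⟩

/-- Every vertex is in some member of an exhaustion. -/
theorem IsExhaustion.exists_mem {G : SimpleGraph V} {H : ℕ → G.Subgraph} (hH : IsExhaustion H)
    (v : V) : ∃ n, v ∈ (H n).verts := by
  have h : v ∈ (⨆ n, H n).verts := by rw [hH.union]; exact Set.mem_univ v
  rwa [Subgraph.verts_iSup, Set.mem_iUnion] at h

/-- Every edge is in some member of an exhaustion. -/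
theorem IsExhaustion.mem_edgeSet_iff {G : SimpleGraph V} {H : ℕ → G.Subgraph}
    (hH : IsExhaustion H) (e : Sym2 V) : e ∈ G.edgeSet ↔ ∃ n, e ∈ (H n).edgeSet := by
  induction e using Sym2.ind with
  | _ a b =>
    constructor
    · intro h
      have h' : (⨆ n, H n).Adj a b := by rw [hH.union]; exact h
      rw [Subgraph.iSup_adj] at h'
      obtain ⟨n, hn⟩ := h'
      exact ⟨n, hn⟩
    · rintro ⟨n, hn⟩
      rw [Subgraph.mem_edgeSet] at hn
      exact hn.adj_sub

/-- The finite edge sets of an exhaustion. -/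
noncomputable def IsExhaustion.edges {G : SimpleGraph V} {H : ℕ → G.Subgraph}
    (hH : IsExhaustion H) (n : ℕ) : Finset (Sym2 V) :=
  (edgeSet_finite (hH.finite n)).toFinset

theorem IsExhaustion.coe_edges {G : SimpleGraph V} {H : ℕ → G.Subgraph}
    (hH : IsExhaustion H) (n : ℕ) : (hH.edges n : Set (Sym2 V)) = (H n).edgeSet :=
  Set.Finite.coe_toFinset _

theorem IsExhaustion.mem_edges {G : SimpleGraph V} {H : ℕ → G.Subgraph}
    (hH : IsExhaustion H) {n : ℕ} {e : Sym2 V} : e ∈ hH.edges n ↔ e ∈ (H n).edgeSet :=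
  Set.Finite.mem_toFinset _

theorem IsExhaustion.edges_mono {G : SimpleGraph V} {H : ℕ → G.Subgraph}
    (hH : IsExhaustion H) : Monotone hH.edges := by
  intro m n hmn e he
  rw [hH.mem_edges] at he ⊢
  exact Subgraph.edgeSet_mono (hH.mono hmn) he

theorem IsExhaustion.mem_iff_exists {G : SimpleGraph V} {H : ℕ → G.Subgraph}
    (hH : IsExhaustion H) (e : Sym2 V) : e ∈ G.edgeSet ↔ ∃ n, e ∈ hH.edges n := by
  rw [hH.mem_edgeSet_iff]
  simp only [hH.mem_edges]

theorem IsExhaustion.edges_subset {G : SimpleGraph V} {H : ℕ → G.Subgraph}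
    (hH : IsExhaustion H) (n : ℕ) : (hH.edges n : Set (Sym2 V)) ⊆ G.edgeSet := by
  rw [hH.coe_edges]
  exact (H n).edgeSet_subset

/-- A finite set of edges of `G` is eventually contained in the edge sets of an exhaustion. -/
theorem IsExhaustion.eventually_subset {G : SimpleGraph V} {H : ℕ → G.Subgraph}
    (hH : IsExhaustion H) (S : Finset (Sym2 V)) (hS : (S : Set (Sym2 V)) ⊆ G.edgeSet) :
    ∃ N, ∀ n, N ≤ n → S ⊆ hH.edges n := by
  classical
  have h : ∀ e : Sym2 V, ∃ n, e ∈ S → e ∈ hH.edges n := by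
    intro e
    by_cases he : e ∈ S
    · obtain ⟨n, hn⟩ := (hH.mem_iff_exists e).1 (hS he)
      exact ⟨n, fun _ => hn⟩
    · exact ⟨0, fun h => absurd h he⟩
  choose k hk using h
  refine ⟨S.sup k, fun n hn e he => ?_⟩
  exact hH.edges_mono ((Finset.le_sup he).trans hn) (hk e he)

end Vale.Agent.P143
end
end

section

section

/-!
Final assembly.
-/

namespace Vale.Agent.P143

open SimpleGraph Filter Topology MeasureTheory unitInterval ProbabilityTheory

theorem measurableSet_cyl {E : Type*} (S B : Finset E) :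
    MeasurableSet {ω : E → Bool | ∀ e ∈ S, (ω e = true ↔ e ∈ B)} := by
  have : {ω : E → Bool | ∀ e ∈ S, (ω e = true ↔ e ∈ B)} =
    ⋂ e ∈ S, {ω | (ω e = true ↔ e ∈ B)} := by ext ω; simp only [Set.mem_ofPred_eq, Set.mem_iInter]
  rw [this]
  refine Finset.measurableSet_biInter _ fun e _ => ?_
  have h : MeasurableSet ((fun ω : E → Bool => ω e) ⁻¹' {true}) :=
    measurable_pi_apply e (measurableSet_singleton true)
  by_cases heB : e ∈ B
  · simp only [heB, iff_true]
    exact h
  · simp only [heB, iff_false]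
    exact h.compl

/-- the factor map has the law of the free uniform spanning forest -/
theorem isFUSF_factor {V : Type*} (G : SimpleGraph V) (hG : G.Connected)
    (hlf : ∀ v, (G.neighborSet v).Finite) :
    IsFUSF G ((iidLabels V).map fun U (e : G.edgeSet) => factor G U e) := by
  classical
  have hcV : Countable V := countable_of_locallyFinite G hG hlf
  have hcE : Countable (Sym2 V) := Quotient.countable
  have : IsProbabilityMeasure (iidLabels V) := by unfold iidLabels; infer_instance
  have hfm : Measurable fun (U : V → I) (e : G.edgeSet) => factor G U e :=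
    measurable_factor_fixed G
  have hprob : IsProbabilityMeasure ((iidLabels V).map fun U (e : G.edgeSet) => factor G U e) :=
    Measure.isProbabilityMeasure_map hfm.aemeasurable
  refine ⟨hprob, exists_exhaustion G hG hlf, ?_⟩
  intro H hH f
  obtain ⟨F, hFmono, hFH, hFG⟩ : ∃ F : ℕ → Finset (Sym2 V), Monotone F ∧
      (∀ n, (F n : Set (Sym2 V)) = (H n).edgeSet) ∧ ∀ e, e ∈ G.edgeSet ↔ ∃ n, e ∈ F n :=
    ⟨hH.edges, hH.edges_mono, hH.coe_edges, hH.mem_iff_exists⟩
  have hust : ∀ n, IsProbabilityMeasure (ust (H n)) := fun n =>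
    isProbabilityMeasure_ust (H n) (hH.connected n) (F n) (hFH n)
  refine weak_of_cylinder (fun n => ust (H n)) _ ?_ f
  intro S B hBS
  have hnd : ∀ e ∈ G.edgeSet, ¬ e.IsDiag := fun e he => G.not_isDiag_of_mem_edgeSet he
  have hFnd : ∀ n, ∀ e ∈ F n, ¬ e.IsDiag := fun n e he => hnd e ((hFG e).2 ⟨n, he⟩)
  have hmeasN : Measurable fun U : V → I => edgeNoise G U := measurable_edgeNoise_fixed G
  have key := limit_main (iidLabels V) G.edgeSet F hFmono hFG (fun n => spans (F n))
    (fun n => spans_nonempty _) (fun n T hT => spans_subset hT) (gdrift G) (isDrift_gdrift G)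
    (fun e => measurable_gdrift_fixed G e)
    (fun n => isDrift_ustp (hFnd n)) (convDrift hnd F hFmono hFG) (fun U => edgeNoise G U) hmeasN
    (fun S hS => edgeNoise_law G hlf S hS)
    (S.map (Function.Embedding.subtype _)) (B.map (Function.Embedding.subtype _))
    (by intro e he; simp only [Finset.coe_map, Function.Embedding.subtype_apply, Function.Embedding.coe_subtype, Set.mem_image, SetLike.mem_coe, Subtype.exists, exists_and_right, exists_eq_right] at he; exact he.1) (Finset.map_subset_map.2 hBS)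
  have h1 : ((iidLabels V).map fun U (e : G.edgeSet) => factor G U e).real
      {ω | ∀ e ∈ S, (ω e = true ↔ e ∈ B)} =
      (iidLabels V).real {U | ∀ e ∈ S.map (Function.Embedding.subtype _),
        (e ∈ limitSet (gdrift G) (edgeNoise G U) ↔
          e ∈ B.map (Function.Embedding.subtype _))} := by
    rw [map_measureReal_apply hfm (measurableSet_cyl S B)]
    congr 1
    ext U
    simp only [Set.mem_preimage, Set.mem_ofPred_eq, factor_eq_true, Finset.mem_map,
      Function.Embedding.subtype_apply, Subtype.exists, exists_and_right, exists_eq_right,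
      forall_exists_index]
    constructor
    · intro h e he hS
      refine (h ⟨e, he⟩ hS).trans ⟨fun h => ⟨he, h⟩, fun ⟨_, h⟩ => h⟩
    · intro h e hS
      refine (h e e.2 hS).trans ⟨fun ⟨_, h⟩ => h, fun h => ⟨e.2, h⟩⟩
  rw [h1]
  refine key.congr fun n => ?_
  have h2 := measurableSet_cyl S B
  rw [← integral_indicator_one h2, integral_ust (H n) (hH.connected n) (F n) (hFH n)]
  congr 1
  rw [Finset.card_filter]
  push_cast
  refine Finset.sum_congr rfl fun T _ => ?_
  have h3 : (T ∩ S.map (Function.Embedding.subtype _) = B.map (Function.Embedding.subtype _)) ↔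
      (fun e : G.edgeSet => decide ((e : Sym2 V) ∈ T)) ∈
        {ω : G.edgeSet → Bool | ∀ e ∈ S, (ω e = true ↔ e ∈ B)} := by
    simp only [Set.mem_ofPred_eq, decide_eq_true_eq]
    constructor
    · intro h e he
      have h4 : (e : Sym2 V) ∈ T ∩ S.map (Function.Embedding.subtype _) ↔
        (e : Sym2 V) ∈ B.map (Function.Embedding.subtype _) := by rw [h]
      simpa only [Finset.mem_inter, Finset.mem_map, Function.Embedding.subtype_apply, Subtype.exists,     exists_and_right, exists_eq_right, Subtype.coe_eta, he, Subtype.coe_prop, exists_const, and_true] using h4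
    · intro h
      ext e
      by_cases heG : e ∈ G.edgeSet
      · have h4 := h ⟨e, heG⟩
        have h5 : (⟨e, heG⟩ : G.edgeSet) ∈ B → (⟨e, heG⟩ : G.edgeSet) ∈ S := fun h => hBS h
        simp only [Finset.mem_inter, Finset.mem_map, Function.Embedding.subtype_apply, Subtype.exists, exists_and_right, exists_eq_right, heG, exists_true_left]
        (clear * - heG h4 h5; tauto)
      · simp only [Finset.mem_inter, Finset.mem_map, Function.Embedding.subtype_apply, Subtype.exists, exists_and_right, exists_eq_right, heG, IsEmpty.exists_iff, and_false]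
  by_cases h4 : T ∩ S.map (Function.Embedding.subtype _) = B.map (Function.Embedding.subtype _)
  · rw [if_pos h4, Set.indicator_of_mem (h3.1 h4)]
    rfl
  · rw [if_neg h4, Set.indicator_of_notMem (fun h => h4 (h3.2 h))]

end Vale.Agent.P143
end
end

section

section

/-!
The two halves of the final theorem.
-/

namespace Vale.Agent.P143

open SimpleGraph Filter Topology MeasureTheory unitInterval ProbabilityTheory

theorem cayley_part {Γ : Type*} [Group Γ] (S : Set Γ) (hS : S.Finite)
    (hcl : Subgroup.closure S = ⊤) :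
    ∃ μ : Measure ((mulCayley S).edgeSet → Bool), IsFUSF (mulCayley S) μ ∧ IsGroupFactor S μ := by
  have hconn := mulCayley_connected S hcl
  have hlf := mulCayley_locallyFinite S hS
  have hc : Countable Γ := countable_of_locallyFinite _ hconn hlf
  refine ⟨_, isFUSF_factor (mulCayley S) hconn hlf, ?_⟩
  refine ⟨fun U e => factor (mulCayley S) U e, measurable_factor_fixed _, ?_, rfl⟩
  intro γ U e
  have h := factor_map (Equiv.mulLeft γ) (mulCayley S) U (Sym2.map (Equiv.mulLeft γ⁻¹) e)
  rw [mulCayley_map_mulLeft, Sym2.map_map] at h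
  have h1 : (Equiv.mulLeft γ : Γ → Γ) ∘ (Equiv.mulLeft γ⁻¹ : Γ → Γ) = id := by
    ext x; simp only [Equiv.coe_mulLeft, Function.comp_apply, mul_inv_cancel_left, id_eq]
  rw [h1, Sym2.map_id] at h
  have h2 : (U ∘ (Equiv.mulLeft γ).symm) = fun v => U (γ⁻¹ * v) := by
    ext x; simp only [Equiv.mulLeft_symm, Equiv.coe_mulLeft, Function.comp_apply]
  rw [h2] at h
  exact h

theorem rule_part : ∃ Φ : SimpleGraph ℕ → (ℕ → I) → Sym2 ℕ → Bool, IsGraphRule Φ ∧
    ∀ G : SimpleGraph ℕ, G.Connected → (∀ v, (G.neighborSet v).Finite) →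
      IsFUSF G (ruleLaw Φ G) :=
  ⟨fun G U e => factor G U e, ⟨fun e => measurable_factor e, fun τ G U e => factor_map τ G U e⟩,
    fun G hG hlf => isFUSF_factor G hG hlf⟩

theorem unimodular_part (ρ : Measure (SimpleGraph ℕ × ℕ)) (hρ : IsUnimodular ρ) :
    ∃ Φ : SimpleGraph ℕ → (ℕ → I) → Sym2 ℕ → Bool, IsGraphRule Φ ∧
      ∀ᵐ p ∂ρ, IsFUSF p.1 (ruleLaw Φ p.1) := by
  obtain ⟨Φ, h1, h2⟩ := rule_part
  refine ⟨Φ, h1, ?_⟩
  filter_upwards [hρ.graph] with p hp
  exact h2 p.1 hp.1 hp.2

end Vale.Agent.P143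
end
end
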